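import Mathlib

/-! Row 180 (Kurosh problem for division rings): shared definitions and interface statements. -/

open Module

namespace Crest.Agent.R180

/-- words in two letters -/
abbrev Wd : Type := FreeMonoid Bool
/-- polynomials in formal traces of words -/
abbrev Tc : Type := MvPolynomial Wd ℚ
/-- trace polynomials -/
abbrev TP : Type := MonoidAlgebra Tc Wd

/-- a finite-dimensional division algebra with two marked elements and a normalised functional -/
structure Wit where
  E : Type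
  D : Type
  [fE : Field E]
  [cE : CharZero E]
  [rD : Ring D]
  [dD : IsDomain D]
  [aD : Algebra E D]
  [fD : FiniteDimensional E D]
  s : Bool → D
  τ : D →ₗ[E] E
  τ1 : τ 1 = 1

attribute [instance] Wit.fE Wit.cE Wit.rD Wit.dD Wit.aD Wit.fD

/-- value of a word -/
def Wit.word (W : Wit) : Wd →* W.D := FreeMonoid.lift W.s

/-- value of a trace polynomial -/
noncomputable def Wit.ev (W : Wit) (X : TP) : W.D :=
  X.coeff.sum fun w q => (MvPolynomial.aeval (fun w' => W.τ (W.word w')) q : W.E) • W.word w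

/-- Sub-task F: the ultraproduct step. -/
def FinalStmt : Prop :=
  ∀ (b : TP → ℕ) (W : ℕ → Wit),
    (∀ X, ∀ᶠ j in Filter.atTop,
      ¬ LinearIndependent (W j).E (fun i : Fin (b X) => (W j).ev X ^ (i : ℕ))) →
    (∀ j, j ≤ finrank (W j).E (Algebra.adjoin (W j).E (Set.range (W j).s))) →
    ∃ (D : Type) (_ : DivisionRing D), Countable D ∧ CharZero D ∧
      Algebra.IsAlgebraic (Subring.center D) D ∧
      (∃ x y : D, Algebra.adjoin (Subring.center D) ({x, y} : Set D) = ⊤) ∧
      ¬ FiniteDimensional (Subring.center D) D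

/-- transcendence degree of the quotient by an ideal -/
noncomputable def tdim {σ : Type} (p : Ideal (MvPolynomial σ ℚ)) : ℕ :=
  (Algebra.trdeg ℚ (MvPolynomial σ ℚ ⧸ p)).toNat

/-- Sub-task D0: transcendence degrees and derivations. -/
def TdimStmt : Prop :=
  ∀ (σ : Type) [Fintype σ],
    (∀ p : Ideal (MvPolynomial σ ℚ), p.IsPrime → tdim p ≤ Fintype.card σ) ∧
    (∀ p q : Ideal (MvPolynomial σ ℚ), p.IsPrime → q.IsPrime → p < q → tdim q < tdim p) ∧
    (∀ (p : Ideal (MvPolynomial σ ℚ)) (E : Type) [Field E] [CharZero E]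
      (φ : MvPolynomial σ ℚ →+* E), RingHom.ker φ = p →
      (∀ e : E, ∃ a b, φ b ≠ 0 ∧ e * φ b = φ a) →
      ∃ dE : (Fin (tdim p) → E) →ₗ[E] Derivation ℚ E E,
        ∀ v, (∀ i, dE v (φ (MvPolynomial.X i)) = 0) → v = 0)

/-- Sub-task D1: derivations that kill the structure constants are inner. -/
def InnerStmt : Prop :=
  ∀ (E D V : Type) [Field E] [CharZero E] [Ring D] [IsDomain D] [Algebra E D]
    [FiniteDimensional E D] [AddCommGroup V] [Module E V] [FiniteDimensional E V]
    (τ : D →ₗ[E] E) (D' : Subalgebra E D) (dE : V →ₗ[E] (E → E)) (dD : V →ₗ[E] (D → D))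
    (s : Bool → D),
    τ 1 = 1 → (∀ a b, τ (a * b) = τ (b * a)) →
    (∀ v a b, dD v (a + b) = dD v a + dD v b) →
    (∀ v a b, dD v (a * b) = dD v a * b + a * dD v b) →
    (∀ v (c : E) a, dD v (c • a) = dE v c • a + c • dD v a) →
    (∀ v a, a ∈ D' → dD v a ∈ D') → (∀ b, s b ∈ D') →
    finrank E V ≤ finrank E ↥(⨅ b, LinearMap.ker ((LinearMap.proj (s b)).comp dD)) + finrank E D' +
      (finrank E (Algebra.adjoin E (Set.range s)) ^ 3 +
        2 * finrank E (Algebra.adjoin E (Set.range s)))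

/-- Sub-task D2: the centraliser bound. -/
def CentStmt : Prop :=
  ∀ (E D V ι : Type) [Field E] [Ring D] [IsDomain D] [Algebra E D]
    [FiniteDimensional E D] [AddCommGroup V] [Module E V] [FiniteDimensional E V] [Fintype ι]
    (τ : D →ₗ[E] E) (D' : Subalgebra E D) (f : V →ₗ[E] D) (p q : ι → D) (X Y g : D) (θ : ℕ),
    τ 1 = 1 → (∀ i, q i ∈ D') →
    (∀ a ∈ D', ∑ i, p i * a * q i = algebraMap E D (τ a)) →
    X ∈ D' → g ∈ D' → g ≠ 0 → X * g = g * Y →
    LinearIndependent E (fun i : Fin θ => X ^ (i : ℕ)) →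
    (∀ v, f v ∈ D') → (∀ v, X * f v = f v * Y) →
    θ * finrank E V ≤ θ * finrank E (LinearMap.ker f) + finrank E D'

end Crest.Agent.R180
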