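import Crest.Agent.R180.Gr
import Crest.Agent.R180.Defs

/-! K-polynomials of homogeneous ideals of a weighted polynomial ring. -/

open Module MvPolynomial

namespace Crest.Agent.R180

/-- a positively weighted set of variables -/
structure Wt (σ Γ : Type) [AddCommGroup Γ] where
  w : σ → Γ
  fd : ∀ u, FiniteDimensional ℚ (weightedHomogeneousSubmodule ℚ w u)

variable {σ Γ : Type} [AddCommGroup Γ] [LinearOrder Γ] (W : Wt σ Γ)

namespace Wt

/-- the grading of the polynomial ring -/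
noncomputable def gP : Gr Γ (MvPolynomial σ ℚ) where
  π u := weightedHomogeneousComponent W.w u
  sum m := by
    refine ⟨(weightedHomogeneousComponent_finsupp (w := W.w) m).toFinset, fun u hu => ?_, ?_⟩
    · by_contra h
      exact hu ((Set.Finite.mem_toFinset _).2 h)
    · rw [← finsum_eq_sum _ (weightedHomogeneousComponent_finsupp m),
        sum_weightedHomogeneousComponent]
  orth u u' m := weightedHomogeneousComponent_of_mem (weightedHomogeneousComponent_mem _ _ _)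
  fd u := by
    have := W.fd u
    refine Submodule.finiteDimensional_of_le (S₂ := weightedHomogeneousSubmodule ℚ W.w u) ?_
    rintro _ ⟨m, rfl⟩
    exact weightedHomogeneousComponent_mem _ _ _

lemma gP_iff {u : Γ} {p : MvPolynomial σ ℚ} :
    W.gP.π u p = p ↔ IsWeightedHomogeneous W.w p u :=
  ⟨fun h => h ▸ weightedHomogeneousComponent_isWeightedHomogeneous u p,
    weightedHomogeneousComponent_eq_self⟩

lemma gP_hom (u : Γ) (p : MvPolynomial σ ℚ) : IsWeightedHomogeneous W.w (W.gP.π u p) u :=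
  W.gP_iff.1 (W.gP.idem u p)

/-- homogeneous ideals -/
def HomI (I : Ideal (MvPolynomial σ ℚ)) : Prop := W.gP.Hom (I.restrictScalars ℚ)

/-- Hilbert function of the quotient ring -/
noncomputable def hI (I : Ideal (MvPolynomial σ ℚ)) : HF Γ := W.gP.hq ⊤ (I.restrictScalars ℚ)

/-- homogeneous primes -/
def GP : Set (Ideal (MvPolynomial σ ℚ)) := {p | p.IsPrime ∧ W.HomI p}

section Mod

variable {M : Type} [AddCommGroup M] [Module ℚ M] [Module (MvPolynomial σ ℚ) M]
  [IsScalarTower ℚ (MvPolynomial σ ℚ) M]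

/-- graded modules -/
def GM (g : Gr Γ M) : Prop :=
  ∀ (p : MvPolynomial σ ℚ) u m d, IsWeightedHomogeneous W.w p u → g.π d m = m → g.π (u + d) (p • m) = p • m

lemma gm_gP : W.GM W.gP := fun _ _ _ _ hp hm => W.gP_iff.2 (hp.mul (W.gP_iff.1 hm))

/-- multiplication by a polynomial -/
noncomputable def lm (M : Type) [AddCommGroup M] [Module ℚ M] [Module (MvPolynomial σ ℚ) M]
    [IsScalarTower ℚ (MvPolynomial σ ℚ) M] (p : MvPolynomial σ ℚ) : M →ₗ[ℚ] M :=
  (LinearMap.lsmul (MvPolynomial σ ℚ) M p).restrictScalars ℚ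

@[simp] lemma lm_apply (p : MvPolynomial σ ℚ) (m : M) : lm M p m = p • m := rfl

lemma GM.op {W : Wt σ Γ} {g : Gr Γ M} (hg : W.GM g) {p : MvPolynomial σ ℚ} {u : Γ}
    (hp : IsWeightedHomogeneous W.w p u) : g.Op g (lm M p) u :=
  g.op_of g fun d m hm => by rw [add_comm]; exact hg p u m d hp hm

/-- colon ideal -/
noncomputable def col (N : Submodule (MvPolynomial σ ℚ) M) (m : M) : Ideal (MvPolynomial σ ℚ) :=
  N.comap (LinearMap.toSpanSingleton (MvPolynomial σ ℚ) M m)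

omit [Module ℚ M] [IsScalarTower ℚ (MvPolynomial σ ℚ) M] in
lemma mem_col {N : Submodule (MvPolynomial σ ℚ) M} {m : M} {p : MvPolynomial σ ℚ} :
    p ∈ col N m ↔ p • m ∈ N := Iff.rfl

lemma GM.col {W : Wt σ Γ} {g : Gr Γ M} (hg : W.GM g) {N : Submodule (MvPolynomial σ ℚ) M}
    (hN : g.Hom (N.restrictScalars ℚ)) {m : M} {d : Γ} (hm : g.π d m = m) :
    W.HomI (col N m) ∧ g.Hom ((N ⊔ Submodule.span (MvPolynomial σ ℚ) {m}).restrictScalars ℚ) ∧
    g.hq ((N ⊔ Submodule.span (MvPolynomial σ ℚ) {m}).restrictScalars ℚ) (N.restrictScalars ℚ) =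
      tt d • W.hI (Wt.col N m) := by
  have hZ : W.gP.Op g ((LinearMap.toSpanSingleton (MvPolynomial σ ℚ) M m).restrictScalars ℚ) d :=
    W.gP.op_of g fun u p hp => hg p u m d (W.gP_iff.1 hp) hm
  have e : (N ⊔ Submodule.span (MvPolynomial σ ℚ) {m}).restrictScalars ℚ =
      N.restrictScalars ℚ ⊔ (⊤ : Submodule ℚ (MvPolynomial σ ℚ)).map
        ((LinearMap.toSpanSingleton (MvPolynomial σ ℚ) M m).restrictScalars ℚ) := by
    ext x
    simp only [Submodule.restrictScalars_mem, Submodule.mem_sup, Submodule.mem_span_singleton,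
      Submodule.map_top, LinearMap.mem_range, LinearMap.restrictScalars_apply,
      LinearMap.toSpanSingleton_apply]
  refine ⟨hN.comap hZ, e ▸ hN.sup (W.gP.hom_top.map hZ), ?_⟩
  rw [e, W.gP.hq_exact g hZ W.gP.hom_top hN, top_inf_eq]
  rfl

lemma smul_mem_of_X {N : Submodule ℚ M} (hN : ∀ v, ∀ m ∈ N, (X v : MvPolynomial σ ℚ) • m ∈ N)
    (p : MvPolynomial σ ℚ) : ∀ m ∈ N, p • m ∈ N := by
  induction p using MvPolynomial.induction_on with
  | C a => intro m hm; rw [← algebraMap_eq, algebraMap_smul]; exact N.smul_mem a hm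
  | add p q hp hq => intro m hm; rw [add_smul]; exact N.add_mem (hp m hm) (hq m hm)
  | mul_X p v hp => intro m hm; rw [mul_smul]; exact hp _ (hN v m hm)

lemma noeth [Finite σ] [Module.Finite (MvPolynomial σ ℚ) M] (N₂ N₁ : Submodule ℚ M)
    (h₂ : ∀ v, ∀ m ∈ N₂, (X v : MvPolynomial σ ℚ) • m ∈ N₁) (hle : N₁ ≤ N₂) :
    ∃ F : Finset M, N₂ ≤ N₁ ⊔ Submodule.span ℚ (F : Set M) := by
  have s₂ := smul_mem_of_X (N := N₂) fun v m hm => hle (h₂ v m hm)
  have s₁ := smul_mem_of_X (N := N₁) fun v m hm => h₂ v m (hle hm)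
  let N : Submodule (MvPolynomial σ ℚ) M :=
    { carrier := N₂, add_mem' := N₂.add_mem, zero_mem' := N₂.zero_mem,
      smul_mem' := fun p m hm => s₂ p m hm }
  obtain ⟨F, hF⟩ := IsNoetherian.noetherian N
  have key : ∀ (p : MvPolynomial σ ℚ), ∀ m ∈ N₂, p • m - constantCoeff p • m ∈ N₁ := by
    intro p m hm
    induction p using MvPolynomial.induction_on with
    | C a => rw [constantCoeff_C, ← algebraMap_eq, algebraMap_smul, sub_self]; exact N₁.zero_mem
    | add p q hp hq =>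
      rw [map_add, add_smul, add_smul, add_sub_add_comm]; exact N₁.add_mem hp hq
    | mul_X p v _ =>
      rw [map_mul, constantCoeff_X, mul_zero, zero_smul, sub_zero, mul_smul]
      exact s₁ p _ (h₂ v m hm)
  refine ⟨F, fun m hm => ?_⟩
  have hm' : m ∈ Submodule.span (MvPolynomial σ ℚ) (F : Set M) := by rw [hF]; exact hm
  obtain ⟨c, -, rfl⟩ := Submodule.mem_span_finset.1 hm'
  refine Submodule.sum_mem _ fun f hf => ?_
  have hf' : f ∈ N₂ := by
    have : f ∈ N := by rw [← hF]; exact Submodule.subset_span hf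
    exact this
  rw [← sub_add_cancel (c f • f) (constantCoeff (c f) • f)]
  exact Submodule.add_mem_sup (key _ f hf') (Submodule.smul_mem _ _ (Submodule.subset_span hf))

lemma GM.serre [Finite σ] [Module.Finite (MvPolynomial σ ℚ) M] {W : Wt σ Γ} {g : Gr Γ M}
    (hg : W.GM g) (S : Finset σ) (N₂ N₁ : Submodule (MvPolynomial σ ℚ) M)
    (h₂ : g.Hom (N₂.restrictScalars ℚ)) (h₁ : g.Hom (N₁.restrictScalars ℚ)) (hle : N₁ ≤ N₂)
    (hS : ∀ v, v ∉ S → ∀ m ∈ N₂, (X v : MvPolynomial σ ℚ) • m ∈ N₁) :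
    (∏ v ∈ S, (1 - tt (W.w v))) • g.hq (N₂.restrictScalars ℚ) (N₁.restrictScalars ℚ) ∈
      LinearMap.range (cf (Γ := Γ)) := by
  refine g.serre (fun v => lm M (X v : MvPolynomial σ ℚ)) W.w
    (fun v => hg.op (isWeightedHomogeneous_X ℚ W.w v))
    (fun i j m => Or.inl (smul_comm _ _ _))
    (fun A B h _ hle => noeth A B (fun v m hm => h v ⟨m, hm, rfl⟩) hle) S _ _ h₂ h₁ hle ?_ ?_ ?_
  · rintro v _ ⟨m, hm, rfl⟩; exact N₂.smul_mem _ hm
  · rintro v _ ⟨m, hm, rfl⟩; exact N₁.smul_mem _ hm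
  · rintro v hv _ ⟨m, hm, rfl⟩; exact hS v hv m hm

end Mod

lemma hI_sup {I : Ideal (MvPolynomial σ ℚ)} (hI : W.HomI I) {f : MvPolynomial σ ℚ} {u : Γ}
    (hf : IsWeightedHomogeneous W.w f u) :
    W.HomI (col I f) ∧ W.HomI (I ⊔ Ideal.span {f}) ∧
      W.hI I = W.hI (I ⊔ Ideal.span {f}) + tt u • W.hI (col I f) := by
  obtain ⟨h1, h2, h3⟩ := W.gm_gP.col hI (W.gP_iff.2 hf)
  refine ⟨h1, h2, ?_⟩
  rw [← h3]
  exact (W.gP.hq_add _ _ _).symm

lemma hI_cut {p : Ideal (MvPolynomial σ ℚ)} (hp : p ∈ W.GP) {f : MvPolynomial σ ℚ} {u : Γ}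
    (hf : IsWeightedHomogeneous W.w f u) (hfp : f ∉ p) :
    W.hI (p ⊔ Ideal.span {f}) = (1 - tt u) • W.hI p := by
  have h := (W.hI_sup hp.2 hf).2.2
  have e : col p f = p := by
    ext a
    rw [mem_col, smul_eq_mul]
    exact ⟨fun h => (hp.1.mem_or_mem h).resolve_right hfp, fun h => p.mul_mem_right _ h⟩
  rw [e] at h
  rw [sub_smul, one_smul]
  exact eq_sub_of_add_eq h.symm

variable [IsOrderedAddMonoid Γ]

lemma isPrime_of_hom {I : Ideal (MvPolynomial σ ℚ)} (hI : W.HomI I) (h1 : I ≠ ⊤)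
    (h : ∀ u v a b, IsWeightedHomogeneous W.w a u → IsWeightedHomogeneous W.w b v → a * b ∈ I →
      a ∈ I ∨ b ∈ I) : I.IsPrime :=
  ⟨h1, fun {a b} hab => W.gP.prime_of_hom (LinearMap.mul ℚ _) hI
    (fun _ _ _ _ ha hb => W.gP_iff.2 ((W.gP_iff.1 ha).mul (W.gP_iff.1 hb)))
    (fun _ b ha => I.mul_mem_right b ha) (fun a _ hb => I.mul_mem_left a hb)
    (fun u v a b ha hb => h u v a b (W.gP_iff.1 ha) (W.gP_iff.1 hb)) a b hab⟩

/-- prime filtration -/
theorem hI_mem_span [Finite σ] (I : Ideal (MvPolynomial σ ℚ)) (hI : W.HomI I) :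
    W.hI I ∈ Submodule.span (GR Γ) (W.hI '' {p | p ∈ W.GP ∧ I ≤ p}) := by
  induction I using IsNoetherian.induction with
  | hgt I ih =>
  by_cases h1 : I = ⊤
  · have : W.hI I = 0 := by rw [h1]; exact W.gP.hq_self _
    rw [this]; exact Submodule.zero_mem _
  have hne : {J | ∃ f u, IsWeightedHomogeneous W.w f u ∧ f ∉ I ∧ J = col I f}.Nonempty :=
    ⟨_, 1, 0, isWeightedHomogeneous_one ℚ W.w, (Ideal.ne_top_iff_one I).1 h1, rfl⟩
  obtain ⟨_, ⟨f, u, hf, hfI, rfl⟩, hmax⟩ :=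
    set_has_maximal_iff_noetherian.2 (inferInstance : IsNoetherian _ (MvPolynomial σ ℚ)) _ hne
  obtain ⟨h2, h3, h4⟩ := W.hI_sup hI hf
  have hle : I ≤ col I f := fun a ha => Ideal.mul_mem_right f I ha
  have hp : (col I f).IsPrime := by
    refine W.isPrime_of_hom h2 ?_ fun u' v' a b _ hb hab => ?_
    · rw [Ideal.ne_top_iff_one, mem_col, one_smul]; exact hfI
    · by_contra hc
      push Not at hc
      refine hmax _ ⟨b * f, _, hb.mul hf, hc.2, rfl⟩ (lt_of_le_of_ne (fun c hc => ?_) fun he => ?_)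
      · rw [mem_col, smul_eq_mul] at hc ⊢
        rw [mul_left_comm]; exact Ideal.mul_mem_left I b hc
      · refine hc.1 (he ▸ ?_)
        rw [mem_col, smul_eq_mul] at hab ⊢
        rwa [← mul_assoc]
  rw [h4]
  refine Submodule.add_mem _ (Submodule.span_mono (Set.image_mono ?_) (ih _ ?_ h3))
    (Submodule.smul_mem _ _ (Submodule.subset_span ⟨_, ⟨⟨hp, h2⟩, hle⟩, rfl⟩))
  · exact fun p hp => ⟨hp.1, le_sup_left.trans hp.2⟩
  · refine lt_of_le_of_ne le_sup_left fun he => hfI ?_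
    rw [he]
    exact Ideal.mem_sup_right (Ideal.mem_span_singleton_self f)

end Wt

end Crest.Agent.R180
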