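import Crest.Agent.R180.Cls

/-! Multidegrees of homogeneous primes and the index ideal of a family of primes. -/

open Module MvPolynomial

namespace Crest.Agent.R180

/-- data for multidegrees -/
structure Sys (σ Γ Λ Λ₂ : Type) [AddCommGroup Γ] [CommRing Λ] [CommRing Λ₂] extends Wt σ Γ where
  θ : Multiplicative Γ →* PowerSeries Λ
  θ0 : ∀ u, PowerSeries.constantCoeff (θ u) = 1
  ne : ∀ v, PowerSeries.coeff 1 (θ (Multiplicative.ofAdd (w v))) ≠ 0
  ψ : Λ →+* Λ₂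

lemma coeff_mul_of_dvd {Λ : Type} [CommRing Λ] {c : ℕ} (G : PowerSeries Λ) {F : PowerSeries Λ}
    (h : PowerSeries.X ^ c ∣ F) :
    PowerSeries.coeff c (G * F) = PowerSeries.constantCoeff G * PowerSeries.coeff c F := by
  obtain ⟨F, rfl⟩ := h
  have := PowerSeries.coeff_X_pow_mul F c 0
  have h2 := PowerSeries.coeff_X_pow_mul (G * F) c 0
  rw [zero_add] at this h2
  rw [mul_left_comm, this, h2]
  simp

lemma dvd_of_dvd_mul {Λ : Type} [CommRing Λ] [IsDomain Λ] {c : ℕ} {G F : PowerSeries Λ}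
    (hG : PowerSeries.constantCoeff G ≠ 0) (h : PowerSeries.X ^ c ∣ G * F) :
    PowerSeries.X ^ c ∣ F :=
  PowerSeries.X_prime.pow_dvd_of_dvd_mul_left c (fun h => hG (PowerSeries.X_dvd_iff.1 h)) h

/-- series of order `≥ c` whose `c`-th coefficient maps into `A` -/
def Jc {Λ Λ₂ : Type} [CommRing Λ] [CommRing Λ₂] (ψ : Λ →+* Λ₂) (c : ℕ) (A : Ideal Λ₂) :
    Ideal (PowerSeries Λ) where
  carrier := {F | PowerSeries.X ^ c ∣ F ∧ ψ (PowerSeries.coeff c F) ∈ A}
  add_mem' := fun ha hb => ⟨dvd_add ha.1 hb.1, by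
    rw [map_add, map_add]; exact A.add_mem ha.2 hb.2⟩
  zero_mem' := ⟨dvd_zero _, by simp⟩
  smul_mem' := fun G F hF => ⟨hF.1.mul_left G, by
    rw [smul_eq_mul, coeff_mul_of_dvd G hF.1, map_mul]; exact A.mul_mem_left _ hF.2⟩

variable {σ Γ Λ Λ₂ : Type} [Fintype σ] [AddCommGroup Γ] [LinearOrder Γ] [CommRing Λ]
  [CommRing Λ₂] (S : Sys σ Γ Λ Λ₂)

namespace Sys

/-- the denominator -/
noncomputable def Pi : GR Γ := ∏ v, (1 - tt (S.w v))

/-- substitution `t ↦ 1 + ζ a` -/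
noncomputable def Θ : GR Γ →ₐ[ℤ] PowerSeries Λ := AddMonoidAlgebra.lift ℤ _ Γ S.θ

/-- the linear form of a degree -/
noncomputable def ℓ (u : Γ) : Λ := PowerSeries.coeff 1 (S.θ (Multiplicative.ofAdd u))

omit [Fintype σ] [LinearOrder Γ] in
lemma Θ_tt (u : Γ) : S.Θ (tt u) = S.θ (Multiplicative.ofAdd u) := by
  rw [Θ, tt]
  exact AddMonoidAlgebra.lift_of _ u

omit [Fintype σ] [LinearOrder Γ] in
lemma Θ_one_sub (u : Γ) : ∃ G : PowerSeries Λ, S.Θ (1 - tt u) = PowerSeries.X * G ∧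
    PowerSeries.constantCoeff G = -S.ℓ u := by
  have h : PowerSeries.X ∣ S.Θ (1 - tt u) := by
    rw [PowerSeries.X_dvd_iff, map_sub, map_one, Θ_tt, map_sub, S.θ0, map_one, sub_self]
  obtain ⟨G, hG⟩ := h
  refine ⟨G, hG, ?_⟩
  have := congrArg (PowerSeries.coeff 1) hG
  rw [PowerSeries.coeff_succ_X_mul, map_sub, map_one, Θ_tt, map_sub, PowerSeries.coeff_one,
    if_neg one_ne_zero, zero_sub, PowerSeries.coeff_zero_eq_constantCoeff] at this
  exact this.symm

omit [Fintype σ] [LinearOrder Γ] in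
lemma Θ_prod {κ : Type} (T : Finset κ) (d : κ → Γ) : ∃ G : PowerSeries Λ,
    S.Θ (∏ i ∈ T, (1 - tt (d i))) = PowerSeries.X ^ T.card * G ∧
    PowerSeries.constantCoeff G = ∏ i ∈ T, -S.ℓ (d i) := by
  choose G hG hG' using S.Θ_one_sub
  refine ⟨∏ i ∈ T, G (d i), ?_, ?_⟩
  · rw [map_prod, Finset.prod_congr rfl fun i _ => hG (d i), Finset.prod_mul_distrib,
      Finset.prod_const]
  · rw [map_prod, Finset.prod_congr rfl fun i _ => hG' (d i)]

/-- functions with polynomial numerator -/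
noncomputable def FF : Submodule (GR Γ) (HF Γ) :=
  (LinearMap.range cf).comap (LinearMap.lsmul (GR Γ) (HF Γ) S.Pi)

open Classical in
/-- the transformed numerator -/
noncomputable def TK (f : HF Γ) : PowerSeries Λ :=
  if h : f ∈ S.FF then S.Θ (Classical.choose h) else 0

omit [LinearOrder Γ] in
lemma TK_eq {f : HF Γ} {r : GR Γ} (h : cf r = S.Pi • f) : S.TK f = S.Θ r := by
  have h' : f ∈ S.FF := ⟨r, h⟩
  rw [TK, dif_pos h']
  congr 1
  exact cf_inj ((Classical.choose_spec h').trans h.symm)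

omit [LinearOrder Γ] in
lemma TK_add {f f' : HF Γ} (h : f ∈ S.FF) (h' : f' ∈ S.FF) : S.TK (f + f') = S.TK f + S.TK f' := by
  obtain ⟨r, hr⟩ := h
  obtain ⟨r', hr'⟩ := h'
  rw [S.TK_eq hr, S.TK_eq hr', ← map_add, S.TK_eq (r := r + r')]
  rw [map_add, hr, hr', smul_add]; rfl

omit [LinearOrder Γ] in
lemma TK_smul (a : GR Γ) {f : HF Γ} (h : f ∈ S.FF) : S.TK (a • f) = S.Θ a * S.TK f := by
  obtain ⟨r, hr⟩ := h
  rw [S.TK_eq hr, ← map_mul, S.TK_eq (r := a * r)]
  rw [← smul_eq_mul, map_smul, hr, smul_comm]; rfl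

omit [LinearOrder Γ] in
lemma TK_zero : S.TK 0 = 0 := by
  rw [S.TK_eq (r := 0) (by rw [map_zero, smul_zero]), map_zero]

lemma hI_FF {I : Ideal (MvPolynomial σ ℚ)} (hI : S.HomI I) : S.hI I ∈ S.FF :=
  S.gm_gP.serre Finset.univ ⊤ I S.gP.hom_top hI le_top (fun v hv => absurd (Finset.mem_univ v) hv)

variable [IsOrderedAddMonoid Γ]

lemma TK_mem {I : Ideal (MvPolynomial σ ℚ)} (hI : S.HomI I) (J : Ideal (PowerSeries Λ))
    (h : ∀ p ∈ S.GP, I ≤ p → S.TK (S.hI p) ∈ J) : S.TK (S.hI I) ∈ J := by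
  have key : ∀ f ∈ Submodule.span (GR Γ) (S.hI '' {p | p ∈ S.GP ∧ I ≤ p}),
      f ∈ S.FF ∧ S.TK f ∈ J := by
    intro f hf
    induction hf using Submodule.span_induction with
    | mem _ hx => obtain ⟨p, hp, rfl⟩ := hx; exact ⟨S.hI_FF hp.1.2, h p hp.1 hp.2⟩
    | zero => exact ⟨S.FF.zero_mem, by rw [TK_zero]; exact J.zero_mem⟩
    | add x y _ _ hx hy =>
      exact ⟨S.FF.add_mem hx.1 hy.1, by rw [S.TK_add hx.1 hy.1]; exact J.add_mem hx.2 hy.2⟩
    | smul a x _ hx =>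
      exact ⟨S.FF.smul_mem a hx.1, by rw [S.TK_smul a hx.1]; exact J.mul_mem_left _ hx.2⟩
  exact (key _ (S.hI_mem_span I hI)).2

/-- codimension -/
noncomputable def cd (p : Ideal (MvPolynomial σ ℚ)) : ℕ := Fintype.card σ - tdim p

omit [IsOrderedAddMonoid Γ] in
lemma cd_lt (hT : TdimStmt) {p q : Ideal (MvPolynomial σ ℚ)} (hp : p.IsPrime) (hq : q.IsPrime)
    (h : p < q) : cd p + 1 ≤ cd q := by
  have h1 := (hT σ).1 p hp
  have h2 := (hT σ).2.1 p q hp hq h
  unfold cd; omega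

omit [Fintype σ] [IsOrderedAddMonoid Γ] in
lemma lt_of_sup_le {p q : Ideal (MvPolynomial σ ℚ)} {f : MvPolynomial σ ℚ} (hf : f ∉ p)
    (h : p ⊔ Ideal.span {f} ≤ q) : p < q :=
  lt_of_le_of_ne (le_sup_left.trans h) fun he => hf (he ▸ h
    (Ideal.mem_sup_right (Ideal.mem_span_singleton_self f)))

theorem dvd_TK [IsDomain Λ] (hT : TdimStmt) (p : Ideal (MvPolynomial σ ℚ)) (hp : p ∈ S.GP) :
    PowerSeries.X ^ cd p ∣ S.TK (S.hI p) := by
  induction p using IsNoetherian.induction with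
  | hgt p ih =>
  by_cases hv : ∃ v, X v ∉ p
  · obtain ⟨v, hv⟩ := hv
    have hX := isWeightedHomogeneous_X ℚ S.w v
    have h1 := S.TK_mem (S.hI_sup hp.2 hX).2.1 (Ideal.span {PowerSeries.X ^ (cd p + 1)})
      (fun q hq hle => Ideal.mem_span_singleton.2 ((pow_dvd_pow _
        (cd_lt hT hp.1 hq.1 (lt_of_sup_le hv hle))).trans (ih q (lt_of_sup_le hv hle) hq)))
    obtain ⟨G, hG, hG'⟩ := S.Θ_one_sub (S.w v)
    rw [S.hI_cut hp hX hv, S.TK_smul _ (S.hI_FF hp.2), hG, Ideal.mem_span_singleton, pow_succ',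
      mul_assoc, mul_dvd_mul_iff_left PowerSeries.X_ne_zero] at h1
    exact dvd_of_dvd_mul (by rw [hG']; exact neg_ne_zero.2 (S.ne v)) h1
  · push Not at hv
    obtain ⟨r, hr⟩ := S.gm_gP.serre ∅ ⊤ p S.gP.hom_top hp.2 le_top
      (fun v _ m _ => Ideal.mul_mem_right m p (hv v))
    rw [Finset.prod_empty, one_smul] at hr
    obtain ⟨G, hG, -⟩ := S.Θ_prod Finset.univ S.w
    rw [S.TK_eq (r := S.Pi * r) (by rw [← smul_eq_mul, map_smul, hr]; rfl), map_mul, Pi, hG,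
      mul_assoc]
    exact (pow_dvd_pow _ (Nat.sub_le _ _)).mul_right _

lemma dvd_TK_of_lt [IsDomain Λ] (hT : TdimStmt) {p I : Ideal (MvPolynomial σ ℚ)} (hp : p.IsPrime)
    (hI : S.HomI I) (h : p < I) : PowerSeries.X ^ (cd p + 1) ∣ S.TK (S.hI I) :=
  Ideal.mem_span_singleton.1 (S.TK_mem hI _ fun q hq hle => Ideal.mem_span_singleton.2
    ((pow_dvd_pow _ (cd_lt hT hp hq.1 (h.trans_le hle))).trans (S.dvd_TK hT q hq)))

/-- the class of a prime -/
noncomputable def cl (p : Ideal (MvPolynomial σ ℚ)) : Λ₂ :=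
  S.ψ (PowerSeries.coeff (cd p) (S.TK (S.hI p)))

/-- the index ideal of a family of primes -/
noncomputable def Icl (A : Set (Ideal (MvPolynomial σ ℚ))) : Ideal Λ₂ :=
  Ideal.span (S.cl '' (A ∩ S.GP))

omit [IsOrderedAddMonoid Γ] in
lemma Icl_mono {A B : Set (Ideal (MvPolynomial σ ℚ))} (h : A ⊆ B) : S.Icl A ≤ S.Icl B :=
  Ideal.span_mono (Set.image_mono (Set.inter_subset_inter_left _ h))

omit [IsOrderedAddMonoid Γ] in
lemma cl_mem {A : Set (Ideal (MvPolynomial σ ℚ))} {p} (h : p ∈ A) (hp : p ∈ S.GP) :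
    S.cl p ∈ S.Icl A := Ideal.subset_span ⟨p, ⟨h, hp⟩, rfl⟩

/-- cutting with a homogeneous function -/
theorem cut [IsDomain Λ] (hT : TdimStmt) {A : Set (Ideal (MvPolynomial σ ℚ))} (hA : IsUpperSet A)
    {f : MvPolynomial σ ℚ} {u : Γ} (hf : IsWeightedHomogeneous S.w f u) {c : Λ₂}
    (hc : c ∈ S.Icl A) : S.ψ (S.ℓ u) * c ∈ S.Icl (A ∩ {p | f ∈ p}) := by
  have key : ∀ p ∈ A, p ∈ S.GP → S.ψ (S.ℓ u) * S.cl p ∈ S.Icl (A ∩ {p | f ∈ p}) := by
    intro p hpA hp
    by_cases hfp : f ∈ p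
    · exact Ideal.mul_mem_left _ _ (S.cl_mem ⟨hpA, hfp⟩ hp)
    have h1 := S.TK_mem (S.hI_sup hp.2 hf).2.1 (Jc S.ψ (cd p + 1) (S.Icl (A ∩ {p | f ∈ p})))
      (fun q hq hle => by
        have h2 := cd_lt hT hp.1 hq.1 (lt_of_sup_le hfp hle)
        have h3 := S.dvd_TK hT q hq
        refine ⟨(pow_dvd_pow _ h2).trans h3, ?_⟩
        rcases h2.eq_or_lt with h | h
        · rw [h]
          exact S.cl_mem ⟨hA (le_sup_left.trans hle) hpA,
            hle (Ideal.mem_sup_right (Ideal.mem_span_singleton_self f))⟩ hq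
        · rw [PowerSeries.X_pow_dvd_iff.1 h3 _ h, map_zero]; exact Ideal.zero_mem _)
    obtain ⟨G, hG, hG'⟩ := S.Θ_one_sub u
    have h2 := h1.2
    rw [S.hI_cut hp hf hfp, S.TK_smul _ (S.hI_FF hp.2), hG, mul_assoc,
      PowerSeries.coeff_succ_X_mul, coeff_mul_of_dvd _ (S.dvd_TK hT p hp), hG', map_mul, map_neg,
      neg_mul, neg_mem_iff] at h2
    exact h2
  induction hc using Submodule.span_induction with
  | mem _ hx => obtain ⟨p, hp, rfl⟩ := hx; exact key p hp.1 hp.2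
  | zero => rw [mul_zero]; exact Ideal.zero_mem _
  | add x y _ _ hx hy => rw [mul_add]; exact Ideal.add_mem _ hx hy
  | smul a x _ hx => rw [smul_eq_mul, mul_left_comm]; exact Ideal.mul_mem_left _ _ hx

theorem cut_prod [IsDomain Λ] (hT : TdimStmt) {A : Set (Ideal (MvPolynomial σ ℚ))}
    (hA : IsUpperSet A) {κ : Type} (T : Finset κ) {f : κ → MvPolynomial σ ℚ} {u : κ → Γ}
    (hf : ∀ i, IsWeightedHomogeneous S.w (f i) (u i)) {c : Λ₂} (hc : c ∈ S.Icl A) :
    (∏ i ∈ T, S.ψ (S.ℓ (u i))) * c ∈ S.Icl (A ∩ {p | ∀ i ∈ T, f i ∈ p}) := by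
  classical
  induction T using Finset.induction_on with
  | empty => simpa using hc
  | insert i T hi ih =>
    rw [Finset.prod_insert hi, mul_assoc]
    have hU : IsUpperSet {p : Ideal (MvPolynomial σ ℚ) | ∀ i ∈ T, f i ∈ p} :=
      fun p q h hp i hi => h (hp i hi)
    refine S.Icl_mono ?_ (S.cut hT (hA.inter hU) (hf i) ih)
    rintro p ⟨⟨h1, h2⟩, h3⟩
    refine ⟨h1, fun j hj => ?_⟩
    rcases Finset.mem_insert.1 hj with rfl | hj
    · exact h3
    · exact h2 j hj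

omit [Fintype σ] [IsOrderedAddMonoid Γ] in
lemma span_X_prime (T : Finset σ) :
    (Ideal.span (X '' (T : Set σ)) : Ideal (MvPolynomial σ ℚ)).IsPrime ∧
      ∀ v, v ∉ T → X v ∉ (Ideal.span (X '' (T : Set σ)) : Ideal (MvPolynomial σ ℚ)) := by
  classical
  let κ : MvPolynomial σ ℚ →ₐ[ℚ] MvPolynomial σ ℚ := aeval fun v => if v ∈ T then 0 else X v
  have e : (Ideal.span (X '' (T : Set σ)) : Ideal (MvPolynomial σ ℚ)) = RingHom.ker κ := by
    refine le_antisymm (Ideal.span_le.2 ?_) fun p hp => ?_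
    · rintro _ ⟨v, hv, rfl⟩
      simp [κ, show v ∈ T from hv]
    · have : ∀ p, p - κ p ∈ (Ideal.span (X '' (T : Set σ)) : Ideal (MvPolynomial σ ℚ)) := by
        intro p
        induction p using MvPolynomial.induction_on with
        | C a => simp [κ]
        | add p q hp hq => rw [map_add, add_sub_add_comm]; exact Ideal.add_mem _ hp hq
        | mul_X p v hp =>
          rw [map_mul, show κ (X v) = if v ∈ T then 0 else X v from aeval_X _ _]
          split_ifs with hv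
          · rw [mul_zero, sub_zero]
            exact Ideal.mul_mem_left _ _ (Ideal.subset_span ⟨v, hv, rfl⟩)
          · rw [← sub_mul]; exact Ideal.mul_mem_right _ _ hp
      simpa [RingHom.mem_ker.1 hp] using this p
  rw [e]
  refine ⟨RingHom.ker_isPrime κ, fun v hv => ?_⟩
  simp [κ, hv]

theorem one_mem [IsDomain Λ] (hT : TdimStmt) : (1 : Λ₂) ∈ S.Icl Set.univ := by
  classical
  have h0 : S.HomI ⊥ := fun u m hm => by
    rw [show m = 0 from hm, map_zero]; exact Submodule.zero_mem _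
  have key : ∀ T : Finset σ, S.HomI (Ideal.span (X '' (T : Set σ))) ∧
      S.hI (Ideal.span (X '' (T : Set σ))) = (∏ v ∈ T, (1 - tt (S.w v))) • S.hI ⊥ := by
    intro T
    induction T using Finset.induction_on with
    | empty => simpa using h0
    | insert v T hv ih =>
      have hX := isWeightedHomogeneous_X ℚ S.w v
      rw [Finset.coe_insert, Set.image_insert_eq, Ideal.span_insert, sup_comm,
        S.hI_cut ⟨(span_X_prime T).1, ih.1⟩ hX ((span_X_prime T).2 v hv), ih.2,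
        Finset.prod_insert hv, mul_smul]
      exact ⟨(S.hI_sup ih.1 hX).2.1, rfl⟩
  have e1 : S.hI (Ideal.span (X '' ((Finset.univ : Finset σ) : Set σ))) = cf 1 := by
    funext u
    have := S.gP.fd u
    have h1 := Gr.finrank_map_add (lcoeff ℚ (0 : σ →₀ ℕ)) (LinearMap.range (S.gP.π u))
    have e2 : (Ideal.span (X '' ((Finset.univ : Finset σ) : Set σ)) :
        Ideal (MvPolynomial σ ℚ)).restrictScalars ℚ = LinearMap.ker (lcoeff ℚ (0 : σ →₀ ℕ)) := by
      ext p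
      rw [Submodule.restrictScalars_mem, mem_ideal_span_X_image, LinearMap.mem_ker, lcoeff_apply]
      constructor
      · intro h
        by_contra h'
        obtain ⟨i, -, hi⟩ := h 0 (mem_support_iff.2 h')
        exact hi rfl
      · intro h m hm
        by_contra h'
        push Not at h'
        have : m = 0 := Finsupp.ext fun i => h' i (by simp)
        exact mem_support_iff.1 hm (this ▸ h)
    change ((finrank ℚ ↥(⊤ ⊓ LinearMap.range (S.gP.π u)) : ℕ) : ℤ) -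
      (finrank ℚ ↥(_ ⊓ LinearMap.range (S.gP.π u)) : ℕ) = (1 : GR Γ).coeff u
    rw [e2, top_inf_eq, inf_comm, ← h1, AddMonoidAlgebra.one_def, AddMonoidAlgebra.coeff_single,
      Finsupp.single_apply]
    push_cast
    rw [add_sub_cancel_right]
    split_ifs with hu
    · have : (LinearMap.range (S.gP.π u)).map (lcoeff ℚ (0 : σ →₀ ℕ)) = ⊤ := by
        rw [eq_top_iff]
        intro a _
        exact ⟨C a, S.gP.mem_range.2 (S.gP_iff.2 (hu ▸ isWeightedHomogeneous_C S.w a)), by simp⟩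
      rw [this]; simp
    · have : (LinearMap.range (S.gP.π u)).map (lcoeff ℚ (0 : σ →₀ ℕ)) = ⊥ := by
        rw [eq_bot_iff]
        rintro _ ⟨_, ⟨p, rfl⟩, rfl⟩
        exact (S.gP_hom u p).coeff_eq_zero 0 (by simpa using hu)
      rw [this]; simp
  have e2 : S.TK (S.hI ⊥) = 1 := by
    rw [S.TK_eq (r := 1) (by rw [← e1, (key _).2]; rfl), map_one]
  have hp : (⊥ : Ideal (MvPolynomial σ ℚ)) ∈ S.GP := ⟨Ideal.isPrime_bot, h0⟩
  have h1 := S.dvd_TK hT ⊥ hp
  have h2 : cd (⊥ : Ideal (MvPolynomial σ ℚ)) = 0 := by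
    by_contra h
    have := PowerSeries.X_pow_dvd_iff.1 h1 0 (Nat.pos_of_ne_zero h)
    rw [e2] at this
    simp at this
  have h3 : S.cl ⊥ = 1 := by rw [cl, h2, e2]; simp
  exact h3 ▸ S.cl_mem (Set.mem_univ _) hp

end Sys

end Crest.Agent.R180
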