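import Crest.Agent.R180.Rep

/-! The dimension count at a point. -/

open Module MvPolynomial

namespace Crest.Agent.R180

attribute [-instance] instDecidableEqLex

lemma finrank_le_ker_add {E V W : Type} [Field E] [AddCommGroup V] [Module E V] [AddCommGroup W]
    [Module E W] [FiniteDimensional E V] (f : V →ₗ[E] W) (U : Submodule E W)
    [FiniteDimensional E U] (h : ∀ v, f v ∈ U) :
    finrank E V ≤ finrank E (LinearMap.ker f) + finrank E U := by
  rw [← f.finrank_range_add_finrank_ker, add_comm]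
  exact Nat.add_le_add_left (Submodule.finrank_mono (by rintro _ ⟨v, rfl⟩; exact h v)) _

lemma finrank_le_sum {E V W κ : Type} [Field E] [AddCommGroup V] [Module E V] [AddCommGroup W]
    [Module E W] [FiniteDimensional E V] (f : κ → V →ₗ[E] W) (I : Finset κ)
    (h : ∀ v, (∀ k ∈ I, f k v = 0) → v = 0) :
    finrank E V ≤ ∑ k ∈ I, finrank E (LinearMap.range (f k)) := by
  have := LinearMap.finrank_le_finrank_of_injective
    (f := LinearMap.pi fun k : I => (f k).rangeRestrict)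
    ((injective_iff_map_eq_zero _).2 fun v hv => h v fun k hk =>
      congrArg Subtype.val (congrFun hv ⟨k, hk⟩))
  rwa [Module.finrank_pi_fintype, Finset.sum_coe_sort I
    fun k => finrank E (LinearMap.range (f k))] at this

lemma cent_step (hC : CentStmt) {E D V ι : Type} [Field E] [Ring D] [IsDomain D] [Algebra E D]
    [FiniteDimensional E D] [AddCommGroup V] [Module E V] [FiniteDimensional E V] [Fintype ι]
    (τ : D →ₗ[E] E) (D' D'' : Subalgebra E D) (f h : V →ₗ[E] D) (p q : ι → D) (X Y g : D) (θ : ℕ)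
    (h1 : τ 1 = 1) (h2 : ∀ i, q i ∈ D')
    (h3 : ∀ a ∈ D', ∑ i, p i * a * q i = algebraMap E D (τ a)) (h4 : X ∈ D') (h5 : g ∈ D')
    (h6 : g ≠ 0) (h7 : X * g = g * Y) (h8 : LinearIndependent E (fun i : Fin θ => X ^ (i : ℕ)))
    (h9 : ∀ v, f v ∈ D') (h10 : ∀ v, h v ∈ D'') (h11 : ∀ v, X * f v = f v * Y + g * h v) :
    θ * finrank E (LinearMap.range f) ≤ θ * finrank E D'' + finrank E D' := by
  have a1 := finrank_le_ker_add h (Subalgebra.toSubmodule D'') h10
  have a2 := hC E D (LinearMap.ker h) ι τ D' (f.comp (LinearMap.ker h).subtype) p q X Y g θ h1 h2 h3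
    h4 h5 h6 h7 h8 (fun v => h9 v) (fun v => by
      have := h11 v
      rwa [v.2, mul_zero, add_zero] at this)
  have a3 : finrank E (LinearMap.ker (f.comp (LinearMap.ker h).subtype)) ≤
      finrank E (LinearMap.ker f) := by
    rw [← Submodule.finrank_map_subtype_eq]
    exact Submodule.finrank_mono (by rintro _ ⟨v, hv, rfl⟩; exact hv)
  have a4 := f.finrank_range_add_finrank_ker
  rw [Subalgebra.finrank_toSubmodule] at a1
  nlinarith [Nat.mul_le_mul_left θ a1, Nat.mul_le_mul_left θ a3]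

lemma evG_mem {E D : Type} [Field E] [CharZero E] [Ring D] [Algebra E D] {s : Bool → D}
    (τ : D →ₗ[E] E) (D' : Subalgebra E D) (hs : ∀ b, s b ∈ D') (X : TP) : evG s τ X ∈ D' := by
  refine D'.sum_mem fun w hw => D'.smul_mem ?_ _
  clear hw
  induction w using FreeMonoid.inductionOn' with
  | one => rw [map_one]; exact D'.one_mem
  | of_mul b w ih => rw [map_mul, FreeMonoid.lift_eval_of]; exact D'.mul_mem (hs b) ih

lemma der_evG {E D : Type} [Field E] [CharZero E] [Ring D] [Algebra E D] {s : Bool → D}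
    (τ : D →ₗ[E] E) (d : Derivation ℚ E E) (δ : D → D) (h0 : ∀ a b, δ (a + b) = δ a + δ b)
    (h1 : ∀ a b, δ (a * b) = δ a * b + a * δ b) (h2 : ∀ (c : E) a, δ (c • a) = d c • a + c • δ a)
    (h3 : ∀ a, d (τ a) = τ (δ a)) (hs : ∀ b, δ (s b) = 0) (X : TP) : δ (evG s τ X) = 0 := by
  have hw : ∀ w, δ (FreeMonoid.lift s w) = 0 := by
    intro w
    induction w using FreeMonoid.inductionOn' with
    | one => simpa using h1 1 1
    | of_mul b w ih => rw [map_mul, FreeMonoid.lift_eval_of, h1, ih, hs]; simp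
  have hq : ∀ q : Tc, d (aeval (fun w' => τ (FreeMonoid.lift s w')) q) = 0 := by
    intro q
    induction q using MvPolynomial.induction_on with
    | C a => rw [aeval_C, d.map_algebraMap]
    | add p q hp hq => rw [map_add, map_add, hp, hq, add_zero]
    | mul_X p w hp => rw [map_mul, aeval_X, d.leibniz, hp, h3, hw]; simp
  refine (map_sum (AddMonoidHom.mk' δ h0) _ _).trans (Finset.sum_eq_zero fun w _ => ?_)
  exact (h2 _ _).trans (by rw [hq, hw]; simp)

variable {ι : Type} [Fintype ι] [LinearOrder ι] {K : Type} [Fintype K]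
  (B : (ι → ZMod 2) →+ (ι → ZMod 2) →+ ZMod 2) (l0 : ι)

/-- the conjugating element -/
noncomputable def Pt.g (t : Pt K ι) (k : K) (H : AddSubgroup (ι → ZMod 2)) : t.D B :=
  1 + t.s B l0 k - TG.pr B _ H (t.s B l0 k)

omit [Fintype K] in
lemma Pt.s_apply (t : Pt K ι) (k : K) (ε : ι → ZMod 2) : ∃ c : t.E, c ≠ 0 ∧
    t.s B l0 k ε = c * t.φ (X (Sum.inl (k, ε))) ∧
    ∀ d : Derivation ℚ t.E t.E, (∀ l, d (t.φ (X (Sum.inr l))) = 0) → d c = 0 := by
  refine ⟨(t.φ (zz K l0))⁻¹ * ∏ l, t.φ (X (Sum.inr l)) ^ (1 - (ε l).val),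
    mul_ne_zero (inv_ne_zero (t.hz l0)) (Finset.prod_ne_zero_iff.2 fun l _ =>
      pow_ne_zero _ (t.hx l)), ?_, fun d hd => ?_⟩
  · change _ * t.φ (_ * _) = _
    simp only [map_mul, map_prod, map_pow]
    ring
  · let C : Subfield t.E :=
      { carrier := {e | d e = 0}
        mul_mem' := fun {a b} ha hb => by
          change d (a * b) = 0
          rw [d.leibniz, show d a = 0 from ha, show d b = 0 from hb]; simp
        one_mem' := d.map_one_eq_zero
        add_mem' := fun {a b} ha hb => by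
          change d (a + b) = 0
          rw [map_add, show d a = 0 from ha, show d b = 0 from hb, add_zero]
        zero_mem' := map_zero d
        neg_mem' := fun {a} ha => by
          change d (-a) = 0
          rw [map_neg, show d a = 0 from ha, neg_zero]
        inv_mem' := fun a ha => by
          change d a⁻¹ = 0
          rw [d.leibniz_inv, show d a = 0 from ha, smul_zero] }
    refine C.mul_mem (C.inv_mem ?_) (C.prod_mem fun l _ => C.pow_mem (hd l) _)
    rw [zz, map_mul, map_prod]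
    exact C.mul_mem (hd _) (C.prod_mem fun l _ => hd l)

omit [Fintype K] in
lemma Pt.g_apply (t : Pt K ι) (k : K) (H : AddSubgroup (ι → ZMod 2)) {ε} (h : ε ∉ H) :
    t.g B l0 k H ε = t.s B l0 k ε := by
  rw [Pt.g, TG.sub_apply, TG.add_apply, TG.pr, if_neg h, TG.one_apply,
    if_neg (fun h' : ε = 0 => h (h' ▸ H.zero_mem)), zero_add, sub_zero]

omit [Fintype K] in
lemma Pt.pr_g (t : Pt K ι) (k : K) (H : AddSubgroup (ι → ZMod 2)) :
    TG.pr B _ H (t.g B l0 k H) = 1 := TG.ext fun ε => by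
  rw [TG.pr]
  split_ifs with h
  · rw [Pt.g, TG.sub_apply, TG.add_apply, TG.pr, if_pos h, add_sub_cancel_right]
  · exact ((TG.sub B _ H).one_mem ε h).symm

omit [Fintype K] in
lemma Pt.g_ne (t : Pt K ι) (k : K) (H : AddSubgroup (ι → ZMod 2)) : t.g B l0 k H ≠ 0 := by
  intro h
  have := congrFun (t.pr_g B l0 k H) 0
  rw [h, TG.pr, if_pos H.zero_mem, TG.one_apply, if_pos rfl] at this
  exact zero_ne_one this

/-- value of a trace polynomial at a point -/
noncomputable def Pt.ev {κ : Type} (t : Pt (Bool ⊕ κ) ι) (X : TP) : t.D B :=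
  evG (fun b => t.s B l0 (Sum.inl b)) (TG.τ B _) X

theorem count (hT : TdimStmt) (hI : InnerStmt) (hC : CentStmt) {κ : Type} [Fintype κ]
    (t : Pt (Bool ⊕ κ) ι) [IsDomain (t.D B)]
    (hf : ∀ e : t.E, ∃ a b, t.φ b ≠ 0 ∧ e * t.φ b = t.φ a) (lv : ι → ℕ) (m : ℕ)
    (hH : ∀ η ∈ Gs lv m, η ≠ 0 → ∃ ε ∈ Gs lv m, B ε η + B η ε = 1)
    (hhi : ∀ v ∈ Hi (Bool ⊕ κ) lv m, t.φ (X (Sum.inl v)) = 0)
    (I : Finset κ) (L : κ → AddSubgroup (ι → ZMod 2)) (XX : κ → TP) (θ : κ → ℕ)
    (hθ : ∀ k, 0 < θ k)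
    (hind : ∀ k ∈ I, LinearIndependent t.E (fun i : Fin (θ k) => t.ev B l0 (XX k) ^ (i : ℕ)))
    (heq : ∀ k ∈ I, t.ev B l0 (XX k) * t.g B l0 (Sum.inr k) (L k) = t.g B l0 (Sum.inr k) (L k) *
      TG.pr B _ (L k) (t.ev B l0 (XX k) * t.g B l0 (Sum.inr k) (L k)))
    (T : Finset (κ × (ι → ZMod 2))) (hTT : ∀ v, v ∈ T ↔ v.1 ∈ I ∧ v.2 ∈ Gs lv m ∧ v.2 ∉ L v.1)
    (hcd : Sys.cd (RingHom.ker t.φ) ≤ (Hi (Bool ⊕ κ) lv m).card + T.card) :
    (Nat.card (Gs lv m) : ℝ) ≤
      finrank t.E (Algebra.adjoin t.E (Set.range fun b => t.s B l0 (Sum.inl b))) ^ 3 +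
      2 * finrank t.E (Algebra.adjoin t.E (Set.range fun b => t.s B l0 (Sum.inl b))) +
      ∑ k ∈ I, ((Nat.card (L k) : ℝ) + Nat.card (Gs lv m) / θ k) := by
  classical
  set H := Gs lv m with hHdef
  obtain ⟨dE, hdE⟩ := (hT _).2.2 _ t.E t.φ rfl hf
  let i2 : κ × (ι → ZMod 2) ↪ (Bool ⊕ κ) × (ι → ZMod 2) :=
    Function.Embedding.prodMap Function.Embedding.inr (Function.Embedding.refl _)
  let i3 : Bool × H ↪ (Bool ⊕ κ) × (ι → ZMod 2) :=
    Function.Embedding.prodMap Function.Embedding.inl (Function.Embedding.subtype _)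
  let U : Finset (Vr (Bool ⊕ κ) ι) :=
    (Hi (Bool ⊕ κ) lv m ∪ (T.map i2 ∪ Finset.univ.map i3)).map Function.Embedding.inl
  have hU : U.card = (Hi (Bool ⊕ κ) lv m).card + (T.card + 2 * Nat.card H) := by
    rw [Finset.card_map, Finset.card_union_of_disjoint, Finset.card_union_of_disjoint,
      Finset.card_map, Finset.card_map, Finset.card_univ, Fintype.card_prod, Fintype.card_bool,
      Nat.card_eq_fintype_card]
    · rw [Finset.disjoint_left]
      intro a h1 h2
      obtain ⟨v, -, rfl⟩ := Finset.mem_map.1 h1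
      obtain ⟨v', -, h⟩ := Finset.mem_map.1 h2
      exact Sum.inl_ne_inr (congrArg Prod.fst h)
    · rw [Finset.disjoint_left]
      intro a h1 h2
      rcases Finset.mem_union.1 h2 with h2 | h2 <;> obtain ⟨v, hv, rfl⟩ := Finset.mem_map.1 h2
      · exact (mem_Hi lv).1 h1 ((hTT v).1 hv).2.1
      · exact (mem_Hi lv).1 h1 v.2.2
  let dE' : (Fin (tdim (RingHom.ker t.φ)) → t.E) →ₗ[t.E] (t.E → t.E) :=
    { toFun := fun v => dE v
      map_add' := fun v w => by rw [map_add]; rfl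
      map_smul' := fun c v => by rw [map_smul]; rfl }
  let ρ : (Fin (tdim (RingHom.ker t.φ)) → t.E) →ₗ[t.E] (↥Uᶜ → t.E) :=
    LinearMap.pi fun r => (LinearMap.proj (t.φ (X r.1))).comp dE'
  have a1 := finrank_le_ker_add ρ ⊤ fun _ => trivial
  rw [finrank_top, finrank_fintype_fun_eq_card, finrank_fintype_fun_eq_card, Fintype.card_fin,
    Fintype.card_coe, Finset.card_compl] at a1
  have a2 : 2 * Nat.card H ≤ finrank t.E (LinearMap.ker ρ) := by
    have := Finset.card_le_univ U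
    unfold Sys.cd at hcd
    omega
  have hρ : ∀ v : LinearMap.ker ρ, ∀ r, r ∉ U → dE v (t.φ (X r)) = 0 := fun v r hr =>
    congrFun v.2 ⟨r, Finset.mem_compl.2 hr⟩
  have hx : ∀ v : LinearMap.ker ρ, ∀ l, dE v (t.φ (X (Sum.inr l))) = 0 := fun v l =>
    hρ v _ (by simp [U])
  let dD : LinearMap.ker ρ →ₗ[t.E] (t.D B → t.D B) :=
    { toFun := fun v a ε => dE v (a ε)
      map_add' := fun v w => by rw [Submodule.coe_add, map_add]; rfl
      map_smul' := fun c v => by rw [Submodule.coe_smul, map_smul]; rfl }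
  have d1 : ∀ v a b, dD v (a + b) = dD v a + dD v b := fun v a b =>
    TG.ext fun ε => map_add (dE v) (a ε) (b ε)
  have d2 : ∀ v a b, dD v (a * b) = dD v a * b + a * dD v b := fun v a b =>
    TG.ext fun ε => TG.der_mul _ _ (hx v) a b ε
  have d3 : ∀ v (c : t.E) a, dD v (c • a) = dE v c • a + c • dD v a := fun v c a =>
    TG.ext fun ε => ((dE v).leibniz c (a ε)).trans (by
      change c * _ + _ * _ = _ * _ + c * _
      rw [add_comm, mul_comm]; rfl)
  have d4 : ∀ H' v a, a ∈ TG.sub B _ H' → dD v a ∈ TG.sub B _ H' := fun H' v a ha ε hε => by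
    change dE v (a ε) = 0
    rw [ha ε hε, map_zero]
  have hs : ∀ k, t.s B l0 k ∈ TG.sub B _ H := fun k ε hε => by
    obtain ⟨c, -, hc, -⟩ := t.s_apply B l0 k ε
    rw [hc, hhi _ ((mem_Hi lv).2 hε), mul_zero]
  have a3 := hI t.E (t.D B) (LinearMap.ker ρ) (TG.τ B _) (TG.sub B _ H)
    (dE'.comp (LinearMap.ker ρ).subtype) dD (fun b => t.s B l0 (Sum.inl b)) TG.τ_one TG.τ_comm
    d1 d2 d3 (d4 H) fun b => hs _
  set V := ⨅ b, LinearMap.ker ((LinearMap.proj (t.s B l0 (Sum.inl b))).comp dD) with hV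
  have hV' : ∀ v : V, ∀ b, dD v (t.s B l0 (Sum.inl b)) = 0 := fun v b =>
    (Submodule.mem_iInf _).1 v.2 b
  let f : t.D B → V →ₗ[t.E] t.D B := fun a => ((LinearMap.proj a).comp dD).comp V.subtype
  have a4 := finrank_le_sum (E := t.E) (V := V) (W := t.D B)
    (fun k => f (t.g B l0 (Sum.inr k) (L k))) I (fun v hv => by
    have key : ∀ k ε, dE v.1 (t.s B l0 k ε) = 0 → dE v.1 (t.φ (X (Sum.inl (k, ε)))) = 0 := by
      intro k ε h
      obtain ⟨c, hc0, hc, hc'⟩ := t.s_apply B l0 k ε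
      rw [hc, Derivation.leibniz, hc' _ (hx v), smul_zero, add_zero] at h
      exact (smul_eq_zero.1 h).resolve_left hc0
    refine Subtype.ext (Subtype.ext (hdE _ fun r => ?_))
    by_cases hr : r ∈ U
    · obtain ⟨r, hr', rfl⟩ := Finset.mem_map.1 hr
      rcases Finset.mem_union.1 hr' with hr | hr
      · exact (congrArg _ (hhi r hr)).trans (map_zero _)
      rcases Finset.mem_union.1 hr with hr | hr <;> obtain ⟨w, hw, rfl⟩ := Finset.mem_map.1 hr
      · refine key _ _ ?_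
        have := congrFun (hv w.1 ((hTT w).1 hw).1) w.2
        change dE v.1 _ = 0 at this
        rwa [t.g_apply B l0 _ _ ((hTT w).1 hw).2.2] at this
      · exact key _ _ (congrFun (hV' v w.1) w.2)
    · exact hρ v r hr)
  have a5 : ∀ k ∈ I, (finrank t.E (LinearMap.range (f (t.g B l0 (Sum.inr k) (L k)))) : ℝ) ≤
      (Nat.card (L k) : ℝ) + Nat.card H / θ k := by
    intro k hk
    have hg : t.g B l0 (Sum.inr k) (L k) ∈ TG.sub B _ H := by
      refine sub_mem (add_mem (one_mem _) (hs _)) fun ε hε => ?_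
      rw [TG.pr]
      split_ifs
      · exact hs _ ε hε
      · rfl
    have := cent_step (V := V) (D := t.D B) hC (TG.τ B _) (TG.sub B _ H) (TG.sub B _ (L k))
      (f (t.g B l0 (Sum.inr k) (L k)))
      (f (TG.pr B _ (L k) (t.ev B l0 (XX k) * t.g B l0 (Sum.inr k) (L k)))) _ _ _ _ _ (θ k) TG.τ_one (fun ε => TG.u_mem ε.2)
      (TG.avg _ t.hx H hH) (evG_mem _ _ (fun b => hs _) _) hg (t.g_ne B l0 _ _) (heq k hk)
      (hind k hk) (fun v => d4 H _ _ hg) (fun v => d4 _ _ _ (TG.pr_mem _ _)) (fun v => by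
        have h := congrArg (dD v) (heq k hk)
        rw [d2, d2, Pt.ev, der_evG _ (dE v.1) (dD v) (d1 v) (d2 v) (d3 v) (fun _ => rfl) (hV' v),
          zero_mul, zero_add] at h
        exact h)
    rw [TG.finrank_sub, TG.finrank_sub] at this
    have h0 : (0 : ℝ) < θ k := Nat.cast_pos.2 (hθ k)
    rw [← sub_le_iff_le_add', le_div_iff₀ h0]
    have : (θ k : ℝ) * finrank t.E (LinearMap.range (f (t.g B l0 (Sum.inr k) (L k)))) ≤
      θ k * Nat.card (L k) + Nat.card H := by exact_mod_cast this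
    linarith
  rw [TG.finrank_sub] at a3
  have a6 : (finrank t.E V : ℝ) ≤ ∑ k ∈ I, ((Nat.card (L k) : ℝ) + Nat.card H / θ k) :=
    (Nat.cast_le.2 a4).trans (by rw [Nat.cast_sum]; exact Finset.sum_le_sum a5)
  have a7 := (Nat.cast_le (α := ℝ)).2 (a2.trans a3)
  push_cast at a7
  linarith

end Crest.Agent.R180
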