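import Crest.Agent.R180.Dom

/-! The concrete multidegree system and the localisation argument. -/

open Module MvPolynomial

namespace Crest.Agent.R180

variable {ι : Type}

/-- the grading group -/
abbrev Gm (ι : Type) : Type := Lex (ι → ℤ)

/-- coordinates -/
def crd (l : ι) : Gm ι →+ ℤ where
  toFun u := ofLex u l
  map_zero' := rfl
  map_add' _ _ := rfl

/-- unit vectors -/
def ee [DecidableEq ι] (l : ι) : Gm ι := toLex (Pi.single l 1)

lemma crd_ee [DecidableEq ι] (l l' : ι) : crd l (ee l') = if l = l' then 1 else 0 :=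
  Pi.single_apply l' (1 : ℤ) l

lemma crd_lift [Fintype ι] [DecidableEq ι] (l : ι) (ε : ι → ZMod 2) :
    crd l (lift ee ε) = (ε l).val := by
  simp only [lift, map_sum, map_nsmul, crd_ee]
  simp

lemma eq_sum_ee [Fintype ι] [DecidableEq ι] (u : Gm ι) : u = ∑ l, crd l u • ee l := by
  have : ∀ l', crd l' u = crd l' (∑ l, crd l u • ee l) := fun l' => by
    simp only [map_sum, map_zsmul, crd_ee]
    simp
  exact funext this

/-- the unit `1 + a ζ` -/
noncomputable def Ua {R : Type} [CommRing R] (a : R) : (PowerSeries R)ˣ :=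
  Units.mkOfMulEqOne (1 + PowerSeries.C a * PowerSeries.X) (PowerSeries.mk fun n => (-a) ^ n) (by
    ext n
    rw [add_mul, one_mul, map_add, mul_assoc, PowerSeries.coeff_C_mul, PowerSeries.coeff_one]
    cases n with
    | zero => simp
    | succ n => simp [PowerSeries.coeff_succ_X_mul, pow_succ, mul_comm a])

/-- the substitution `t ↦ 1 + a ζ` -/
noncomputable def thA [Fintype ι] {R : Type} [CommRing R] (a : ι → R) :
    Multiplicative (Gm ι) →* PowerSeries R where
  toFun u := ((∏ l, Ua (a l) ^ crd l u.toAdd : (PowerSeries R)ˣ) : PowerSeries R)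
  map_one' := by simp
  map_mul' u v := by
    simp only [toAdd_mul, map_add, zpow_add, Finset.prod_mul_distrib, Units.val_mul]

lemma thA_mem [Fintype ι] {R : Type} [CommRing R] (a : ι → R) (H : Submonoid (PowerSeries R))
    (h1 : ∀ l, 1 + PowerSeries.C (a l) * PowerSeries.X ∈ H)
    (h2 : ∀ l, (PowerSeries.mk fun n => (-a l) ^ n) ∈ H) (u) : thA a u ∈ H := by
  change ((∏ l, Ua (a l) ^ crd l u.toAdd : (PowerSeries R)ˣ) : PowerSeries R) ∈ H
  rw [Units.coe_prod]
  refine H.prod_mem fun l _ => ?_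
  rcases crd l u.toAdd with n | n
  · rw [Int.ofNat_eq_natCast, zpow_natCast, Units.val_pow_eq_pow_val]; exact H.pow_mem (h1 l) n
  · rw [zpow_negSucc, ← inv_pow, Units.val_pow_eq_pow_val]; exact H.pow_mem (h2 l) _

lemma thA_zero [Fintype ι] {R : Type} [CommRing R] (a : ι → R) (u) :
    PowerSeries.constantCoeff (thA a u) = 1 :=
  thA_mem a (MonoidHom.mker (PowerSeries.constantCoeff (R := R))) (fun l => by simp)
    (fun l => by simp [← PowerSeries.coeff_zero_eq_constantCoeff_apply]) u

lemma thA_one [Fintype ι] [DecidableEq ι] {R : Type} [CommRing R] (a : ι → R) (u : Gm ι) :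
    PowerSeries.coeff 1 (thA a (Multiplicative.ofAdd u)) = ∑ l, crd l u • a l := by
  let f : Gm ι →+ R := AddMonoidHom.mk' (fun u => PowerSeries.coeff 1 (thA a (.ofAdd u)))
    (fun u v => by
      rw [ofAdd_add, map_mul, PowerSeries.coeff_one_mul, thA_zero, thA_zero]; ring)
  change f u = _
  conv_lhs => rw [eq_sum_ee u, map_sum]
  refine Finset.sum_congr rfl fun l _ => ?_
  rw [map_zsmul]
  congr 1
  change PowerSeries.coeff 1 ((∏ l', Ua (a l') ^ crd l' (ee l) : (PowerSeries R)ˣ) :
    PowerSeries R) = _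
  rw [Finset.prod_eq_single l (fun b _ h => by rw [crd_ee, if_neg h, zpow_zero]) (by simp),
    crd_ee, if_pos rfl, zpow_one]
  simp [Ua, PowerSeries.coeff_one]

lemma map_thA [Fintype ι] {R R' : Type} [CommRing R] [CommRing R'] (f : R →+* R') (a : ι → R) (u) :
    PowerSeries.map f (thA a u) = thA (f ∘ a) u := by
  have h : ∀ x, Units.map (PowerSeries.map f).toMonoidHom (Ua x) = Ua (f x) := fun x =>
    Units.ext (by simp [Ua])
  change ((Units.map (PowerSeries.map f).toMonoidHom (∏ l, Ua (a l) ^ crd l u.toAdd) :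
    (PowerSeries R')ˣ) : PowerSeries R') = _
  simp only [map_prod, map_zpow, h]
  rfl

lemma thA_congr [Fintype ι] {R : Type} [CommRing R] {a a' : ι → R} {u : Gm ι}
    (h : ∀ l, crd l u ≠ 0 → a l = a' l) : thA a (.ofAdd u) = thA a' (.ofAdd u) := by
  refine congrArg Units.val (Finset.prod_congr rfl fun l _ => ?_)
  by_cases hl : crd l u = 0
  · simp [hl]
  · rw [h l hl]

/-- the variables -/
abbrev Vr (K ι : Type) : Type := (K × (ι → ZMod 2)) ⊕ ι

variable [Fintype ι] [LinearOrder ι] {K : Type} [Fintype K] (l0 : ι)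

/-- the weights -/
def wt : Vr K ι → Gm ι := Sum.elim (fun v => lift ee v.2 + (ee l0 + ee l0)) (fun l => ee l + ee l)

omit [Fintype K] in
lemma crd_wt_nonneg (v : Vr K ι) (l : ι) : 0 ≤ crd l (wt l0 v) := by
  rcases v with v | l' <;> simp only [wt, Sum.elim_inl, Sum.elim_inr, map_add, crd_lift, crd_ee] <;>
    positivity

omit [Fintype K] in
lemma crd_wt_pos (v : Vr K ι) : ∃ l, 0 < crd l (wt l0 v) := by
  rcases v with v | l'
  · refine ⟨l0, ?_⟩
    simp only [wt, Sum.elim_inl, map_add, crd_lift, crd_ee, if_true]; positivity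
  · exact ⟨l', by simp [wt, crd_ee]⟩

variable (K) in
/-- the system -/
noncomputable def sys : Sys (Vr K ι) (Gm ι) (MvPolynomial ι ℤ) (MvPolynomial ι (ZMod 2)) where
  w := wt l0
  fd u := by
    let w' : Vr K ι → ℕ := fun v => (∑ l, crd l (wt l0 v)).toNat
    have h0 : ∀ v, (w' v : ℤ) = ∑ l, crd l (wt l0 v) := fun v =>
      Int.toNat_of_nonneg (Finset.sum_nonneg fun l _ => crd_wt_nonneg l0 v l)
    have h1 : ∀ v, w' v ≠ 0 := fun v h => by
      obtain ⟨l, hl⟩ := crd_wt_pos l0 v
      have := Finset.single_le_sum (fun l _ => crd_wt_nonneg l0 v l) (Finset.mem_univ l)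
      rw [← h0, h] at this
      omega
    have := Module.Finite.iff_fg.2
      (weightedHomogeneousSubmodule_fg (R := ℚ) w' h1 (∑ l, crd l u).toNat)
    refine Submodule.finiteDimensional_of_le
      (S₂ := weightedHomogeneousSubmodule ℚ w' (∑ l, crd l u).toNat) fun p hp d hd => ?_
    rw [← hp hd, eq_comm, ← Nat.cast_inj (R := ℤ)]
    have : ∑ l, crd l (Finsupp.weight (wt l0) d) = (Finsupp.weight w' d : ℕ) := by
      simp only [Finsupp.weight_apply, Finsupp.sum, map_sum, map_nsmul]
      simp only [Nat.cast_sum, smul_eq_mul, Nat.cast_mul, h0, nsmul_eq_mul, Finset.mul_sum]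
      exact Finset.sum_comm
    rw [this, Int.toNat_natCast]
  θ := thA X
  θ0 := thA_zero _
  ne v h := by
    obtain ⟨l, hl⟩ := crd_wt_pos l0 v
    have := congrArg (coeff (Finsupp.single l 1)) h
    rw [thA_one, coeff_sum, Finset.sum_eq_single l _ (by simp)] at this
    · rw [coeff_smul, coeff_X_same, coeff_zero, smul_eq_mul, mul_one] at this
      exact hl.ne' this
    · intro b _ hb
      rw [coeff_smul, coeff_X, if_neg (fun h => hb (Finsupp.single_left_injective one_ne_zero h)),
        smul_zero]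
  ψ := map (Int.castRingHom (ZMod 2))

/-- linear forms -/
noncomputable def lf (ε : ι → ZMod 2) : MvPolynomial ι (ZMod 2) := ∑ l, ε l • X l

lemma psi_ell (u : Gm ι) (ε : ι → ZMod 2) (h : ∀ l, (crd l u : ZMod 2) = ε l) :
    (sys K l0).ψ ((sys K l0).ℓ u) = lf ε := by
  change map (Int.castRingHom (ZMod 2)) (PowerSeries.coeff 1 (thA X _)) = _
  rw [thA_one, map_sum]
  refine Finset.sum_congr rfl fun l _ => ?_
  rw [map_zsmul, map_X, ← h, Int.cast_smul_eq_zsmul]

omit [LinearOrder ι] in
lemma lf_hom (ε : ι → ZMod 2) : (lf ε).IsHomogeneous 1 :=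
  (homogeneousSubmodule ι (ZMod 2) 1).sum_mem fun l _ =>
    Submodule.smul_mem _ _ (isHomogeneous_X _ l)

lemma lf_ne {ε : ι → ZMod 2} (h : ε ≠ 0) : lf ε ≠ 0 := by
  intro h0
  refine h (funext fun l => ?_)
  have := congrArg (coeff (Finsupp.single l 1)) h0
  rw [lf, coeff_sum, Finset.sum_eq_single l _ (by simp)] at this
  · simpa using this
  · intro b _ hb
    rw [coeff_smul, coeff_X, if_neg (fun h => hb (Finsupp.single_left_injective one_ne_zero h)),
      smul_zero]

lemma cl_hom (p : Ideal (MvPolynomial (Vr K ι) ℚ)) :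
    ((sys K l0).cl p).IsHomogeneous (Sys.cd p) := by
  let H : Subring (PowerSeries (MvPolynomial ι ℤ)) :=
    { carrier := {F | ∀ k, (PowerSeries.coeff k F).IsHomogeneous k}
      mul_mem' := fun {F G} hF hG k => by
        rw [PowerSeries.coeff_mul]
        refine IsHomogeneous.sum _ _ _ fun q hq => ?_
        rw [← Finset.HasAntidiagonal.mem_antidiagonal.1 hq]
        exact (hF _).mul (hG _)
      one_mem' := fun k => by
        rw [PowerSeries.coeff_one]
        split_ifs with h
        · rw [h]; exact isHomogeneous_one _ _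
        · exact isHomogeneous_zero _ _ _
      add_mem' := fun hF hG k => by rw [map_add]; exact (hF k).add (hG k)
      zero_mem' := fun k => isHomogeneous_zero _ _ _
      neg_mem' := fun hF k => by rw [map_neg]; exact (hF k).neg }
  have h1 : ∀ u, thA (X : ι → MvPolynomial ι ℤ) u ∈ H := thA_mem _ H.toSubmonoid
    (fun l => H.add_mem H.one_mem fun k => by
      rw [PowerSeries.coeff_C_mul, PowerSeries.coeff_X]
      split_ifs with h
      · rw [h, mul_one]; exact isHomogeneous_X _ _
      · rw [mul_zero]; exact isHomogeneous_zero _ _ _)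
    (fun l k => by
      rw [PowerSeries.coeff_mk]
      simpa using (isHomogeneous_X ℤ l).neg.pow k)
  have h2 : ∀ r, (sys K l0).Θ r ∈ H := fun r => by
    rw [Sys.Θ, AddMonoidAlgebra.lift_apply]
    exact H.sum_mem fun u _ => H.zsmul_mem (h1 _) _
  have h3 : ∀ f, (sys K l0).TK f ∈ H := fun f => by
    rw [Sys.TK]
    split_ifs
    · exact h2 _
    · exact H.zero_mem
  exact (h3 _ _).map _

/-- the level filtration -/
def Gs (lv : ι → ℕ) (β : ℕ) : AddSubgroup (ι → ZMod 2) where
  carrier := {ε | ∀ l, β ≤ lv l → ε l = 0}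
  add_mem' := fun ha hb l hl => by rw [Pi.add_apply, ha l hl, hb l hl, add_zero]
  zero_mem' := fun _ _ => rfl
  neg_mem' := fun ha l hl => by rw [Pi.neg_apply, ha l hl, neg_zero]

omit [Fintype ι] [LinearOrder ι] in
lemma Gs_mono (lv : ι → ℕ) {β β' : ℕ} (h : β ≤ β') : Gs lv β ≤ Gs lv β' :=
  fun _ hε l hl => hε l (h.trans hl)

/-- separating the high variables -/
noncomputable def ph (lv : ι → ℕ) (β : ℕ) :
    MvPolynomial ι (ZMod 2) →ₐ[ZMod 2] Polynomial (MvPolynomial ι (ZMod 2)) :=
  aeval fun l => if lv l < β then Polynomial.C (X l) else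
    Polynomial.X ^ ((Fintype.equivFin ι l : ℕ) + 1)

omit [LinearOrder ι] in
lemma ph_low {lv : ι → ℕ} {β : ℕ} {ε} (h : ε ∈ Gs lv β) : ph lv β (lf ε) = Polynomial.C (lf ε) := by
  rw [lf, map_sum, map_sum]
  refine Finset.sum_congr rfl fun l _ => ?_
  by_cases hl : lv l < β
  · rw [map_smul, ph, aeval_X, if_pos hl, Polynomial.smul_C]
  · rw [h l (not_lt.1 hl), zero_smul, map_zero, map_zero]

omit [LinearOrder ι] in
lemma ph_high {lv : ι → ℕ} {β : ℕ} {ε} (h : ε ∉ Gs lv β) : (ph lv β (lf ε)).Monic := by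
  classical
  let g : Polynomial (ZMod 2) := ∑ l, if lv l < β then 0 else
    ε l • Polynomial.X ^ ((Fintype.equivFin ι l : ℕ) + 1)
  have e : ph lv β (lf ε) = g.map (algebraMap _ _) +
      Polynomial.C (∑ l, if lv l < β then ε l • X l else 0) := by
    rw [lf, map_sum, map_sum, Polynomial.map_sum, ← Finset.sum_add_distrib]
    refine Finset.sum_congr rfl fun l _ => ?_
    rw [map_smul, ph, aeval_X]
    split_ifs
    · rw [Polynomial.map_zero, zero_add, Polynomial.smul_C]
    · rw [map_zero, add_zero, Polynomial.map_smul, algebraMap_smul, Polynomial.map_pow,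
        Polynomial.map_X]
  obtain ⟨l, hl, hl'⟩ : ∃ l, β ≤ lv l ∧ ε l ≠ 0 := by
    by_contra hc
    push Not at hc
    exact h hc
  have h1 : g.coeff ((Fintype.equivFin ι l : ℕ) + 1) ≠ 0 := by
    rw [Polynomial.finsetSum_coeff, Finset.sum_eq_single l _ (by simp), if_neg (not_lt.2 hl)]
    · simpa using hl'
    · intro b _ hb
      split_ifs
      · rfl
      · rw [Polynomial.coeff_smul, Polynomial.coeff_X_pow, if_neg, smul_zero]
        intro h
        exact hb ((Fintype.equivFin ι).injective (Fin.ext (by omega)))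
  have h2 : g.Monic := by
    have : g.leadingCoeff ≠ 0 := Polynomial.leadingCoeff_ne_zero.2 fun h => h1 (by simp [h])
    have h3 : ∀ a : ZMod 2, a ≠ 0 → a = 1 := by decide
    exact h3 _ this
  rw [e]
  refine (h2.map _).add_of_left (Polynomial.degree_C_le.trans_lt ?_)
  rw [h2.degree_map]
  exact lt_of_lt_of_le (by exact_mod_cast Nat.succ_pos _) (Polynomial.le_degree_of_ne_zero h1)

end Crest.Agent.R180
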