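import Mathlib

/-! Twisted group algebras of elementary abelian 2-groups. -/

open Module

namespace Crest.Agent.R180

/-- the sign of an element of `ZMod 2` -/
def sg (a : ZMod 2) : ℤ := if a = 0 then 1 else -1

lemma sg_add (a b : ZMod 2) : sg (a + b) = sg a * sg b := by revert a b; decide

lemma sg_cases (a : ZMod 2) : sg a = 1 ∨ sg a = -1 := by revert a; decide

variable {ι : Type} [Fintype ι] [DecidableEq ι] (B : (ι → ZMod 2) →+ (ι → ZMod 2) →+ ZMod 2)
  {R R' : Type} [CommRing R] [CommRing R'] (x : ι → R)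

/-- the cocycle -/
def cc (ε η : ι → ZMod 2) : R :=
  (sg (B ε η) : R) * ∏ l, x l ^ ((ε l).val * (η l).val)

omit [DecidableEq ι] in
lemma cc_cocycle (a b c : ι → ZMod 2) :
    cc B x a b * cc B x (a + b) c = cc B x b c * cc B x a (b + c) := by
  unfold cc
  rw [mul_mul_mul_comm, mul_mul_mul_comm (sg (B b c) : R), ← Finset.prod_mul_distrib,
    ← Finset.prod_mul_distrib]
  congr 1
  · simp only [map_add, AddMonoidHom.add_apply, sg_add]; push_cast; ring
  · refine Finset.prod_congr rfl fun l _ => ?_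
    have : ∀ p q r : ZMod 2, p.val * q.val + (p + q).val * r.val =
      q.val * r.val + p.val * (q + r).val := by decide
    rw [← pow_add, ← pow_add, Pi.add_apply, Pi.add_apply, this]

omit [DecidableEq ι] in
lemma cc_zero_left (b : ι → ZMod 2) : cc B x 0 b = 1 := by simp [cc, sg]

omit [DecidableEq ι] in
lemma cc_zero_right (b : ι → ZMod 2) : cc B x b 0 = 1 := by simp [cc, sg]

omit [DecidableEq ι] in
lemma map_cc (φ : R →+* R') (a b : ι → ZMod 2) : φ (cc B x a b) = cc B (φ ∘ x) a b := by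
  simp only [cc, map_mul, map_intCast, map_prod, map_pow, Function.comp]

omit [DecidableEq ι] in
lemma cc_ne_zero [IsDomain R] (hx : ∀ l, x l ≠ 0) (a b : ι → ZMod 2) : cc B x a b ≠ 0 := by
  refine mul_ne_zero ?_ (Finset.prod_ne_zero_iff.2 fun l _ => ?_)
  · rcases sg_cases (B a b) with h | h <;> simp [h]
  · exact pow_ne_zero _ (hx l)

/-- the twisted group algebra -/
def TG (_B : (ι → ZMod 2) →+ (ι → ZMod 2) →+ ZMod 2) (_x : ι → R) : Type := (ι → ZMod 2) → R

namespace TG

instance : AddCommGroup (TG B x) := inferInstanceAs (AddCommGroup ((ι → ZMod 2) → R))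
instance {A : Type} [Semiring A] [Module A R] : Module A (TG B x) :=
  inferInstanceAs (Module A ((ι → ZMod 2) → R))
instance {A A' : Type} [Semiring A] [Module A R] [Semiring A'] [Module A' R] [SMul A A']
    [IsScalarTower A A' R] : IsScalarTower A A' (TG B x) :=
  inferInstanceAs (IsScalarTower A A' ((ι → ZMod 2) → R))
instance : Module.Finite R (TG B x) := inferInstanceAs (Module.Finite R ((ι → ZMod 2) → R))

instance : Mul (TG B x) := ⟨fun a b ζ => ∑ ε, cc B x ε (ζ - ε) * (a ε * b (ζ - ε))⟩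

/-- basis elements -/
def u (ε : ι → ZMod 2) : TG B x := Pi.single ε (1 : R)

instance : One (TG B x) := ⟨u B x 0⟩

variable {B x}

omit [Fintype ι] [DecidableEq ι] [CommRing R] in
@[ext] lemma ext {a b : TG B x} (h : ∀ ε, a ε = b ε) : a = b := funext h

lemma mul_apply (a b : TG B x) (ζ : ι → ZMod 2) :
    (a * b) ζ = ∑ ε, cc B x ε (ζ - ε) * (a ε * b (ζ - ε)) := rfl

omit [Fintype ι] [DecidableEq ι] in
@[simp] lemma add_apply (a b : TG B x) (ζ : ι → ZMod 2) : (a + b) ζ = a ζ + b ζ := rfl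
omit [Fintype ι] [DecidableEq ι] in
@[simp] lemma sub_apply (a b : TG B x) (ζ : ι → ZMod 2) : (a - b) ζ = a ζ - b ζ := rfl
omit [Fintype ι] [DecidableEq ι] in
@[simp] lemma zero_apply (ζ : ι → ZMod 2) : (0 : TG B x) ζ = 0 := rfl
omit [Fintype ι] [DecidableEq ι] in
@[simp] lemma smul_apply {A : Type} [Semiring A] [Module A R] (c : A) (a : TG B x)
    (ζ : ι → ZMod 2) : (c • a) ζ = c • a ζ := rfl
omit [Fintype ι] [DecidableEq ι] in
lemma sum_apply {κ : Type} (T : Finset κ) (a : κ → TG B x) (ζ : ι → ZMod 2) :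
    (∑ i ∈ T, a i) ζ = ∑ i ∈ T, a i ζ := Finset.sum_apply ζ T a

omit [DecidableEq ι] in
lemma u_apply (ε ζ : ι → ZMod 2) : u B x ε ζ = if ζ = ε then 1 else 0 := Pi.single_apply _ _ _

omit [DecidableEq ι] in
lemma one_apply (ζ : ι → ZMod 2) : (1 : TG B x) ζ = if ζ = 0 then 1 else 0 := u_apply _ _

lemma u_mul_apply (ε : ι → ZMod 2) (b : TG B x) (ζ : ι → ZMod 2) :
    (u B x ε * b) ζ = cc B x ε (ζ - ε) * b (ζ - ε) := by
  rw [mul_apply, Finset.sum_eq_single ε]
  · rw [u_apply, if_pos rfl, one_mul]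
  · intro η _ h; rw [u_apply, if_neg h, zero_mul, mul_zero]
  · simp

lemma mul_u_apply (ε : ι → ZMod 2) (b : TG B x) (ζ : ι → ZMod 2) :
    (b * u B x ε) ζ = cc B x (ζ - ε) ε * b (ζ - ε) := by
  rw [mul_apply, Finset.sum_eq_single (ζ - ε)]
  · rw [u_apply, sub_sub_cancel, if_pos rfl, mul_one]
  · intro η _ h
    rw [u_apply, if_neg (fun h' => h (by rw [← h', sub_sub_cancel])), mul_zero, mul_zero]
  · simp

variable (B x)

instance : Ring (TG B x) where
  __ := (inferInstance : AddCommGroup (TG B x))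
  mul := (· * ·)
  one := 1
  left_distrib a b c := ext fun ζ => by
    simp only [mul_apply, add_apply, mul_add, Finset.sum_add_distrib]
  right_distrib a b c := ext fun ζ => by
    simp only [mul_apply, add_apply, mul_add, add_mul, Finset.sum_add_distrib]
  zero_mul a := ext fun ζ => by simp [mul_apply]
  mul_zero a := ext fun ζ => by simp [mul_apply]
  one_mul a := ext fun ζ => by
    change (u B x 0 * a) ζ = _
    rw [u_mul_apply, cc_zero_left, one_mul, sub_zero]
  mul_one a := ext fun ζ => by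
    change (a * u B x 0) ζ = _
    rw [mul_u_apply, cc_zero_right, one_mul, sub_zero]
  mul_assoc a b c := ext fun ζ => by
    simp only [mul_apply, Finset.mul_sum, Finset.sum_mul]
    rw [Finset.sum_comm]
    refine Finset.sum_congr rfl fun ε _ => ?_
    rw [← Equiv.sum_comp (Equiv.addLeft ε)]
    refine Finset.sum_congr rfl fun η _ => ?_
    have h := cc_cocycle B x ε η (ζ - ε - η)
    simp only [Equiv.coe_addLeft, add_sub_cancel_left, ← sub_sub, add_sub_cancel] at h ⊢
    linear_combination (a ε * b η * c (ζ - ε - η)) * h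

instance : Algebra R (TG B x) := Algebra.ofModule
  (fun r a b => ext fun ζ => by
    simp only [mul_apply, smul_apply, smul_eq_mul, Finset.mul_sum]
    exact Finset.sum_congr rfl fun _ _ => by ring)
  (fun r a b => ext fun ζ => by
    simp only [mul_apply, smul_apply, smul_eq_mul, Finset.mul_sum]
    exact Finset.sum_congr rfl fun _ _ => by ring)

variable {B x}

lemma eq_sum (a : TG B x) : a = ∑ ε, a ε • u B x ε := ext fun ζ => by
  rw [sum_apply, Finset.sum_eq_single ζ _ (by simp), smul_apply, u_apply, if_pos rfl, smul_eq_mul,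
    mul_one]
  intro b _ h
  rw [smul_apply, u_apply, if_neg h.symm, smul_zero]

lemma u_mul_u (ε η : ι → ZMod 2) : u B x ε * u B x η = cc B x ε η • u B x (ε + η) :=
  ext fun ζ => by
    rw [u_mul_apply, smul_apply, u_apply, u_apply, smul_eq_mul]
    by_cases h : ζ = ε + η
    · rw [h, add_sub_cancel_left, if_pos rfl, if_pos rfl]
    · rw [if_neg h, if_neg (fun h' => h (by rw [← h', add_sub_cancel])), mul_zero, mul_zero]

/-- change of coefficients -/
def map {x' : ι → R'} (φ : R →+* R') (h : φ ∘ x = x') : TG B x →+* TG B x' where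
  toFun a := fun ε => φ (a ε)
  map_one' := ext fun ζ => by rw [one_apply, one_apply, apply_ite φ, map_one, map_zero]
  map_mul' a b := ext fun ζ => by
    simp only [mul_apply, map_sum, map_mul, map_cc, h]
  map_zero' := ext fun ζ => map_zero φ
  map_add' a b := ext fun ζ => map_add φ _ _

lemma map_apply {x' : ι → R'} (φ : R →+* R') (h : φ ∘ x = x') (a : TG B x) (ε : ι → ZMod 2) :
    map φ h a ε = φ (a ε) := rfl

lemma map_smul' {x' : ι → R'} (φ : R →+* R') (h : φ ∘ x = x') (c : R) (a : TG B x) :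
    map φ h (c • a) = φ c • map φ h a := ext fun _ => map_mul φ _ _

variable (B x)

/-- normalised trace -/
def τ : TG B x →ₗ[R] R := LinearMap.proj (φ := fun _ : ι → ZMod 2 => R) 0

/-- elements supported on a subgroup -/
def sub (H : AddSubgroup (ι → ZMod 2)) : Subalgebra R (TG B x) where
  carrier := {a | ∀ ε, ε ∉ H → a ε = 0}
  mul_mem' := fun {a b} ha hb ζ hζ => by
    rw [mul_apply]
    refine Finset.sum_eq_zero fun ε _ => ?_
    by_cases h : ε ∈ H
    · rw [hb (ζ - ε) (fun h' => hζ (by simpa using H.add_mem h' h)), mul_zero, mul_zero]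
    · rw [ha ε h, zero_mul, mul_zero]
  add_mem' := fun ha hb ζ hζ => by rw [add_apply, ha ζ hζ, hb ζ hζ, add_zero]
  algebraMap_mem' r ζ hζ := by
    rw [Algebra.algebraMap_eq_smul_one, smul_apply, one_apply,
      if_neg (fun h : ζ = 0 => hζ (h ▸ H.zero_mem)), smul_zero]

open Classical in
/-- projection to a subgroup -/
noncomputable def pr (H : AddSubgroup (ι → ZMod 2)) (a : TG B x) : TG B x :=
  fun ε => if ε ∈ H then a ε else 0

variable {B x}

lemma τ_apply (a : TG B x) : τ B x a = a 0 := rfl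

lemma τ_one : τ B x 1 = 1 := by rw [τ_apply, one_apply, if_pos rfl]

omit [Fintype ι] [DecidableEq ι] in
lemma neg_eq (ε : ι → ZMod 2) : -ε = ε := funext fun l => ZMod.neg_eq_self_mod_two (ε l)

lemma τ_comm (a b : TG B x) : τ B x (a * b) = τ B x (b * a) := by
  simp only [τ_apply, mul_apply, zero_sub, neg_eq]
  exact Finset.sum_congr rfl fun _ _ => by ring

lemma pr_mem (H : AddSubgroup (ι → ZMod 2)) (a : TG B x) : pr B x H a ∈ sub B x H :=
  fun _ h => if_neg h

lemma u_mem {H : AddSubgroup (ι → ZMod 2)} {ε} (h : ε ∈ H) : u B x ε ∈ sub B x H :=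
  fun ζ hζ => by rw [u_apply, if_neg (fun h' : ζ = ε => hζ (h' ▸ h))]

lemma mul_apply_of_mem {H : AddSubgroup (ι → ZMod 2)} (g : TG B x) {y : TG B x}
    (hy : y ∈ sub B x H) {ζ} (hζ : ζ ∈ H) : (g * y) ζ = (pr B x H g * y) ζ := by
  rw [mul_apply, mul_apply]
  refine Finset.sum_congr rfl fun ε _ => ?_
  by_cases h : ε ∈ H
  · rw [pr, if_pos h]
  · rw [hy (ζ - ε) (fun h' => h (by simpa using H.sub_mem hζ h')), mul_zero, mul_zero,
      mul_zero, mul_zero]

lemma finrank_sub {E : Type} [Field E] (x : ι → E) (H : AddSubgroup (ι → ZMod 2)) :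
    finrank E (sub B x H) = Nat.card H := by
  classical
  let e : sub B x H ≃ₗ[E] (H → E) :=
    { toFun := fun a ε => a.1 ε
      map_add' := fun _ _ => rfl
      map_smul' := fun _ _ => rfl
      invFun := fun f => ⟨fun ε => if h : ε ∈ H then f ⟨ε, h⟩ else 0, fun ε h => dif_neg h⟩
      left_inv := fun a => Subtype.ext (ext fun ε => by
        by_cases h : ε ∈ H
        · exact dif_pos h
        · exact (dif_neg h).trans (a.2 ε h).symm)
      right_inv := fun f => funext fun ε => dif_pos ε.2 }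
  rw [e.finrank_eq, finrank_fintype_fun_eq_card, Nat.card_eq_fintype_card]

omit [DecidableEq ι] in
lemma cc_conj (ε η : ι → ZMod 2) :
    cc B x ε η * cc B x (ε + η) ε = (sg (B ε η + B η ε) : R) * cc B x ε ε := by
  unfold cc
  rw [mul_mul_mul_comm, ← Finset.prod_mul_distrib, ← mul_assoc]
  congr 1
  · simp only [map_add, AddMonoidHom.add_apply, sg_add]; push_cast; ring
  · refine Finset.prod_congr rfl fun l _ => ?_
    have : ∀ p q : ZMod 2, p.val * q.val + (p + q).val * p.val = p.val * p.val := by decide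
    rw [← pow_add, Pi.add_apply, this]

lemma avg {E : Type} [Field E] [CharZero E] (x : ι → E) (hx : ∀ l, x l ≠ 0)
    (H : AddSubgroup (ι → ZMod 2)) [Fintype H]
    (hH : ∀ η ∈ H, η ≠ 0 → ∃ ε ∈ H, B ε η + B η ε = 1) (a : TG B x) (ha : a ∈ sub B x H) :
    ∑ ε : H, (((Fintype.card H : E) * cc B x ε ε)⁻¹ • u B x ε) * a * u B x ε =
      algebraMap E _ (τ B x a) := by
  have hc : (Fintype.card H : E) ≠ 0 := Nat.cast_ne_zero.2 Fintype.card_ne_zero
  have h2 : ∀ ε : ι → ZMod 2, ε + ε = 0 := fun ε => by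
    nth_rewrite 1 [← neg_eq ε]; exact neg_add_cancel ε
  refine ext fun ζ => ?_
  have e1 : ∀ ε : H, ((((Fintype.card H : E) * cc B x ε ε)⁻¹ • u B x ε) * a * u B x ε) ζ =
      (Fintype.card H : E)⁻¹ * a ζ * (sg (B ε ζ + B ζ ε) : E) := by
    intro ε
    have h := cc_conj (B := B) (x := x) ε ζ
    have h' := cc_ne_zero B x hx ε ε
    rw [smul_mul_assoc, smul_mul_assoc, smul_apply, mul_u_apply, u_mul_apply, sub_sub, h2,
      sub_zero, sub_eq_add_neg, neg_eq, add_comm ζ, smul_eq_mul]
    field_simp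
    linear_combination (a ζ) * h
  rw [sum_apply, Finset.sum_congr rfl fun ε _ => e1 ε, ← Finset.mul_sum,
    Algebra.algebraMap_eq_smul_one, smul_apply, one_apply, τ_apply]
  split_ifs with hζ
  · simp [hζ, sg]
    field_simp
  · by_cases hζH : ζ ∈ H
    · obtain ⟨ε₀, h₀, h₁⟩ := hH ζ hζH hζ
      have : ∑ ε : H, (sg (B ε ζ + B ζ ε) : E) = -∑ ε : H, (sg (B ε ζ + B ζ ε) : E) := by
        conv_lhs => rw [← Equiv.sum_comp (Equiv.addLeft (⟨ε₀, h₀⟩ : H))]
        rw [← Finset.sum_neg_distrib]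
        refine Finset.sum_congr rfl fun ε _ => ?_
        simp only [Equiv.coe_addLeft, AddSubgroup.coe_add, map_add, AddMonoidHom.add_apply]
        rw [add_add_add_comm, h₁, sg_add, show sg 1 = -1 from rfl]
        simp
      rw [self_eq_neg.1 this]; simp
    · simp [ha ζ hζH]

lemma der_mul {E : Type} [Field E] [Algebra ℚ E] (x : ι → E) (d : Derivation ℚ E E)
    (hd : ∀ l, d (x l) = 0) (a b : TG B x) (ζ : ι → ZMod 2) :
    d ((a * b) ζ) = ((show TG B x from fun ε => d (a ε)) * b +
      a * (show TG B x from fun ε => d (b ε))) ζ := by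
  have h : ∀ ε η, d (cc B x ε η) = 0 := by
    intro ε η
    have : d (∏ l, x l ^ ((ε l).val * (η l).val)) = 0 := by
      refine Finset.prod_induction _ (fun y => d y = 0) (fun p q hp hq => ?_) d.map_one_eq_zero
        fun l _ => ?_
      · rw [d.leibniz, hp, hq]; simp
      · rw [d.leibniz_pow, hd, smul_zero, smul_zero]
    rw [cc, d.leibniz, this, d.map_intCast]; simp
  rw [add_apply, mul_apply, mul_apply, mul_apply, map_sum, ← Finset.sum_add_distrib]
  refine Finset.sum_congr rfl fun ε _ => ?_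
  rw [d.leibniz, d.leibniz, h]
  simp only [smul_eq_mul]
  ring

end TG

end Crest.Agent.R180
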