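import Crest.Agent.R180.Cls2
import Crest.Agent.R180.TG

/-! A prime with nonzero class keeps the generic twisted group algebra a domain. -/

open Module MvPolynomial

namespace Crest.Agent.R180

lemma two_pow_dvd {Λ Λ₂ : Type} [CommRing Λ] [IsDomain Λ] [CharZero Λ] [CommRing Λ₂]
    (ψ : Λ →+* Λ₂) (h2 : (2 : Λ₂) = 0) {a : Λ} (ha : ψ a ≠ 0) (r : ℕ) :
    ∀ (n : ℕ) (b : Λ), (n : Λ) * a = 2 ^ r * b → 2 ^ r ∣ n := by
  induction r with
  | zero => simp
  | succ r ih =>
    intro n b h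
    rcases Nat.even_or_odd' n with ⟨k, rfl | rfl⟩
    · rw [pow_succ']
      refine Nat.mul_dvd_mul_left 2 (ih k b (mul_left_cancel₀ (two_ne_zero (α := Λ)) ?_))
      push_cast at h
      linear_combination h
    · exfalso
      have := congrArg ψ h
      simp only [map_mul, map_pow, map_natCast, map_ofNat, h2, Nat.cast_add, Nat.cast_mul,
        Nat.cast_ofNat, Nat.cast_one, map_add, map_one] at this
      exact ha (by simpa using this)

variable {V ι Γ : Type} [Fintype ι] [DecidableEq ι] [AddCommGroup Γ] [LinearOrder Γ]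
  (B : (ι → ZMod 2) →+ (ι → ZMod 2) →+ ZMod 2)

/-- the squares of the generators -/
noncomputable def xP (V ι : Type) : ι → MvPolynomial (V ⊕ ι) ℚ := fun l => X (Sum.inr l)

/-- degree of a basis element -/
def lift (e : ι → Γ) (ε : ι → ZMod 2) : Γ := ∑ l, (ε l).val • e l

omit [LinearOrder Γ] in
lemma lift_single (e : ι → Γ) (l : ι) : lift e (Pi.single l 1) = e l := by
  rw [lift, Finset.sum_eq_single l]
  · rw [Pi.single_eq_same, ZMod.val_one, one_smul]
  · intro b _ h; rw [Pi.single_eq_of_ne h, ZMod.val_zero, zero_smul]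
  · simp

omit [LinearOrder Γ] [DecidableEq ι] in
lemma lift_zero (e : ι → Γ) : lift e 0 = 0 := by simp [lift]

variable (W : Wt (V ⊕ ι) Γ) (e : ι → Γ)

/-- the grading of the generic algebra -/
noncomputable def gT : Gr Γ (TG B (xP V ι)) where
  π u :=
    { toFun := fun m ε => W.gP.π (u - lift e ε) (m ε)
      map_add' := fun _ _ => TG.ext fun _ => map_add _ _ _
      map_smul' := fun c a => TG.ext fun ε => (W.gP.π (u - lift e ε)).map_smul c (a ε) }
  sum m := by
    classical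
    choose T h0 h1 using W.gP.sum
    refine ⟨Finset.univ.biUnion fun ε => (T (m ε)).image (· + lift e ε), fun u hu => ?_, ?_⟩
    · refine TG.ext fun ε => h0 _ _ fun h => hu ?_
      exact Finset.mem_biUnion.2 ⟨ε, Finset.mem_univ _, Finset.mem_image.2
        ⟨_, h, sub_add_cancel _ _⟩⟩
    · refine TG.ext fun ε => ?_
      rw [TG.sum_apply]
      conv_rhs => rw [← h1 (m ε)]
      symm
      refine Finset.sum_bij_ne_zero (fun u _ _ => u + lift e ε) (fun u hu _ => ?_)
        (fun _ _ _ _ _ _ h => add_right_cancel h) (fun u _ hu => ?_) fun u _ _ => ?_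
      · exact Finset.mem_biUnion.2 ⟨ε, Finset.mem_univ _, Finset.mem_image_of_mem _ hu⟩
      · refine ⟨u - lift e ε, ?_, hu, sub_add_cancel _ _⟩
        by_contra h
        exact hu (h0 _ _ h)
      · change _ = W.gP.π (u + lift e ε - lift e ε) (m ε)
        rw [add_sub_cancel_right]
  orth u u' m := TG.ext fun ε => by
    change W.gP.π (u - lift e ε) (W.gP.π (u' - lift e ε) (m ε)) = _
    rw [W.gP.orth]
    by_cases h : u = u'
    · rw [if_pos h, if_pos (by rw [h])]; rfl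
    · rw [if_neg h, if_neg (fun h' => h (sub_left_injective h'))]; rfl
  fd u := by
    have h : (Submodule.pi Set.univ fun ε : ι → ZMod 2 =>
        LinearMap.range (W.gP.π (u - lift e ε))).FG :=
      Submodule.fg_pi fun ε => (Module.Finite.iff_fg).1 (W.gP.fd _)
    let A : Submodule ℚ (TG B (xP V ι)) :=
      Submodule.pi Set.univ fun ε : ι → ZMod 2 => LinearMap.range (W.gP.π (u - lift e ε))
    have : FiniteDimensional ℚ A := Module.Finite.iff_fg.2 h
    exact Submodule.finiteDimensional_of_le (S₂ := A) (by rintro _ ⟨m, rfl⟩ ε _; exact ⟨_, rfl⟩)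

variable {B W e}

lemma gT_iff {u : Γ} {m : TG B (xP V ι)} :
    (gT B W e).π u m = m ↔ ∀ ε, IsWeightedHomogeneous W.w (m ε) (u - lift e ε) :=
  ⟨fun h ε => W.gP_iff.1 (congrFun h ε), fun h => TG.ext fun ε => W.gP_iff.2 (h ε)⟩

lemma gm_gT : W.GM (gT B W e) := fun p u m d hp hm => gT_iff.2 fun ε => by
  rw [add_sub_assoc]; exact hp.mul (gT_iff.1 hm ε)

omit [LinearOrder Γ] [DecidableEq ι] in
lemma cc_hom (hw : ∀ l, W.w (Sum.inr l) = e l + e l) (ε η : ι → ZMod 2) :
    IsWeightedHomogeneous W.w (cc B (xP V ι) ε η) (lift e ε + lift e η - lift e (ε + η)) := by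
  have h1 : IsWeightedHomogeneous W.w ((sg (B ε η) : ℤ) : MvPolynomial (V ⊕ ι) ℚ) 0 := by
    rw [← map_intCast (C : ℚ →+* MvPolynomial (V ⊕ ι) ℚ)]; exact isWeightedHomogeneous_C _ _
  have h2 := IsWeightedHomogeneous.prod (w := W.w) Finset.univ
    (fun l => xP V ι l ^ ((ε l).val * (η l).val)) _
    (fun l _ => (isWeightedHomogeneous_X ℚ W.w (Sum.inr l)).pow _)
  have h3 := h1.mul h2
  rw [← cc] at h3
  convert h3 using 1
  rw [zero_add, lift, lift, lift, ← Finset.sum_add_distrib, ← Finset.sum_sub_distrib]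
  refine Finset.sum_congr rfl fun l _ => ?_
  have : ∀ p q : ZMod 2, p.val + q.val = (p + q).val + p.val * q.val * 2 := by decide
  rw [hw, ← add_smul, this, add_smul, Pi.add_apply, add_sub_cancel_left, mul_smul _ 2, two_smul]

lemma gT_mul (hw : ∀ l, W.w (Sum.inr l) = e l + e l) {u v : Γ} {a b : TG B (xP V ι)}
    (ha : (gT B W e).π u a = a) (hb : (gT B W e).π v b = b) :
    (gT B W e).π (u + v) (a * b) = a * b := by
  rw [gT_iff] at ha hb ⊢
  intro ζ
  rw [TG.mul_apply]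
  refine IsWeightedHomogeneous.sum _ _ _ fun ε _ => ?_
  convert (cc_hom (B := B) hw ε (ζ - ε)).mul ((ha ε).mul (hb (ζ - ε))) using 1
  rw [add_sub_cancel]; abel

lemma gT_u (ε : ι → ZMod 2) : (gT B W e).π (lift e ε) (TG.u B (xP V ι) ε) = TG.u B _ ε := by
  rw [gT_iff]
  intro ζ
  rw [TG.u_apply]
  split_ifs with h
  · rw [h, sub_self]; exact isWeightedHomogeneous_one ℚ _
  · exact isWeightedHomogeneous_zero ℚ _ _

variable (B) in
/-- extension of an ideal -/
noncomputable def pG (p : Ideal (MvPolynomial (V ⊕ ι) ℚ)) : Submodule (MvPolynomial (V ⊕ ι) ℚ) (TG B (xP V ι)) :=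
  Submodule.pi Set.univ fun _ : ι → ZMod 2 => p

lemma mem_pG {p : Ideal (MvPolynomial (V ⊕ ι) ℚ)} {m : TG B (xP V ι)} :
    m ∈ pG B p ↔ ∀ ε, m ε ∈ p := ⟨fun h ε => h ε trivial, fun h ε _ => h ε⟩

lemma pG_mul_left {p : Ideal (MvPolynomial (V ⊕ ι) ℚ)} (a : TG B (xP V ι)) {b : TG B (xP V ι)}
    (hb : b ∈ pG B p) : a * b ∈ pG B p := mem_pG.2 fun ζ => by
  rw [TG.mul_apply]
  exact p.sum_mem fun ε _ => p.mul_mem_left _ (p.mul_mem_left _ (mem_pG.1 hb _))

lemma pG_mul_right {p : Ideal (MvPolynomial (V ⊕ ι) ℚ)} {a : TG B (xP V ι)} (b : TG B (xP V ι))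
    (ha : a ∈ pG B p) : a * b ∈ pG B p := mem_pG.2 fun ζ => by
  rw [TG.mul_apply]
  exact p.sum_mem fun ε _ => p.mul_mem_left _ (p.mul_mem_right _ (mem_pG.1 ha _))

lemma pG_smul {p : Ideal (MvPolynomial (V ⊕ ι) ℚ)} {f} (hf : f ∈ p) (m : TG B (xP V ι)) :
    f • m ∈ pG B p := mem_pG.2 fun _ => p.mul_mem_right _ hf

lemma pG_hom {p : Ideal (MvPolynomial (V ⊕ ι) ℚ)} (hp : W.HomI p) :
    (gT B W e).Hom ((pG B p).restrictScalars ℚ) := fun _ _ hm => mem_pG.2 fun ε =>
  hp _ _ (mem_pG.1 hm ε)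

variable {Λ Λ₂ : Type} [CommRing Λ] [IsDomain Λ] [CommRing Λ₂] [Fintype V]
  [IsOrderedAddMonoid Γ] (S : Sys (V ⊕ ι) Γ Λ Λ₂)

lemma rank_step (hT : TdimStmt) {p : Ideal (MvPolynomial (V ⊕ ι) ℚ)} (hp : p ∈ S.GP)
    {κ : Type} (m : κ → TG B (xP V ι)) (d : κ → Γ)
    (hm : ∀ i, (gT B S.toWt e).π (d i) (m i) = m i) (T : Finset κ) :
    ∃ ρ : ℕ, ρ ≤ T.card ∧
      (gT B S.toWt e).Hom ((pG B p ⊔ Submodule.span _ (m '' T)).restrictScalars ℚ) ∧
      (gT B S.toWt e).hq ((pG B p ⊔ Submodule.span _ (m '' T)).restrictScalars ℚ)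
        ((pG B p).restrictScalars ℚ) ∈ S.FF ∧
      PowerSeries.X ^ Sys.cd p ∣ S.TK ((gT B S.toWt e).hq
        ((pG B p ⊔ Submodule.span _ (m '' T)).restrictScalars ℚ) ((pG B p).restrictScalars ℚ)) ∧
      PowerSeries.coeff (Sys.cd p) (S.TK ((gT B S.toWt e).hq
        ((pG B p ⊔ Submodule.span _ (m '' T)).restrictScalars ℚ) ((pG B p).restrictScalars ℚ))) =
        ρ * PowerSeries.coeff (Sys.cd p) (S.TK (S.hI p)) ∧
      (ρ = T.card → ∀ c : κ → MvPolynomial (V ⊕ ι) ℚ, ∑ i ∈ T, c i • m i ∈ pG B p →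
        ∀ i ∈ T, c i ∈ p) ∧
      (ρ = 0 → ∀ a ∈ pG B p ⊔ Submodule.span _ (m '' T), ∃ f, f ∉ p ∧ f • a ∈ pG B p) := by
  classical
  induction T using Finset.induction_on with
  | empty =>
    simp only [Finset.coe_empty, Set.image_empty, Submodule.span_empty, sup_bot_eq, Gr.hq_self,
      S.TK_zero]
    exact ⟨0, le_rfl, pG_hom hp.2, S.FF.zero_mem, dvd_zero _, by simp, by simp,
      fun _ a ha => ⟨1, (Ideal.ne_top_iff_one p).1 hp.1.ne_top, by simpa using ha⟩⟩
  | insert i T hi ih =>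
    obtain ⟨ρ, h1, h2, h3, h4, h5, h6, h7⟩ := ih
    set N := pG B p ⊔ Submodule.span (MvPolynomial (V ⊕ ι) ℚ) (m '' T) with hN
    have eN : pG B p ⊔ Submodule.span (MvPolynomial (V ⊕ ι) ℚ) (m '' (insert i T : Finset κ)) =
        N ⊔ Submodule.span (MvPolynomial (V ⊕ ι) ℚ) {m i} := by
      rw [Finset.coe_insert, Set.image_insert_eq, Submodule.span_insert, hN, sup_assoc,
        sup_comm (Submodule.span _ {m i})]
    obtain ⟨g1, g2, g3⟩ := (gm_gT (B := B) (W := S.toWt) (e := e)).col h2 (hm i)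
    have g4 := S.hI_FF g1
    have g5 := S.FF.smul_mem (tt (d i)) g4
    have hle : p ≤ Wt.col N (m i) := fun f hf =>
      Wt.mem_col.2 (Submodule.mem_sup_left (pG_smul hf _))
    rw [eN, ← Gr.hq_add _ _ (N.restrictScalars ℚ), g3, S.TK_add g5 h3, S.TK_smul _ g4,
      Finset.card_insert_of_notMem hi]
    rcases hle.eq_or_lt with he | hlt
    · rw [← he]
      have hd := S.dvd_TK hT p hp
      refine ⟨ρ + 1, by omega, g2, S.FF.add_mem (he ▸ g5) h3, dvd_add (hd.mul_left _) h4, ?_,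
        fun hρ c hc => ?_, fun h => by omega⟩
      · rw [map_add, coeff_mul_of_dvd _ hd, h5, S.Θ_tt, S.θ0]; push_cast; ring
      · rw [Finset.sum_insert hi] at hc
        have hs : ∑ j ∈ T, c j • m j ∈ N := Submodule.mem_sup_right (Submodule.sum_mem _
          fun j hj => Submodule.smul_mem _ _ (Submodule.subset_span ⟨j, hj, rfl⟩))
        have hci : c i ∈ p := by
          rw [he, Wt.mem_col]
          exact (N.add_mem_iff_left hs).1 (Submodule.mem_sup_left hc)
        have := h6 (by omega) c (((pG B p).add_mem_iff_right (pG_smul hci _)).1 hc)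
        intro j hj
        rcases Finset.mem_insert.1 hj with rfl | hj
        · exact hci
        · exact this j hj
    · have hd := S.dvd_TK_of_lt hT hp.1 g1 hlt
      refine ⟨ρ, by omega, g2, S.FF.add_mem g5 h3,
        dvd_add (((pow_dvd_pow _ (Nat.le_succ _)).trans hd).mul_left _) h4, ?_,
        fun hρ => by omega, fun h a ha => ?_⟩
      · rw [map_add, PowerSeries.X_pow_dvd_iff.1 (hd.mul_left _) _ (Nat.lt_succ_self _),
          zero_add, h5]
      · obtain ⟨f, hf, hfp⟩ := Set.exists_of_ssubset hlt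
        obtain ⟨a, ha', _, hb, rfl⟩ := Submodule.mem_sup.1 ha
        obtain ⟨c, rfl⟩ := Submodule.mem_span_singleton.1 hb
        obtain ⟨f', hf', h'⟩ := h7 h (f • (a + c • m i)) (by
          rw [smul_add, smul_comm]
          exact N.add_mem (N.smul_mem _ ha') (N.smul_mem _ hf))
        exact ⟨f' * f, fun h => (hp.1.mem_or_mem h).elim hf' hfp, by rwa [mul_smul]⟩

omit [DecidableEq ι] [Fintype V] in
lemma cc_swap {R : Type} [CommRing R] (x : ι → R) (ε η : ι → ZMod 2) :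
    cc B x ε η = cc B x η ε ∨ cc B x ε η = -cc B x η ε := by
  unfold cc
  simp only [mul_comm (η _).val]
  rcases sg_cases (B ε η) with h | h <;> rcases sg_cases (B η ε) with h' | h' <;> simp [h, h']

theorem dom_hom [CharZero Λ] (hT : TdimStmt) (h2 : (2 : Λ₂) = 0)
    (hw : ∀ l, S.w (Sum.inr l) = e l + e l) {p : Ideal (MvPolynomial (V ⊕ ι) ℚ)}
    (hp : p ∈ S.GP) (hc : S.cl p ≠ 0) {b : TG B (xP V ι)} {v : Γ}
    (hb : (gT B S.toWt e).π v b = b) (hbp : b ∉ pG B p) (a : TG B (xP V ι))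
    (hab : a * b ∈ pG B p) : a ∈ pG B p := by
  classical
  obtain ⟨ρ, h1, h2', h3, h4, h5, h6, h7⟩ := rank_step S hT hp (fun ε => TG.u B _ ε * b)
    (fun ε => lift e ε + v) (fun ε => gT_mul hw (gT_u ε) hb) Finset.univ
  set N := pG B p ⊔ Submodule.span (MvPolynomial (V ⊕ ι) ℚ)
    ((fun ε => TG.u B _ ε * b) '' (Finset.univ : Finset (ι → ZMod 2))) with hN
  have hmul : ∀ a : TG B (xP V ι), a * b = ∑ ε, a ε • (TG.u B _ ε * b) := fun a => by
    conv_lhs => rw [a.eq_sum, Finset.sum_mul]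
    simp only [smul_mul_assoc]
  have hbN : ∀ a, a * b ∈ N := fun a => by
    rw [hmul]
    exact Submodule.mem_sup_right (Submodule.sum_mem _ fun ε hε =>
      Submodule.smul_mem _ _ (Submodule.subset_span ⟨ε, hε, rfl⟩))
  have hNl : ∀ a, ∀ m ∈ N, a * m ∈ N := by
    intro a m hm
    obtain ⟨m₁, h₁, m₂, h₂, rfl⟩ := Submodule.mem_sup.1 hm
    rw [mul_add]
    refine N.add_mem (Submodule.mem_sup_left (pG_mul_left a h₁)) ?_
    induction h₂ using Submodule.span_induction with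
    | mem _ hx => obtain ⟨ε, -, rfl⟩ := hx; rw [← mul_assoc]; exact hbN _
    | zero => rw [mul_zero]; exact N.zero_mem
    | add x y hx hy ihx ihy =>
      rw [mul_add]
      exact N.add_mem (ihx (Submodule.add_mem_sup h₁ hx)) (ihy (Submodule.add_mem_sup h₁ hy))
    | smul c x hx ih =>
      rw [mul_smul_comm]; exact N.smul_mem _ (ih (Submodule.add_mem_sup h₁ hx))
  have hρ0 : ρ ≠ 0 := by
    intro h
    obtain ⟨f, hf, hf'⟩ := h7 h b (by simpa using hbN 1)
    exact hbp (mem_pG.2 fun ε => (hp.1.mem_or_mem (mem_pG.1 hf' ε)).resolve_left hf)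
  let Z : V ⊕ ι → TG B (xP V ι) →ₗ[ℚ] TG B (xP V ι) := Sum.elim
    (fun v => Wt.lm _ (X (Sum.inl v) : MvPolynomial (V ⊕ ι) ℚ))
    (fun l => (LinearMap.mulLeft (MvPolynomial (V ⊕ ι) ℚ)
      (TG.u B (xP V ι) (Pi.single l 1))).restrictScalars ℚ)
  have Z1 : ∀ v m, Z (Sum.inl v) m = (X (Sum.inl v) : MvPolynomial (V ⊕ ι) ℚ) • m :=
    fun _ _ => rfl
  have Z2 : ∀ l m, Z (Sum.inr l) m = TG.u B (xP V ι) (Pi.single l 1) * m := fun _ _ => rfl
  obtain ⟨r, hr⟩ := (gT B S.toWt e).serre Z (Sum.elim (fun v => S.w (Sum.inl v)) e)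
    (by
      rintro (v | l)
      · exact gm_gT.op (isWeightedHomogeneous_X ℚ _ _)
      · refine Gr.op_of _ _ fun u m hm => ?_
        have := gT_mul hw (gT_u (Pi.single l 1)) hm
        rwa [lift_single, add_comm] at this)
    (by
      rintro (v | l) (v' | l') m
      · rw [Z1, Z1, Z1, Z1, smul_comm]; exact Or.inl rfl
      · rw [Z1, Z2, Z1, Z2, mul_smul_comm]; exact Or.inl rfl
      · rw [Z1, Z2, Z1, Z2, mul_smul_comm]; exact Or.inl rfl
      · rw [Z2, Z2, Z2, Z2, ← mul_assoc, ← mul_assoc, TG.u_mul_u, TG.u_mul_u,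
          add_comm (Pi.single l' 1)]
        rcases cc_swap (B := B) (xP V ι) (Pi.single l 1) (Pi.single l' 1) with h | h <;> rw [h]
        · exact Or.inl rfl
        · exact Or.inr (by rw [neg_smul, neg_mul]))
    (fun N₂ N₁ g1 g2 hle => Wt.noeth N₂ N₁ (σ := V ⊕ ι) (by
      rintro (v | l) m hm
      · exact g1 (Sum.inl v) ⟨m, hm, rfl⟩
      · have := g2 (Sum.inr l) ⟨_, g1 (Sum.inr l) ⟨m, hm, rfl⟩, rfl⟩
        have e2 : (Pi.single l 1 + Pi.single l 1 : ι → ZMod 2) = 0 := by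
          nth_rewrite 1 [← TG.neg_eq (Pi.single l 1)]; exact neg_add_cancel _
        have e3 : ∏ l', xP V ι l' ^ (((Pi.single l 1 : ι → ZMod 2) l').val *
            ((Pi.single l 1 : ι → ZMod 2) l').val) = X (Sum.inr l) := by
          rw [Finset.prod_eq_single l]
          · rw [Pi.single_eq_same, ZMod.val_one, pow_one]; rfl
          · intro b _ h; rw [Pi.single_eq_of_ne h, ZMod.val_zero, pow_zero]
          · simp
        rw [Z2, Z2, ← mul_assoc, TG.u_mul_u, e2, smul_mul_assoc, cc, e3,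
          show TG.u B (xP V ι) 0 = 1 from rfl, one_mul] at this
        rcases sg_cases (B (Pi.single l 1) (Pi.single l 1)) with h | h <;> rw [h] at this
        · simpa using this
        · simpa using this) hle)
    Finset.univ (N.restrictScalars ℚ) ((pG B p).restrictScalars ℚ) h2' (pG_hom hp.2)
    (fun _ hm => Submodule.mem_sup_left hm)
    (by
      rintro (v | l) _ ⟨m, hm, rfl⟩
      · exact N.smul_mem _ hm
      · exact hNl _ m hm)
    (by
      rintro (v | l) _ ⟨m, hm, rfl⟩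
      · exact (pG B p).smul_mem _ hm
      · exact pG_mul_left _ hm)
    (fun i hi => absurd (Finset.mem_univ i) hi)
  have ePi : S.Pi = (∏ l, (1 + tt (e l))) *
      ∏ i, (1 - tt (Sum.elim (fun v => S.w (Sum.inl v)) e i)) := by
    rw [Sys.Pi, Fintype.prod_sum_type, Fintype.prod_sum_type, mul_left_comm,
      ← Finset.prod_mul_distrib]
    congr 1
    refine Finset.prod_congr rfl fun l _ => ?_
    rw [hw, tt_add, Sum.elim_inr]; ring
  have e4 : PowerSeries.constantCoeff (S.Θ (∏ l, (1 + tt (e l)))) = 2 ^ Fintype.card ι := by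
    rw [map_prod, map_prod, Finset.prod_congr rfl (g := fun _ => 2), Finset.prod_const,
      Finset.card_univ]
    intro l _
    rw [map_add, map_one, map_add, map_one, S.Θ_tt, S.θ0]; norm_num
  rw [S.TK_eq (r := (∏ l, (1 + tt (e l))) * r)
    (by rw [← smul_eq_mul, map_smul, hr, ePi, mul_smul]), map_mul] at h4 h5
  rw [coeff_mul_of_dvd _ (dvd_of_dvd_mul (by rw [e4]; exact pow_ne_zero _ two_ne_zero) h4),
    e4] at h5
  have h8 := Nat.le_of_dvd (Nat.pos_of_ne_zero hρ0) (two_pow_dvd S.ψ h2 hc _ _ _ h5.symm)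
  have h9 : (Finset.univ : Finset (ι → ZMod 2)).card = 2 ^ Fintype.card ι := by
    simp
  exact mem_pG.2 fun ε => h6 (by omega) a (hmul a ▸ hab) ε (Finset.mem_univ ε)

theorem dom [CharZero Λ] (hT : TdimStmt) (h2 : (2 : Λ₂) = 0)
    (hw : ∀ l, S.w (Sum.inr l) = e l + e l) {p : Ideal (MvPolynomial (V ⊕ ι) ℚ)}
    (hp : p ∈ S.GP) (hc : S.cl p ≠ 0) (a b : TG B (xP V ι)) (hab : a * b ∈ pG B p) :
    a ∈ pG B p ∨ b ∈ pG B p := by
  let μ : TG B (xP V ι) →ₗ[ℚ] TG B (xP V ι) →ₗ[ℚ] TG B (xP V ι) :=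
    LinearMap.mk₂ ℚ (· * ·) add_mul
      (fun c a b => by rw [← algebraMap_smul (MvPolynomial (V ⊕ ι) ℚ) c, smul_mul_assoc,
        algebraMap_smul])
      mul_add
      (fun c a b => by rw [← algebraMap_smul (MvPolynomial (V ⊕ ι) ℚ) c, mul_smul_comm,
        algebraMap_smul])
  refine (gT B S.toWt e).prime_of_hom μ (pG_hom hp.2) (fun u v a b ha hb => gT_mul hw ha hb)
    (fun a b ha => pG_mul_right b ha) (fun a b hb => pG_mul_left a hb)
    (fun u v a b _ hb h => ?_) a b hab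
  by_cases hb' : b ∈ pG B p
  · exact Or.inr hb'
  · exact Or.inl (dom_hom S hT h2 hw hp hc hb hb' a h)

end Crest.Agent.R180
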