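import Crest.Agent.R180.FinalA

/-! Row 180, task F: the ultraproduct step. -/

set_option autoImplicit false
open Module Filter

namespace Crest.Agent.R180.F

/-- the ultrafilter -/
noncomputable abbrev UU : Ultrafilter ℕ := hyperfilter ℕ

theorem UU_le : (UU : Filter ℕ) ≤ atTop := Nat.hyperfilter_le_atTop

/-- equality almost everywhere -/
def con (R : ℕ → Type) [∀ j, Ring (R j)] : RingCon (∀ j, R j) where
  r x y := ∀ᶠ j in (UU : Filter ℕ), x j = y j
  iseqv := ⟨fun _ => Eventually.of_forall fun _ => rfl, fun h => h.mono fun _ => Eq.symm,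
    fun h h' => (h.and h').mono fun _ e => e.1.trans e.2⟩
  mul' h h' := (h.and h').mono fun j e => by simp [e.1, e.2]
  add' h h' := (h.and h').mono fun j e => by simp [e.1, e.2]

/-- ultraproduct -/
def UP (R : ℕ → Type) [∀ j, Ring (R j)] : Type := (con R).Quotient

section
variable (R : ℕ → Type) [∀ j, Ring (R j)]

noncomputable instance : Ring (UP R) := inferInstanceAs (Ring (con R).Quotient)

/-- the quotient map -/
noncomputable def pr : (∀ j, R j) →+* UP R := (con R).mk'

variable {R}

theorem mk_eq {x y : ∀ j, R j} : pr R x = pr R y ↔ ∀ᶠ j in (UU : Filter ℕ), x j = y j :=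
  (con R).eq

theorem mk_eq_zero {x : ∀ j, R j} : pr R x = 0 ↔ ∀ᶠ j in (UU : Filter ℕ), x j = 0 := by
  rw [← map_zero (pr R), mk_eq]; rfl

theorem mk_surj : Function.Surjective (pr R) := (con R).mk'_surjective

instance [∀ j, Nontrivial (R j)] : Nontrivial (UP R) :=
  ⟨⟨1, 0, fun h => by
    rw [← map_one (pr R), mk_eq_zero] at h
    obtain ⟨j, hj⟩ := h.exists
    exact one_ne_zero hj⟩⟩

instance [∀ j, IsDomain (R j)] : IsDomain (UP R) := by
  have : NoZeroDivisors (UP R) := ⟨fun {a b} h => by
    obtain ⟨x, rfl⟩ := mk_surj a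
    obtain ⟨y, rfl⟩ := mk_surj b
    rw [← map_mul, mk_eq_zero] at h
    rw [mk_eq_zero, mk_eq_zero, ← Ultrafilter.eventually_or]
    exact h.mono fun j e => mul_eq_zero.1 e⟩
  exact NoZeroDivisors.to_isDomain _

instance [∀ j, CharZero (R j)] : CharZero (UP R) :=
  ⟨fun m n h => by
    rw [← map_natCast (pr R), ← map_natCast (pr R), mk_eq] at h
    obtain ⟨j, hj⟩ := h.exists
    exact Nat.cast_injective (R := R j) hj⟩

end

section
variable (E : ℕ → Type) [∀ j, Field (E j)]

noncomputable instance commRing : CommRing (UP E) where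
  mul_comm a b := by
    obtain ⟨x, rfl⟩ := mk_surj a
    obtain ⟨y, rfl⟩ := mk_surj b
    rw [← map_mul, ← map_mul, mul_comm]

noncomputable instance field : Field (UP E) := Field.ofIsUnitOrEqZero fun a => by
  obtain ⟨x, rfl⟩ := mk_surj a
  refine (Ultrafilter.em UU fun j => x j = 0).symm.imp (fun h => ?_) mk_eq_zero.2
  refine IsUnit.of_mul_eq_one (pr E fun j => (x j)⁻¹) ?_
  rw [← map_mul, ← map_one (pr E), mk_eq]
  exact h.mono fun j e => mul_inv_cancel₀ e

end

variable (W : ℕ → Wit)

/-- ultraproduct of the fields -/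
abbrev Es : Type := UP fun j => (W j).E

/-- ultraproduct of the algebras -/
abbrev Ds : Type := UP fun j => (W j).D

/-- componentwise structure map -/
noncomputable def am : (∀ j, (W j).E) →+* (∀ j, (W j).D) :=
  Pi.ringHom fun j => (algebraMap (W j).E (W j).D).comp (Pi.evalRingHom _ j)

noncomputable instance algebra : Algebra (Es W) (Ds W) :=
  RingHom.toAlgebra' ((con _).lift ((pr _).comp (am W)) fun x y h =>
    mk_eq.2 (Eventually.mono h fun j e => congrArg (algebraMap (W j).E (W j).D) e)) fun a b => by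
    obtain ⟨x, rfl⟩ := mk_surj a
    obtain ⟨y, rfl⟩ := mk_surj b
    change pr _ (am W x) * _ = _ * pr _ (am W x)
    rw [← map_mul, ← map_mul]
    exact congrArg _ (funext fun j => Algebra.commutes _ _)

theorem mk_smul (c : ∀ j, (W j).E) (x : ∀ j, (W j).D) :
    (pr _ c : Es W) • (pr _ x : Ds W) = pr _ fun j => c j • x j := by
  rw [Algebra.smul_def]
  change pr _ (am W c) * _ = _
  rw [← map_mul]
  exact congrArg _ (funext fun j => (Algebra.smul_def _ _).symm)

/-- the ultraproduct of the functionals -/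
noncomputable def tau : Ds W →ₗ[Es W] Es W where
  toFun := Quotient.lift (fun x => pr _ fun j => (W j).τ (x j)) fun x y h =>
    mk_eq.2 (Eventually.mono h fun j e => congrArg (W j).τ e)
  map_add' a b := by
    obtain ⟨x, rfl⟩ := mk_surj a
    obtain ⟨y, rfl⟩ := mk_surj b
    rw [← map_add]
    change pr _ _ = pr _ _ + pr _ _
    rw [← map_add]
    exact congrArg _ (funext fun j => map_add _ _ _)
  map_smul' a b := by
    obtain ⟨x, rfl⟩ := mk_surj a
    obtain ⟨y, rfl⟩ := mk_surj b
    rw [mk_smul]
    change pr _ _ = pr _ _ * pr _ _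
    rw [← map_mul]
    exact congrArg _ (funext fun j => map_smul _ _ _)

theorem tau_mk (x : ∀ j, (W j).D) : tau W (pr _ x) = pr _ fun j => (W j).τ (x j) := rfl

/-- evaluation of formal traces -/
noncomputable def ph (V : Wit) : Tc →+* V.E :=
  (MvPolynomial.aeval (fun w' => V.τ (V.word w')) : Tc →ₐ[ℚ] V.E)

/-- evaluation as a ring homomorphism -/
noncomputable def evH (V : Wit) : TP →+* V.D :=
  MonoidAlgebra.liftNCRingHom ((algebraMap V.E V.D).comp (ph V)) V.word
    fun _ _ => Algebra.commutes _ _

theorem evH_single (V : Wit) (w : Wd) (q : Tc) :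
    evH V (MonoidAlgebra.single w q) = ph V q • V.word w := by
  rw [evH, MonoidAlgebra.liftNCRingHom_single, Algebra.smul_def]; rfl

theorem evH_eq (V : Wit) (X : TP) : evH V X = V.ev X := by
  simp only [Wit.ev, Algebra.smul_def]; rfl

/-- marked elements of the ultraproduct -/
noncomputable def ss (b : Bool) : Ds W := pr _ fun j => (W j).s b

theorem word_eq (w : Wd) : FreeMonoid.lift (ss W) w = pr _ fun j => (W j).word w := by
  induction w using FreeMonoid.inductionOn with
  | one => rw [map_one, ← map_one (pr _)]; exact congrArg _ (funext fun j => (map_one _).symm)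
  | of b => rfl
  | mul x y hx hy =>
    rw [map_mul, hx, hy, ← map_mul]
    exact congrArg _ (funext fun j => (map_mul _ _ _).symm)

theorem span_ev (S : Finset Wd) {x : Ds W}
    (hx : x ∈ Submodule.span (Es W) (FreeMonoid.lift (ss W) '' S)) :
    ∀ f, pr _ f = x → ∀ᶠ j in (UU : Filter ℕ),
      f j ∈ Submodule.span (W j).E ((W j).word '' S) := by
  refine Submodule.span_induction (p := fun x _ => ∀ f, pr _ f = x → ∀ᶠ j in (UU : Filter ℕ),
      f j ∈ Submodule.span (W j).E ((W j).word '' S)) ?_ ?_ ?_ ?_ hx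
  · rintro _ ⟨w, hw, rfl⟩ f hf
    rw [word_eq, mk_eq] at hf
    exact hf.mono fun j e => by rw [e]; exact Submodule.subset_span ⟨w, hw, rfl⟩
  · intro f hf
    exact (mk_eq_zero.1 hf).mono fun j e => by rw [e]; exact zero_mem _
  · intro x y _ _ hx hy f hf
    obtain ⟨g, rfl⟩ := mk_surj x
    obtain ⟨g', rfl⟩ := mk_surj y
    rw [← map_add, mk_eq] at hf
    filter_upwards [hf, hx g rfl, hy g' rfl] with j e h1 h2
    rw [e]; exact add_mem h1 h2
  · intro c x _ hx f hf
    obtain ⟨g, rfl⟩ := mk_surj x
    obtain ⟨c, rfl⟩ := mk_surj c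
    rw [mk_smul, mk_eq] at hf
    filter_upwards [hf, hx g rfl] with j e h1
    rw [e]; exact Submodule.smul_mem _ _ h1

theorem finrank_le (V : Wit) (S : Finset Wd)
    (h1 : V.word 1 ∈ Submodule.span V.E (V.word '' S))
    (h2 : ∀ b, ∀ w ∈ S, V.word (FreeMonoid.of b * w) ∈ Submodule.span V.E (V.word '' S)) :
    finrank V.E (Algebra.adjoin V.E (Set.range V.s)) ≤ S.card := by
  classical
  have h3 : ∀ b, ∀ x ∈ Submodule.span V.E (V.word '' S),
      V.s b * x ∈ Submodule.span V.E (V.word '' S) := fun b x hx => by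
    refine Submodule.span_induction (p := fun x _ => V.s b * x ∈ _) ?_ ?_ ?_ ?_ hx
    · rintro _ ⟨w, hw, rfl⟩
      have := h2 b w hw
      rwa [map_mul] at this
    · simp
    · intro x y _ _ hx hy; rw [mul_add]; exact add_mem hx hy
    · intro c x _ hx; rw [mul_smul_comm]; exact Submodule.smul_mem _ _ hx
  have h4 : ∀ w, V.word w ∈ Submodule.span V.E (V.word '' S) := fun w => by
    induction w using FreeMonoid.inductionOn' with
    | one => exact h1
    | of_mul b w hw => rw [map_mul]; exact h3 b _ hw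
  have h5 : (Algebra.adjoin V.E (Set.range V.s)).toSubmodule ≤
      Submodule.span V.E ((S.image V.word : Finset V.D) : Set V.D) := by
    rw [adjoin_eq_span_words, Finset.coe_image]
    exact Submodule.span_le.2 (by rintro _ ⟨w, rfl⟩; exact h4 w)
  exact (Submodule.finrank_mono h5).trans
    ((finrank_span_finset_le_card _).trans Finset.card_image_le)

theorem li_pow {K A : Type} [Field K] [Ring A] [Algebra K A] {x : A} (h : Transcendental K x) :
    LinearIndependent K fun n : ℕ => x ^ n := by
  have := (Polynomial.basisMonomials K).linearIndependent.map'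
    (Polynomial.aeval x : Polynomial K →ₐ[K] A).toLinearMap
    (LinearMap.ker_eq_bot.2 (transcendental_iff_injective.1 h))
  have e : (fun n : ℕ => x ^ n) = (Polynomial.aeval x : Polynomial K →ₐ[K] A).toLinearMap ∘
      Polynomial.basisMonomials K := by
    funext n
    simp [Polynomial.aeval_monomial]
  rw [e]; exact this

end Crest.Agent.R180.F

namespace Crest.Agent.R180
open F

theorem finalStmt : FinalStmt := by
  classical
  intro b W hb hW
  refine of_model (tau W) ?_ (ss W) ((pr _).comp (Pi.ringHom fun j => ph (W j)))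
    ((pr _).comp (Pi.ringHom fun j => evH (W j))) (fun w q => ?_) (fun w => ?_) (fun X => ?_)
    fun hf => ?_
  · rw [← map_one (pr _), tau_mk, ← map_one (pr _)]
    exact congrArg _ (funext fun j => (W j).τ1)
  · rw [word_eq, RingHom.comp_apply, RingHom.comp_apply, mk_smul]
    exact congrArg _ (funext fun j => evH_single _ _ _)
  · rw [word_eq, tau_mk]
    exact congrArg _ (funext fun j => (MvPolynomial.aeval_X (R := ℚ)
      (fun w' => (W j).τ ((W j).word w')) w).symm)
  · have h1 : ∀ j, ∃ c : Fin (b X) → (W j).E,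
        ¬ LinearIndependent (W j).E (fun i : Fin (b X) => (W j).ev X ^ (i : ℕ)) →
          ∑ i, c i • (W j).ev X ^ (i : ℕ) = 0 ∧ ∃ i, c i ≠ 0 := fun j => by
      by_cases h : LinearIndependent (W j).E (fun i : Fin (b X) => (W j).ev X ^ (i : ℕ))
      · exact ⟨0, fun h' => absurd h h'⟩
      · obtain ⟨c, hc⟩ := Fintype.not_linearIndependent_iff.1 h
        exact ⟨c, fun _ => hc⟩
    choose c hc using h1
    have h2 := ((hb X).filter_mono UU_le).mono hc
    have h3 : ∃ i, ∀ᶠ j in (UU : Filter ℕ), c j i ≠ 0 := by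
      have := Ultrafilter.eventually_exists_iff.1 (h2.mono fun j h => h.2)
      exact this
    obtain ⟨i₀, h3⟩ := h3
    by_contra hna
    have h4 : LinearIndependent (Es W) fun i : Fin (b X) =>
        ((pr _).comp (Pi.ringHom fun j => evH (W j))) X ^ (i : ℕ) :=
      (li_pow hna).comp _ Fin.val_injective
    have h5 := Fintype.linearIndependent_iff.1 h4 (fun i => pr _ fun j => c j i) (by
      simp only [RingHom.comp_apply, ← map_pow, mk_smul, ← map_sum]
      rw [mk_eq_zero]
      refine h2.mono fun j h => ?_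
      rw [← h.1, Finset.sum_apply]
      refine Finset.sum_congr rfl fun i _ => ?_
      rw [← evH_eq, ← map_pow]; rfl) i₀
    obtain ⟨j, e1, e2⟩ := (h3.and (mk_eq_zero.1 h5)).exists
    exact e1 e2
  · have h1 : (Submodule.span (Es W) (Set.range (FreeMonoid.lift (ss W)))).FG := by
      rw [← adjoin_eq_span_words]
      exact (Module.Finite.iff_fg (N := (Algebra.adjoin _ (Set.range (ss W))).toSubmodule)).1 hf
    obtain ⟨T, hT, hT'⟩ := (Submodule.fg_span_iff_fg_span_finset_subset _).1 h1
    obtain ⟨S, hS⟩ := Finset.subset_set_image_iff.1 (hT.trans_eq Set.image_univ.symm)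
    have h2 : ∀ w, ∀ᶠ j in (UU : Filter ℕ),
        (W j).word w ∈ Submodule.span (W j).E ((W j).word '' S) := fun w =>
      span_ev W S (by
        rw [← Finset.coe_image, hS.2, ← hT']; exact Submodule.subset_span ⟨w, rfl⟩) _
        (word_eq W w).symm
    have h3 : ∀ᶠ j in (UU : Filter ℕ), ∀ b, ∀ w ∈ S,
        (W j).word (FreeMonoid.of b * w) ∈ Submodule.span (W j).E ((W j).word '' S) :=
      eventually_all.2 fun b => (eventually_all_finset S).2 fun w _ => h2 _
    obtain ⟨j, ⟨e1, e2⟩, e3⟩ :=
      (((h2 1).and h3).and ((eventually_gt_atTop S.card).filter_mono UU_le)).exists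
    exact absurd ((hW j).trans (finrank_le _ S e1 e2)) (not_le.2 e3)

end Crest.Agent.R180
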