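import Crest.Agent.R180.Defs

/-! Row 180, task F: algebraic part of the ultraproduct step. -/

set_option autoImplicit false
open Module Polynomial

namespace Crest.Agent.R180.F

/-- A finitely generated algebraic domain of infinite dimension is a counterexample. -/
theorem of_adjoin (K A : Type) [Field K] [CharZero K] [Countable K] [DivisionRing A] [Algebra K A]
    [Algebra.IsAlgebraic K A] (x y : A) (h : Algebra.adjoin K ({x, y} : Set A) = ⊤)
    (hA : ¬ FiniteDimensional K A) :
    Countable A ∧ CharZero A ∧ Algebra.IsAlgebraic (Subring.center A) A ∧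
      (∃ x y : A, Algebra.adjoin (Subring.center A) ({x, y} : Set A) = ⊤) ∧
      ¬ FiniteDimensional (Subring.center A) A := by
  classical
  letI : Algebra K (Subring.center A) :=
    ((algebraMap K A).codRestrict (Subring.center A) fun k =>
      Subring.mem_center_iff.2 fun a => (Algebra.commutes k a).symm).toAlgebra
  haveI : IsScalarTower K (Subring.center A) A := IsScalarTower.of_algebraMap_eq fun _ => rfl
  refine ⟨?_, charZero_of_injective_algebraMap (algebraMap K A).injective, ⟨fun a => ?_⟩, ⟨x, y, ?_⟩, fun hf => hA ?_⟩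
  · have h1 := Algebra.cardinalMk_adjoin_le K ({x, y} : Set A)
    rw [h] at h1
    have h2 : Cardinal.mk (⊤ : Subalgebra K A) ≤ Cardinal.aleph0 :=
      h1.trans (sup_le (sup_le Cardinal.mk_le_aleph0 Cardinal.mk_le_aleph0) le_rfl)
    have : Countable (⊤ : Subalgebra K A) := Cardinal.mk_le_aleph0_iff.1 h2
    exact (Subalgebra.topEquiv (R := K) (A := A)).surjective.countable
  · exact (Algebra.IsAlgebraic.isAlgebraic (R := K) a).extendScalars (algebraMap K _).injective
  · rw [eq_top_iff]
    intro a _
    have ha : a ∈ Algebra.adjoin K ({x, y} : Set A) := h ▸ Algebra.mem_top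
    exact (Algebra.adjoin_le (S := (Algebra.adjoin (Subring.center A)
      ({x, y} : Set A)).restrictScalars K) Algebra.subset_adjoin) ha
  · obtain ⟨B, hB, hB'⟩ := exists_subalgebra_of_fg K (Subring.center A) A
      ⟨{x, y}, by simpa using h⟩ hf.1
    haveI : Algebra.IsIntegral K (Subring.center A) := ⟨fun z => by
      have := (Algebra.IsAlgebraic.isAlgebraic (R := K) (algebraMap _ A z)).isIntegral
      exact (isIntegral_algebraMap_iff Subtype.val_injective).1 this⟩
    haveI : Algebra.FiniteType K B := (Subalgebra.fg_iff_finiteType B).1 hB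
    haveI : Algebra.IsIntegral K B := ⟨fun z =>
      (isIntegral_algHom_iff B.val Subtype.val_injective).1 (Algebra.IsIntegral.isIntegral _)⟩
    haveI : Module.Finite K B := Algebra.IsIntegral.finite
    haveI : Module.Finite B A := ⟨hB'⟩
    exact Module.Finite.trans B A

/-- Descent of algebraicity through a normalised functional. -/
theorem alg_descent {K E D : Type} [Field K] [Field E] [Ring D] [IsDomain D] [Algebra K E]
    [Algebra E D] [Algebra K D] [IsScalarTower K E D] (τ : D →ₗ[E] E) (h1 : τ 1 = 1) {x : D}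
    (hx : IsAlgebraic E x) (hτ : ∀ n : ℕ, τ (x ^ n) ∈ Set.range (algebraMap K E)) :
    IsAlgebraic K x := by
  classical
  choose a ha using hτ
  obtain ⟨p, hp0, hp⟩ := id hx
  obtain ⟨l, hl⟩ := Projective.exists_dual_ne_zero K (leadingCoeff_ne_zero.2 hp0)
  let P : K[X] := ∑ i ∈ Finset.range (p.natDegree + 1), monomial i (l (p.coeff i))
  have hP : P.coeff p.natDegree = l p.leadingCoeff := by
    simp [P, coeff_monomial]
  refine ⟨P, fun h => hl (by rw [← hP, h, coeff_zero]), ?_⟩
  have hPx : aeval x P = ∑ i ∈ Finset.range (p.natDegree + 1), l (p.coeff i) • x ^ i := by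
    simp only [P, map_sum, aeval_monomial, Algebra.smul_def]
  have key : ∀ k : ℕ, τ (aeval x P * x ^ k) = 0 := fun k => by
    have e1 : ∑ i ∈ Finset.range (p.natDegree + 1), a (i + k) • p.coeff i = 0 := by
      have : τ (aeval x p * x ^ k) = 0 := by rw [hp, zero_mul, map_zero]
      rw [aeval_eq_sum_range, Finset.sum_mul, map_sum] at this
      rw [← this]
      refine Finset.sum_congr rfl fun i _ => ?_
      rw [smul_mul_assoc, map_smul, ← pow_add, ← ha, Algebra.smul_def, smul_eq_mul, mul_comm]
    have e2 := congrArg (fun z => algebraMap K E (l z)) e1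
    simp only [map_sum, map_smul, map_zero, smul_eq_mul, map_mul] at e2
    rw [hPx, Finset.sum_mul, map_sum, ← e2]
    refine Finset.sum_congr rfl fun i _ => ?_
    rw [smul_mul_assoc, ← pow_add, ← algebraMap_smul E, map_smul, ← ha, smul_eq_mul, mul_comm]
  by_contra hne
  have hmem : aeval x P ∈ Algebra.adjoin E ({x} : Set D) := by
    rw [← aeval_map_algebraMap E]; exact aeval_mem_adjoin_singleton E x
  haveI : FiniteDimensional E (Algebra.adjoin E ({x} : Set D)) :=
    .of_fg hx.isIntegral.fg_adjoin_singleton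
  obtain ⟨y, hy⟩ := (FiniteDimensional.isUnit E (K := Algebra.adjoin E ({x} : Set D))
    (x := ⟨_, hmem⟩) (fun h => hne (congrArg Subtype.val h))).exists_right_inv
  have hy' : aeval x P * (y : D) = 1 := congrArg Subtype.val hy
  obtain ⟨r, hr⟩ : (y : D) ∈ (aeval x : E[X] →ₐ[E] D).range := by
    rw [← Algebra.adjoin_singleton_eq_range_aeval]; exact y.2
  have hr' : aeval x r = (y : D) := hr
  rw [← hr', aeval_eq_sum_range (p := r), Finset.mul_sum] at hy'
  have h2 := congrArg τ hy'
  simp only [map_sum, mul_smul_comm, map_smul, key, smul_zero, Finset.sum_const_zero, h1] at h2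
  exact zero_ne_one h2

theorem adjoin_eq_span_words (K : Type) {D : Type} [CommRing K] [Ring D] [Algebra K D]
    (s : Bool → D) : (Algebra.adjoin K (Set.range s)).toSubmodule =
      Submodule.span K (Set.range (FreeMonoid.lift s)) := by
  rw [Algebra.adjoin_eq_span, ← FreeMonoid.mrange_lift]; rfl

/-- The abstract form of the final step. -/
theorem of_model {E D : Type} [Field E] [CharZero E] [Ring D] [IsDomain D] [Algebra E D]
    (τ : D →ₗ[E] E) (h1 : τ 1 = 1) (s : Bool → D) (φ : Tc →+* E) (Φ : TP →+* D)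
    (hΦ : ∀ w q, Φ (MonoidAlgebra.single w q) = φ q • FreeMonoid.lift s w)
    (hτ : ∀ w, τ (FreeMonoid.lift s w) = φ (MvPolynomial.X w))
    (halg : ∀ X, IsAlgebraic E (Φ X))
    (hinf : ¬ FiniteDimensional E (Algebra.adjoin E (Set.range s))) :
    ∃ (D : Type) (_ : DivisionRing D), Countable D ∧ CharZero D ∧
      Algebra.IsAlgebraic (Subring.center D) D ∧
      (∃ x y : D, Algebra.adjoin (Subring.center D) ({x, y} : Set D) = ⊤) ∧
      ¬ FiniteDimensional (Subring.center D) D := by
  classical
  let K : Subfield E := Subfield.closure (Set.range φ)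
  have hK : ∀ k : K, ∃ a b, φ b ≠ 0 ∧ φ b * k = φ a := fun k => by
    obtain ⟨y, hy, z, hz, e⟩ := Subfield.mem_closure_iff.1 k.2
    have hc : Subring.closure (Set.range φ) ≤ φ.range := Subring.closure_le.2 fun _ h => h
    obtain ⟨a, rfl⟩ := hc hy
    obtain ⟨b, rfl⟩ := hc hz
    by_cases hb : φ b = 0
    · exact ⟨0, 1, by simp, by rw [← e, hb]; simp⟩
    · exact ⟨a, b, hb, by rw [← e]; field_simp⟩
  haveI : Countable Tc := by
    rw [← Cardinal.mk_le_aleph0_iff]
    refine MvPolynomial.cardinalMk_le_max.trans ?_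
    haveI : Countable Wd := inferInstanceAs (Countable (List Bool))
    exact max_le (max_le Cardinal.mk_le_aleph0 Cardinal.mk_le_aleph0) le_rfl
  haveI : Countable K := by
    rw [← Cardinal.mk_le_aleph0_iff]
    refine (Subfield.cardinalMk_closure_le_max _).trans (max_le ?_ le_rfl)
    exact Cardinal.mk_le_aleph0_iff.2 (Set.countable_range φ).to_subtype
  let A : Subalgebra K D := Algebra.adjoin K (Set.range s)
  have hA : ∀ y ∈ A, y ∈ Submodule.span K (Set.range (FreeMonoid.lift s)) := fun y hy => by
    rw [← adjoin_eq_span_words]; exact hy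
  have hC : ∀ q X, Φ (MonoidAlgebra.single 1 q * X) = φ q • Φ X := fun q X => by
    rw [map_mul, hΦ, map_one, smul_mul_assoc, one_mul]
  have hfrac : ∀ y ∈ A, ∃ X b, φ b ≠ 0 ∧ φ b • y = Φ X := fun y hy => by
    refine Submodule.span_induction (p := fun y _ => ∃ X b, φ b ≠ 0 ∧ φ b • y = Φ X)
      ?_ ?_ ?_ ?_ (hA y hy)
    · rintro _ ⟨w, rfl⟩
      exact ⟨MonoidAlgebra.single w 1, 1, by simp, (hΦ w 1).symm⟩
    · exact ⟨0, 1, by simp, by simp⟩
    · rintro y z - - ⟨X, b, hb, e⟩ ⟨X', b', hb', e'⟩
      refine ⟨MonoidAlgebra.single 1 b' * X + MonoidAlgebra.single 1 b * X', b * b',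
        by simp [hb, hb'], ?_⟩
      rw [map_add, hC, hC, ← e, ← e', map_mul, smul_add, smul_smul, smul_smul, mul_comm (φ b')]
    · rintro k y - ⟨X, b, hb, e⟩
      obtain ⟨a, b', hb', e'⟩ := hK k
      refine ⟨MonoidAlgebra.single 1 a * X, b * b', by simp [hb, hb'], ?_⟩
      rw [hC, ← e, ← e', map_mul, Subfield.smul_def, smul_smul, smul_smul]
      congr 1; ring
  have htr : ∀ y ∈ A, τ y ∈ Set.range (algebraMap K E) := fun y hy => by
    refine Submodule.span_induction (p := fun y _ => τ y ∈ Set.range (algebraMap K E))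
      ?_ ?_ ?_ ?_ (hA y hy)
    · rintro _ ⟨w, rfl⟩
      exact ⟨⟨φ (MvPolynomial.X w), Subfield.subset_closure ⟨_, rfl⟩⟩, (hτ w).symm⟩
    · exact ⟨0, by simp⟩
    · rintro y z - - ⟨a, ha⟩ ⟨b, hb⟩
      exact ⟨a + b, by rw [map_add, map_add, ha, hb]⟩
    · rintro k y - ⟨a, ha⟩
      exact ⟨k * a, by rw [map_mul, ha, Subfield.smul_def, map_smul]; rfl⟩
  have halgA : ∀ y ∈ A, IsAlgebraic K y := fun y hy => by
    refine alg_descent τ h1 ?_ fun n => htr _ (pow_mem hy n)
    obtain ⟨X, b, hb, e⟩ := hfrac y hy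
    have : y = (φ b)⁻¹ • Φ X := by rw [← e, smul_smul, inv_mul_cancel₀ hb, one_smul]
    rw [this]
    exact ((halg X).isIntegral.smul _).isAlgebraic
  haveI : Algebra.IsAlgebraic K A := ⟨fun y =>
    (isAlgebraic_algHom_iff A.val Subtype.val_injective).1 (halgA y y.2)⟩
  letI : DivisionRing A := DivisionRing.ofIsUnitOrEqZero fun y =>
    (eq_or_ne y 0).symm.imp_left fun h =>
      (Algebra.IsAlgebraic.isAlgebraic (R := K) y).isIntegral.isUnit h
  refine ⟨A, inferInstance, of_adjoin K A ⟨s true, Algebra.subset_adjoin ⟨_, rfl⟩⟩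
    ⟨s false, Algebra.subset_adjoin ⟨_, rfl⟩⟩ ?_ fun hf => hinf ?_⟩
  · apply Subalgebra.map_injective (f := A.val) Subtype.val_injective
    rw [AlgHom.map_adjoin, Algebra.map_top, Subalgebra.range_val]
    congr 1
    ext z
    simp [eq_comm, or_comm]
  · obtain ⟨S, hS⟩ : A.toSubmodule.FG := (Module.Finite.iff_fg (N := A.toSubmodule)).1 hf
    refine (Module.Finite.iff_fg (N := (Algebra.adjoin E (Set.range s)).toSubmodule)).2 ⟨S, ?_⟩
    refine le_antisymm (Submodule.span_le.2 fun z hz => ?_) ?_
    · have : z ∈ A := by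
        have : z ∈ A.toSubmodule := hS ▸ Submodule.subset_span hz
        exact this
      exact (Algebra.adjoin_le (S := (Algebra.adjoin E (Set.range s)).restrictScalars K)
        Algebra.subset_adjoin) this
    · rw [adjoin_eq_span_words]
      refine Submodule.span_le.2 fun z hz => ?_
      have : z ∈ Submodule.span K (S : Set D) := by
        rw [hS, adjoin_eq_span_words]; exact Submodule.subset_span hz
      exact Submodule.span_le_restrictScalars K E _ this

end Crest.Agent.R180.F
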