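import Mathlib

/-! Graded vector spaces, Hilbert functions and the Hilbert–Serre theorem. -/

open Module

namespace Crest.Agent.R180

variable {Γ : Type} [AddCommGroup Γ] [DecidableEq Γ]

/-- a grading, given by its projections -/
structure Gr (Γ M : Type) [DecidableEq Γ] [AddCommGroup M] [Module ℚ M] where
  π : Γ → M →ₗ[ℚ] M
  sum : ∀ m, ∃ S : Finset Γ, (∀ u, u ∉ S → π u m = 0) ∧ ∑ u ∈ S, π u m = m
  orth : ∀ u u' m, π u (π u' m) = if u = u' then π u' m else 0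
  fd : ∀ u, FiniteDimensional ℚ (LinearMap.range (π u))

namespace Gr

variable {M M' : Type} [AddCommGroup M] [Module ℚ M] [AddCommGroup M'] [Module ℚ M']
  (g : Gr Γ M) (g' : Gr Γ M')

/-- homogeneous subspaces -/
def Hom (N : Submodule ℚ M) : Prop := ∀ u m, m ∈ N → g.π u m ∈ N

/-- Hilbert function -/
noncomputable def h (N : Submodule ℚ M) (u : Γ) : ℤ :=
  (finrank ℚ ↥(N ⊓ LinearMap.range (g.π u)) : ℕ)

/-- homogeneous operators -/
def Op (Z : M →ₗ[ℚ] M') (d : Γ) : Prop := ∀ u m, g'.π (u + d) (Z m) = Z (g.π u m)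

omit [AddCommGroup Γ] in
lemma idem (u : Γ) (m : M) : g.π u (g.π u m) = g.π u m := by rw [g.orth, if_pos rfl]

omit [AddCommGroup Γ] in
lemma mem_range {u : Γ} {m : M} : m ∈ LinearMap.range (g.π u) ↔ g.π u m = m :=
  ⟨by rintro ⟨m, rfl⟩; exact g.idem u m, fun h => ⟨m, h⟩⟩

omit [AddCommGroup Γ] in
lemma π_ne {u u' : Γ} {m : M} (hm : g.π u' m = m) (h : u ≠ u') : g.π u m = 0 := by
  rw [← hm, g.orth, if_neg h]

omit [AddCommGroup Γ] in
lemma mem_of_π {N : Submodule ℚ M} {m : M} (h : ∀ u, g.π u m ∈ N) : m ∈ N := by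
  obtain ⟨S, -, hS⟩ := g.sum m
  rw [← hS]
  exact N.sum_mem fun u _ => h u

lemma op_of {Z : M →ₗ[ℚ] M'} {d : Γ}
    (hZ : ∀ u m, g.π u m = m → g'.π (u + d) (Z m) = Z m) : g.Op g' Z d := by
  intro u m
  obtain ⟨S, hS0, hS⟩ := g.sum m
  conv_lhs => rw [← hS, map_sum, map_sum]
  rw [Finset.sum_eq_single u]
  · exact hZ u _ (g.idem u m)
  · intro b _ hb
    exact g'.π_ne (hZ b _ (g.idem b m)) (fun h => hb (add_right_cancel h).symm)
  · intro hu
    rw [hS0 u hu, map_zero, map_zero]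

omit [AddCommGroup Γ] in
lemma hom_top : g.Hom ⊤ := fun _ _ _ => trivial

omit [AddCommGroup Γ] in
lemma Hom.inf {g : Gr Γ M} {N N' : Submodule ℚ M} (h : g.Hom N) (h' : g.Hom N') :
    g.Hom (N ⊓ N') := fun u m hm => ⟨h u m hm.1, h' u m hm.2⟩

omit [AddCommGroup Γ] in
lemma Hom.sup {g : Gr Γ M} {N N' : Submodule ℚ M} (h : g.Hom N) (h' : g.Hom N') :
    g.Hom (N ⊔ N') := by
  intro u m hm
  obtain ⟨a, ha, b, hb, rfl⟩ := Submodule.mem_sup.1 hm
  rw [map_add]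
  exact Submodule.add_mem_sup (h u a ha) (h' u b hb)

lemma Hom.map {g : Gr Γ M} {g' : Gr Γ M'} {N : Submodule ℚ M} (h : g.Hom N) {Z : M →ₗ[ℚ] M'}
    {d : Γ} (hZ : g.Op g' Z d) : g'.Hom (N.map Z) := by
  rintro u _ ⟨m, hm, rfl⟩
  have := hZ (u - d) m
  rw [sub_add_cancel] at this
  exact ⟨_, h _ m hm, this.symm⟩

lemma Hom.comap {g : Gr Γ M} {g' : Gr Γ M'} {N : Submodule ℚ M'} (h : g'.Hom N)
    {Z : M →ₗ[ℚ] M'} {d : Γ} (hZ : g.Op g' Z d) : g.Hom (N.comap Z) := by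
  intro u m hm
  rw [Submodule.mem_comap, ← hZ]
  exact h _ _ hm

lemma finrank_map_add {V W : Type} [AddCommGroup V] [Module ℚ V] [AddCommGroup W] [Module ℚ W]
    (f : V →ₗ[ℚ] W) (A : Submodule ℚ V) [FiniteDimensional ℚ A] :
    finrank ℚ (A.map f) + finrank ℚ ↥(A ⊓ LinearMap.ker f) = finrank ℚ A := by
  have h1 := LinearMap.finrank_range_add_finrank_ker (f.domRestrict A)
  rw [LinearMap.range_domRestrict, LinearMap.ker_domRestrict] at h1
  rw [← h1]
  congr 1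
  rw [← Submodule.finrank_map_subtype_eq A, Submodule.map_comap_subtype]

/-- the basic exact sequence -/
lemma exact {Z : M →ₗ[ℚ] M'} {d : Γ} (hZ : g.Op g' Z d) {N₂ : Submodule ℚ M}
    {N₁ : Submodule ℚ M'} (h₂ : g.Hom N₂) (h₁ : g'.Hom N₁) (u : Γ) :
    g'.h (N₁ ⊔ N₂.map Z) u - g'.h N₁ u =
      g.h N₂ (u - d) - g.h (N₂ ⊓ N₁.comap Z) (u - d) := by
  have := g.fd (u - d)
  have := g'.fd u
  set A := N₂ ⊓ LinearMap.range (g.π (u - d)) with hA
  set B := N₁ ⊓ LinearMap.range (g'.π u) with hB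
  have fA : FiniteDimensional ℚ A := Submodule.finiteDimensional_inf_right _ _
  have fB : FiniteDimensional ℚ B := Submodule.finiteDimensional_inf_right _ _
  have hZ' : ∀ m, g'.π u (Z m) = Z (g.π (u - d) m) := fun m => by
    rw [← hZ, sub_add_cancel]
  have e1 : (N₁ ⊔ N₂.map Z) ⊓ LinearMap.range (g'.π u) = B ⊔ A.map Z := by
    apply le_antisymm
    · rintro m ⟨hm, hm'⟩
      obtain ⟨a, ha, _, ⟨b, hb, rfl⟩, rfl⟩ := Submodule.mem_sup.1 hm
      rw [← g'.mem_range.1 hm', map_add, hZ']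
      exact Submodule.add_mem_sup ⟨h₁ u a ha, a, rfl⟩ ⟨_, ⟨h₂ _ b hb, b, rfl⟩, rfl⟩
    · refine sup_le (inf_le_inf_right _ le_sup_left) ?_
      rintro _ ⟨m, ⟨hm, hm'⟩, rfl⟩
      exact ⟨Submodule.mem_sup_right ⟨m, hm, rfl⟩,
        g'.mem_range.2 (by rw [hZ', g.mem_range.1 hm'])⟩
  have e2 : (N₂ ⊓ N₁.comap Z) ⊓ LinearMap.range (g.π (u - d)) =
      A ⊓ LinearMap.ker (B.mkQ ∘ₗ Z) := by
    rw [LinearMap.ker_comp, Submodule.ker_mkQ]
    ext m
    constructor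
    · rintro ⟨⟨h1, h2⟩, h3⟩
      exact ⟨⟨h1, h3⟩, h2, g'.mem_range.2 (by rw [hZ', g.mem_range.1 h3])⟩
    · rintro ⟨⟨h1, h3⟩, h2, -⟩
      exact ⟨⟨h1, h2⟩, h3⟩
  have e3 := finrank_map_add (B.mkQ ∘ₗ Z) A
  have e4 := finrank_map_add B.mkQ (B ⊔ A.map Z)
  rw [Submodule.ker_mkQ, inf_eq_right.2 le_sup_left, Submodule.map_sup, Submodule.mkQ_map_self,
    bot_sup_eq, ← Submodule.map_comp] at e4
  unfold h
  rw [e1, e2, ← hA, ← hB]
  omega

/-- a homogeneous "prime" is prime -/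
lemma prime_of_hom {Γ : Type} [AddCommGroup Γ] [LinearOrder Γ] [IsOrderedAddMonoid Γ]
    (g : Gr Γ M) (μ : M →ₗ[ℚ] M →ₗ[ℚ] M) {N : Submodule ℚ M} (hN : g.Hom N)
    (hμ : ∀ u v a b, g.π u a = a → g.π v b = b → g.π (u + v) (μ a b) = μ a b)
    (hl : ∀ a b, a ∈ N → μ a b ∈ N) (hr : ∀ a b, b ∈ N → μ a b ∈ N)
    (hp : ∀ u v a b, g.π u a = a → g.π v b = b → μ a b ∈ N → a ∈ N ∨ b ∈ N)
    (a b : M) (hab : μ a b ∈ N) : a ∈ N ∨ b ∈ N := by
  classical
  have key : ∀ a, a ∉ N → ∃ u, g.π u a ∉ N ∧ ∀ u', u < u' → g.π u' a ∈ N := by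
    intro a ha
    obtain ⟨S, hS0, -⟩ := g.sum a
    have hne : (S.filter fun u => g.π u a ∉ N).Nonempty := by
      by_contra hne
      refine ha (g.mem_of_π fun u => ?_)
      by_contra hu
      refine hne ⟨u, Finset.mem_filter.2 ⟨?_, hu⟩⟩
      by_contra hu'
      exact hu (by rw [hS0 u hu']; exact N.zero_mem)
    refine ⟨_, (Finset.mem_filter.1 (Finset.max'_mem _ hne)).2, fun u' hu' => ?_⟩
    by_contra hu
    refine absurd (Finset.le_max' _ u' (Finset.mem_filter.2 ⟨?_, hu⟩)) (not_le.2 hu')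
    by_contra hu'
    exact hu (by rw [hS0 u' hu']; exact N.zero_mem)
  by_contra hc
  push Not at hc
  obtain ⟨u, hu, hu'⟩ := key a hc.1
  obtain ⟨v, hv, hv'⟩ := key b hc.2
  obtain ⟨S, hS0, hS⟩ := g.sum b
  have hvS : v ∈ S := by
    by_contra h
    exact hv (by rw [hS0 v h]; exact N.zero_mem)
  have e1 : g.π (u + v) (μ a b) = ∑ v' ∈ S, μ (g.π (u + v - v') a) (g.π v' b) := by
    conv_lhs => rw [← hS, map_sum, map_sum]
    refine Finset.sum_congr rfl fun v' _ => ?_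
    have := g.op_of g (Z := μ.flip (g.π v' b)) (d := v')
      (fun u m hm => hμ u v' m _ hm (g.idem v' b)) (u + v - v') a
    rwa [sub_add_cancel] at this
  have e2 := hN (u + v) _ hab
  rw [e1, ← Finset.add_sum_erase _ _ hvS, add_sub_cancel_right] at e2
  have e3 : ∑ v' ∈ S.erase v, μ (g.π (u + v - v') a) (g.π v' b) ∈ N := by
    refine N.sum_mem fun v' hv'' => ?_
    rcases lt_or_gt_of_ne (Finset.ne_of_mem_erase hv'') with h | h
    · refine hl _ _ (hu' _ ?_)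
      rw [add_sub_assoc]
      exact lt_add_of_pos_right _ (sub_pos.2 h)
    · exact hr _ _ (hv' _ h)
  rcases hp u v _ _ (g.idem u a) (g.idem v b) ((N.add_mem_iff_left e3).1 e2) with h | h
  · exact hu h
  · exact hv h

end Gr

/-- functions on the grading group, as a module over the group ring -/
def HF (Γ : Type) : Type := Γ → ℤ

instance : AddCommGroup (HF Γ) := inferInstanceAs (AddCommGroup (Γ → ℤ))

/-- shift -/
def shf (d : Γ) : Module.End ℤ (HF Γ) where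
  toFun f := fun u => f (u - d)
  map_add' _ _ := rfl
  map_smul' _ _ := rfl

/-- shift as a homomorphism -/
def shfHom : Multiplicative Γ →* Module.End ℤ (HF Γ) where
  toFun d := shf d.toAdd
  map_one' := by
    ext f; funext u
    change f (u - 0) = f u
    rw [sub_zero]
  map_mul' a b := by
    ext f; funext u
    change f (u - (a.toAdd + b.toAdd)) = f (u - a.toAdd - b.toAdd)
    rw [sub_sub]

/-- the group ring -/
abbrev GR (Γ : Type) : Type := AddMonoidAlgebra ℤ Γ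

noncomputable instance : Module (GR Γ) (HF Γ) :=
  Module.compHom (HF Γ) (AddMonoidAlgebra.lift ℤ (Module.End ℤ (HF Γ)) Γ shfHom).toRingHom

/-- monomials -/
noncomputable def tt (d : Γ) : GR Γ := AddMonoidAlgebra.single d 1

omit [DecidableEq Γ] in
lemma single_smul (d : Γ) (c : ℤ) (f : HF Γ) (u : Γ) :
    ((AddMonoidAlgebra.single d c : GR Γ) • f) u = c * f (u - d) := by
  change (AddMonoidAlgebra.lift ℤ (Module.End ℤ (HF Γ)) Γ shfHom
    (AddMonoidAlgebra.single d c) f) u = _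
  rw [AddMonoidAlgebra.lift_single]
  rfl

omit [DecidableEq Γ] in
lemma tt_smul (d : Γ) (f : HF Γ) (u : Γ) : (tt d • f) u = f (u - d) := by
  rw [tt, single_smul, one_mul]

omit [DecidableEq Γ] in
lemma tt_add (d e : Γ) : tt (d + e) = tt d * tt e := by
  simp [tt, AddMonoidAlgebra.single_mul_single]

/-- coefficients -/
def cf0 (r : GR Γ) : HF Γ := fun u => r.coeff u

/-- coefficients -/
noncomputable def cf : GR Γ →ₗ[GR Γ] HF Γ where
  toFun := cf0
  map_add' _ _ := rfl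
  map_smul' r r' := by
    induction r using AddMonoidAlgebra.induction_linear with
    | zero => rw [zero_smul, map_zero, zero_smul]; rfl
    | add a b ha hb =>
      rw [add_smul, map_add, add_smul, ← ha, ← hb]; rfl
    | single d c =>
      funext u
      rw [RingHom.id_apply, single_smul, smul_eq_mul, cf0, cf0,
        AddMonoidAlgebra.coeff_single_mul_apply, neg_add_eq_sub]

omit [DecidableEq Γ] in
lemma cf_inj : Function.Injective (cf (Γ := Γ)) := fun a b h => by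
  ext u; exact congrFun h u

omit [DecidableEq Γ] in
lemma mem_range_cf {f : HF Γ} (S : Finset Γ) (h : ∀ u, u ∉ S → f u = 0) :
    f ∈ LinearMap.range (cf (Γ := Γ)) :=
  ⟨AddMonoidAlgebra.ofCoeff (Finsupp.onFinset S f fun u hu => by
    by_contra h'; exact hu (h u h')), rfl⟩

namespace Gr

variable {M M' : Type} [AddCommGroup M] [Module ℚ M] [AddCommGroup M'] [Module ℚ M']
  (g : Gr Γ M) (g' : Gr Γ M')

/-- Hilbert function of a subquotient -/
noncomputable def hq (N₂ N₁ : Submodule ℚ M) : HF Γ := fun u => g.h N₂ u - g.h N₁ u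

omit [AddCommGroup Γ] in
lemma hq_add (N₃ N₂ N₁ : Submodule ℚ M) : g.hq N₃ N₂ + g.hq N₂ N₁ = g.hq N₃ N₁ := by
  funext u
  change g.h N₃ u - g.h N₂ u + (g.h N₂ u - g.h N₁ u) = g.h N₃ u - g.h N₁ u
  ring

omit [AddCommGroup Γ] in
lemma hq_self (N : Submodule ℚ M) : g.hq N N = 0 := by
  funext u; exact sub_self _

lemma hq_exact {Z : M →ₗ[ℚ] M'} {d : Γ} (hZ : g.Op g' Z d) {N₂ : Submodule ℚ M}
    {N₁ : Submodule ℚ M'} (h₂ : g.Hom N₂) (h₁ : g'.Hom N₁) :
    g'.hq (N₁ ⊔ N₂.map Z) N₁ = tt d • g.hq N₂ (N₂ ⊓ N₁.comap Z) := by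
  funext u
  rw [tt_smul]
  exact g.exact g' hZ h₂ h₁ u

/-- Hilbert–Serre -/
theorem serre {κ : Type} (Z : κ → M →ₗ[ℚ] M) (d : κ → Γ) (hZ : ∀ i, g.Op g (Z i) (d i))
    (hc : ∀ i j m, Z i (Z j m) = Z j (Z i m) ∨ Z i (Z j m) = -Z j (Z i m))
    (hN : ∀ N₂ N₁ : Submodule ℚ M, (∀ i, N₂.map (Z i) ≤ N₁) → (∀ i, N₁.map (Z i) ≤ N₁) →
      N₁ ≤ N₂ → ∃ F : Finset M, N₂ ≤ N₁ ⊔ Submodule.span ℚ (F : Set M))
    (S : Finset κ) : ∀ N₂ N₁ : Submodule ℚ M, g.Hom N₂ → g.Hom N₁ → N₁ ≤ N₂ →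
      (∀ i, N₂.map (Z i) ≤ N₂) → (∀ i, N₁.map (Z i) ≤ N₁) → (∀ i, i ∉ S → N₂.map (Z i) ≤ N₁) →
      (∏ i ∈ S, (1 - tt (d i))) • g.hq N₂ N₁ ∈ LinearMap.range (cf (Γ := Γ)) := by
  classical
  induction S using Finset.induction_on with
  | empty =>
    intro N₂ N₁ h₂ h₁ hle _ s₁ hS
    obtain ⟨F, hF⟩ := hN N₂ N₁ (fun i => hS i (by simp)) s₁ hle
    choose T hT _ using g.sum
    rw [Finset.prod_empty, one_smul]
    refine mem_range_cf (F.biUnion T) fun u hu => ?_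
    have : N₂ ⊓ LinearMap.range (g.π u) = N₁ ⊓ LinearMap.range (g.π u) := by
      refine le_antisymm ?_ (inf_le_inf_right _ hle)
      rintro m ⟨hm, hm'⟩
      refine ⟨?_, hm'⟩
      obtain ⟨a, ha, b, hb, rfl⟩ := Submodule.mem_sup.1 (hF hm)
      have hb' : g.π u b = 0 := by
        refine (Submodule.span_le (p := LinearMap.ker (g.π u))).2 (fun f hf => ?_) hb
        exact hT f u fun h => hu (Finset.mem_biUnion.2 ⟨f, hf, h⟩)
      rw [← g.mem_range.1 hm', map_add, hb', add_zero]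
      exact h₁ u a ha
    change g.h N₂ u - g.h N₁ u = 0
    rw [h, h, this, sub_self]
  | insert i S hi ih =>
    intro N₂ N₁ h₂ h₁ hle s₂ s₁ hS
    have hc' : ∀ (N : Submodule ℚ M) j k m, Z j (Z k m) ∈ N → Z k (Z j m) ∈ N := by
      intro N j k m hm
      rcases hc k j m with h | h <;> rw [h]
      · exact hm
      · exact N.neg_mem hm
    have e1 := g.hq_exact g (hZ i) h₂ h₁
    have i1 := ih N₂ (N₁ ⊔ N₂.map (Z i)) h₂ (h₁.sup (h₂.map (hZ i))) (sup_le hle (s₂ i)) s₂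
      (fun j => by
        rw [Submodule.map_sup]
        refine sup_le ((s₁ j).trans le_sup_left) (le_trans ?_ le_sup_right)
        rintro _ ⟨_, ⟨m, hm, rfl⟩, rfl⟩
        exact hc' _ i j m ⟨_, s₂ j ⟨m, hm, rfl⟩, rfl⟩)
      (fun j hj => by
        by_cases hji : j = i
        · rw [hji]; exact le_sup_right
        · exact (hS j (by simp [hj, hji])).trans le_sup_left)
    have i2 := ih (N₂ ⊓ N₁.comap (Z i)) N₁ (h₂.inf (h₁.comap (hZ i))) h₁
      (le_inf hle (Submodule.map_le_iff_le_comap.1 (s₁ i)))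
      (fun j => by
        rintro _ ⟨m, ⟨hm, hm'⟩, rfl⟩
        exact ⟨s₂ j ⟨m, hm, rfl⟩, hc' _ j i m (s₁ j ⟨_, hm', rfl⟩)⟩) s₁
      (fun j hj => by
        by_cases hji : j = i
        · rw [hji]; exact Submodule.map_le_iff_le_comap.2 inf_le_right
        · exact (Submodule.map_mono inf_le_left).trans (hS j (by simp [hj, hji])))
    have e2 : (1 - tt (d i)) • g.hq N₂ N₁ =
        g.hq N₂ (N₁ ⊔ N₂.map (Z i)) - tt (d i) • g.hq (N₂ ⊓ N₁.comap (Z i)) N₁ := by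
      rw [sub_smul, one_smul]
      conv_lhs =>
        enter [1]; rw [← g.hq_add N₂ (N₁ ⊔ N₂.map (Z i)) N₁, e1]
      conv_lhs =>
        enter [2]; rw [← g.hq_add N₂ (N₂ ⊓ N₁.comap (Z i)) N₁, smul_add]
      abel
    rw [Finset.prod_insert hi, mul_comm, mul_smul, e2, smul_sub, smul_comm]
    exact sub_mem i1 (Submodule.smul_mem _ _ i2)

end Gr

end Crest.Agent.R180
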