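import Crest.Agent.R180.Defs

/-! Row 180, sub-task D12: inner derivations and the centraliser bound. -/

open Module

namespace Crest.Agent.R180

namespace D12

/-- a derivation on a finite-dimensional domain with vanishing Casimir average is zero -/
theorem der_zero {E A D ι : Type} [Field E] [CharZero E] [Ring A] [IsDomain A] [Algebra E A]
    [FiniteDimensional E A] [Ring D] [IsDomain D] [Algebra E D] [Fintype ι]
    (φ : A →ₐ[E] D) (hφ : Function.Injective φ) (τ : A →ₗ[E] E) (h1 : τ 1 = 1)
    (hτ : ∀ a b, τ (a * b) = τ (b * a)) (b : Basis ι E A) :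
    ∃ c : ι → A, ∀ δ : A →ₗ[E] D, (∀ x y, δ (x * y) = δ x * φ y + φ x * δ y) →
      ∑ i, δ (b i) * φ (c i) = 0 → ∀ a, δ a = 0 := by
  classical
  set B : LinearMap.BilinForm E A := (LinearMap.mul E A).compr₂ τ with hB
  have hBa : ∀ x y, B x y = τ (x * y) := fun x y => rfl
  have hN : B.Nondegenerate := by
    constructor
    · intro x hx
      by_contra h
      obtain ⟨y, hy⟩ := FiniteDimensional.exists_mul_eq_one E h
      have := hx y
      rw [hBa, hy, h1] at this
      exact one_ne_zero this
    · intro x hx
      by_contra h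
      obtain ⟨y, hy⟩ := FiniteDimensional.exists_mul_eq_one E h
      have := hx y
      rw [hBa, hτ, hy, h1] at this
      exact one_ne_zero this
  set c := B.dualBasis hN b with hc
  have hcb : ∀ i j, τ (c i * b j) = if j = i then 1 else 0 := fun i j =>
    B.apply_dualBasis_left hN b i j
  have e1 : ∀ y, y = ∑ i, τ (y * b i) • c i := fun y => by
    conv_lhs => rw [← c.sum_repr y]
    exact Finset.sum_congr rfl fun i _ => by rw [hc, B.dualBasis_repr_apply]; rfl
  have e2 : ∀ y, y = ∑ j, τ (c j * y) • b j := fun y => by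
    conv_lhs => rw [← b.sum_repr y]
    refine Finset.sum_congr rfl fun j _ => ?_
    congr 1
    conv_rhs => rw [← b.sum_repr y]
    simp only [Finset.mul_sum, map_sum, mul_smul_comm, map_smul, hcb, smul_eq_mul, mul_ite,
      mul_one, mul_zero, Finset.sum_ite_eq', Finset.mem_univ, if_true]
  have hz : ∑ i, b i * c i ≠ 0 := by
    intro h
    have h2 : τ (∑ i, b i * c i) = Fintype.card ι := by
      rw [map_sum, Finset.sum_congr rfl (fun i _ => by rw [hτ, hcb, if_pos rfl])]
      simp
    rw [h, map_zero] at h2
    have : Nonempty ι := b.index_nonempty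
    exact (Nat.cast_ne_zero.2 Fintype.card_ne_zero) h2.symm
  refine ⟨c, fun δ hδ hu a => ?_⟩
  have e3 : ∑ i, δ (a * b i) * φ (c i) = (∑ i, δ (b i) * φ (c i)) * φ a := by
    calc _ = ∑ i, ∑ j, τ (c j * a * b i) • (δ (b j) * φ (c i)) := by
          refine Finset.sum_congr rfl fun i _ => ?_
          conv_lhs => rw [e2 (a * b i)]
          simp only [map_sum, map_smul, Finset.sum_mul, smul_mul_assoc, mul_assoc]
      _ = _ := by
          rw [Finset.sum_comm, Finset.sum_mul]
          refine Finset.sum_congr rfl fun j _ => ?_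
          rw [mul_assoc, ← map_mul]
          conv_rhs => rw [e1 (c j * a)]
          simp only [map_sum, map_smul, Finset.mul_sum, mul_smul_comm]
  have e4 : ∑ i, δ (a * b i) * φ (c i) =
      δ a * φ (∑ i, b i * c i) + φ a * ∑ i, δ (b i) * φ (c i) := by
    simp only [hδ, add_mul, Finset.sum_add_distrib, map_sum, map_mul, Finset.mul_sum, mul_assoc]
  rw [e4, hu, mul_zero, add_zero, zero_mul] at e3
  exact (mul_eq_zero.1 e3).resolve_right fun h => hz (hφ (by rw [h, map_zero]))

theorem cent_aux {E A : Type} [Field E] [Ring A] [IsDomain A] [Algebra E A]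
    [FiniteDimensional E A] (τ : A →ₗ[E] E) (h1 : τ 1 = 1) (X : A) (θ : ℕ)
    (hli : LinearIndependent E (fun i : Fin θ => X ^ (i : ℕ)))
    (havg : ∀ a : Fin θ → A, (∀ d, ∑ i : Fin θ, X ^ (i : ℕ) * d * a i = 0) →
      ∀ d, ∑ i : Fin θ, τ (X ^ (i : ℕ) * d) • a i = 0) :
    θ * finrank E (Subalgebra.centralizer E {X}) ≤ finrank E A := by
  classical
  set C := Subalgebra.centralizer E ({X} : Set A) with hC
  let _ := divisionRingOfFiniteDimensional E C
  have : Module.Finite C A := Module.Finite.right E C A
  rw [← finrank_mul_finrank E C A, mul_comm]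
  refine Nat.mul_le_mul_left _ ?_
  set e := Module.finBasis C A with he
  let Ψ : (Fin θ → A) →ₗ[E] (Fin (finrank C A) → A) :=
    { toFun := fun a k => ∑ i : Fin θ, X ^ (i : ℕ) * e k * a i
      map_add' := fun a b => by ext k; simp [mul_add, Finset.sum_add_distrib]
      map_smul' := fun r a => by ext k; simp [Finset.smul_sum] }
  have hinj : Function.Injective Ψ := by
    rw [injective_iff_map_eq_zero]
    intro a ha
    have h2 : ∀ d, ∑ i : Fin θ, X ^ (i : ℕ) * d * a i = 0 := by
      intro d
      rw [← e.sum_repr d]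
      simp only [Finset.mul_sum, Finset.sum_mul]
      rw [Finset.sum_comm]
      refine Finset.sum_eq_zero fun k _ => ?_
      have h3 : ∑ i : Fin θ, X ^ (i : ℕ) * e k * a i = 0 := congrFun ha k
      have h4 : Commute X (e.repr d k : A) := (e.repr d k).2 X rfl
      calc _ = (e.repr d k : A) * ∑ i : Fin θ, X ^ (i : ℕ) * e k * a i := by
            rw [Finset.mul_sum]
            refine Finset.sum_congr rfl fun i _ => ?_
            change X ^ (i : ℕ) * ((e.repr d k : A) * e k) * a i = _
            rw [← mul_assoc, (h4.pow_left i).eq]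
            simp only [mul_assoc]
        _ = 0 := by rw [h3, mul_zero]
    have h3 := havg a h2
    funext i
    refine (Module.forall_dual_apply_eq_zero_iff E _).1 fun l => ?_
    have h4 : ∑ i : Fin θ, l (a i) • X ^ (i : ℕ) = 0 := by
      by_contra h
      obtain ⟨y, hy⟩ := FiniteDimensional.exists_mul_eq_one E h
      have h5 := congrArg l (h3 y)
      have h6 := congrArg τ hy
      simp only [map_sum, map_smul, smul_eq_mul, map_zero, Finset.sum_mul, smul_mul_assoc,
        h1] at h5 h6
      rw [Finset.sum_congr rfl (fun i _ => mul_comm _ _), h5] at h6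
      exact zero_ne_one h6
    exact Fintype.linearIndependent_iff.1 hli _ h4 i
  have h5 := LinearMap.finrank_le_finrank_of_injective hinj
  simp only [Module.finrank_pi_fintype, Finset.sum_const, Finset.card_univ, Fintype.card_fin,
    smul_eq_mul] at h5
  exact Nat.le_of_mul_le_mul_right h5 Module.finrank_pos

end D12

theorem innerStmt : InnerStmt := by
  intro E D V _ _ _ _ _ _ _ _ _ τ D' dE dD s h1 hτ hadd hmul hsm hD' hs
  classical
  set A := Algebra.adjoin E (Set.range s) with hA
  have hAD : A ≤ D' := Algebra.adjoin_le (by rintro _ ⟨b, rfl⟩; exact hs b)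
  set b := Module.finBasis E A with hb
  obtain ⟨c, hc⟩ := D12.der_zero A.val Subtype.val_injective (τ.comp A.val.toLinearMap) h1
    (fun x y => hτ x y) b
  have hsA : ∀ t, s t ∈ A := fun t => Algebra.subset_adjoin ⟨t, rfl⟩
  let Φ : V →ₗ[E] D' × ((Fin (finrank E A) × Fin (finrank E A) × Fin (finrank E A) → E) ×
      (Bool × Fin (finrank E A) → E)) :=
    { toFun := fun v => (⟨∑ i, dD v (b i) * c i, D'.sum_mem fun i _ =>
          D'.mul_mem (hD' v _ (hAD (b i).2)) (hAD (c i).2)⟩,
        fun t => dE v (b.repr (b t.1 * b t.2.1) t.2.2), fun t => dE v (b.repr ⟨s t.1, hsA _⟩ t.2))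
      map_add' := fun v w => by
        ext <;> simp [add_mul, Finset.sum_add_distrib]
      map_smul' := fun r v => by
        ext <;> simp [Finset.smul_sum] }
  have hker : LinearMap.ker Φ ≤ ⨅ t, LinearMap.ker ((LinearMap.proj (s t)).comp dD) := by
    intro v hv
    have hv : Φ v = 0 := hv
    have k1 : ∑ i, dD v (b i) * c i = 0 := congrArg (fun z => (z.1 : D)) hv
    have k2 : ∀ i j k, dE v (b.repr (b i * b j) k) = 0 := fun i j k =>
      congrArg (fun z => z.2.1 (i, j, k)) hv
    have k3 : ∀ t k, dE v (b.repr ⟨s t, hsA _⟩ k) = 0 := fun t k =>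
      congrArg (fun z => z.2.2 (t, k)) hv
    set δ : A →ₗ[E] D := b.constr E (fun i => dD v (b i)) with hδ
    have k4 : ∀ i, δ (b i) = dD v (b i) := fun i => by rw [hδ, Basis.constr_basis]
    have k5 : ∀ x : A, (∀ k, dE v (b.repr x k) = 0) → δ x = dD v x := by
      intro x hx
      let F : D →+ D := AddMonoidHom.mk' (dD v) (hadd v)
      have : (x : D) = ∑ k, b.repr x k • (b k : D) := by
        conv_lhs => rw [← b.sum_repr x]
        simp only [AddSubmonoidClass.coe_finsetSum, Subalgebra.coe_smul]
      rw [this]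
      change _ = F _
      rw [map_sum]
      conv_lhs => rw [← b.sum_repr x]
      rw [map_sum]
      refine Finset.sum_congr rfl fun k _ => ?_
      change _ = dD v _
      rw [hsm, hx, zero_smul, zero_add, map_smul, k4]
    have k6 : ∀ x y : A, δ (x * y) = δ x * y + x * δ y := by
      intro x y
      have k7 : ∀ i j, δ (b i * b j) = δ (b i) * b j + b i * δ (b j) := fun i j => by
        rw [k5 _ (k2 i j), k4, k4, ← hmul]; rfl
      conv_lhs => rw [← b.sum_repr x, ← b.sum_repr y]
      conv_rhs => rw [← b.sum_repr x, ← b.sum_repr y]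
      simp only [Finset.sum_mul, Finset.mul_sum, map_sum, smul_mul_assoc, mul_smul_comm, map_smul,
        k7, smul_add, Finset.sum_add_distrib, AddSubmonoidClass.coe_finsetSum,
        Subalgebra.coe_smul]
    have k8 := hc δ k6 (by simp only [k4]; exact k1)
    refine (Submodule.mem_iInf _).2 fun t => ?_
    have := k8 ⟨s t, hsA t⟩
    rw [k5 _ (k3 t)] at this
    exact this
  have h2 := LinearMap.finrank_range_add_finrank_ker Φ
  have h3 := Submodule.finrank_mono hker
  have h4 := Submodule.finrank_le (LinearMap.range Φ)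
  simp only [Module.finrank_prod, Module.finrank_fintype_fun_eq_card, Fintype.card_prod,
    Fintype.card_fin, Fintype.card_bool] at h4
  have h5 : finrank E A ^ 3 = finrank E A * (finrank E A * finrank E A) := by ring
  omega

theorem centStmt : CentStmt := by
  intro E D V ι _ _ _ _ _ _ _ _ _ τ D' f p q X Y g θ h1 hq hav hX hg hg0 hXg hli hf hXf
  classical
  set X' : D' := ⟨X, hX⟩ with hX'
  have h2 := D12.cent_aux (τ.comp D'.val.toLinearMap) h1 X' θ
    (LinearIndependent.of_comp D'.val.toLinearMap (by simpa [Function.comp_def] using hli))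
    (fun a ha d => by
      apply Subtype.val_injective
      have h3 : ∀ j, ∑ i : Fin θ, X ^ (i : ℕ) * (d * q j) * a i = 0 := fun j => by
        have := congrArg Subtype.val (ha (d * ⟨q j, hq j⟩))
        simpa using this
      have h4 : ∑ j, p j * ∑ i : Fin θ, X ^ (i : ℕ) * (d * q j) * a i = 0 := by simp [h3]
      simp only [Finset.mul_sum] at h4
      rw [Finset.sum_comm] at h4
      simp only [AddSubmonoidClass.coe_finsetSum, Subalgebra.coe_smul, ZeroMemClass.coe_zero]
      rw [← h4]
      refine Finset.sum_congr rfl fun i _ => ?_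
      rw [Algebra.smul_def]
      change algebraMap E D (τ (X ^ (i : ℕ) * d)) * _ = _
      rw [← hav _ (D'.mul_mem (D'.pow_mem hX _) d.2), Finset.sum_mul]
      simp only [mul_assoc])
  obtain ⟨g', hg'⟩ := FiniteDimensional.exists_mul_eq_one E
    (show (⟨g, hg⟩ : D') ≠ 0 from fun h => hg0 (congrArg Subtype.val h))
  have hg1 : g * g' = 1 := congrArg Subtype.val hg'
  have hg2 : (g' : D) * g = 1 := by
    have : g * (g' * g) = g * 1 := by rw [← mul_assoc, hg1, one_mul, mul_one]
    exact mul_left_cancel₀ hg0 this
  let Φ : V →ₗ[E] Subalgebra.centralizer E ({X'} : Set D') :=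
    { toFun := fun v => ⟨⟨f v, hf v⟩ * g', by
        rintro _ rfl
        apply Subtype.val_injective
        change X * (f v * g') = f v * g' * X
        calc X * (f v * g') = f v * (g' * g) * Y * g' := by rw [← mul_assoc, hXf, hg2, mul_one]
          _ = f v * g' * (g * Y) * g' := by simp only [mul_assoc]
          _ = f v * g' * X * (g * g') := by rw [← hXg]; simp only [mul_assoc]
          _ = _ := by rw [hg1, mul_one]⟩
      map_add' := fun v w => by ext; simp [add_mul]
      map_smul' := fun r v => by ext; simp }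
  have hker : LinearMap.ker Φ ≤ LinearMap.ker f := by
    intro v hv
    have hv : Φ v = 0 := hv
    have h3 : f v * g' = 0 := congrArg (fun z => z.1.1) hv
    have : f v * (g' * g) = 0 := by rw [← mul_assoc, h3, zero_mul]
    rwa [hg2, mul_one] at this
  have h3 := LinearMap.finrank_range_add_finrank_ker Φ
  have h4 := Submodule.finrank_mono hker
  have h5 := Submodule.finrank_le (LinearMap.range Φ)
  calc θ * finrank E V ≤ θ * (finrank E (LinearMap.ker f) +
        finrank E (Subalgebra.centralizer E ({X'} : Set D'))) := Nat.mul_le_mul_left _ (by omega)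
    _ ≤ _ := by rw [mul_add]; omega

end Crest.Agent.R180
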