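import Crest.Agent.R180.Conc

/-! Localisation of the index ideal and extraction of a good prime. -/

open Module MvPolynomial

namespace Crest.Agent.R180

attribute [-instance] instDecidableEqLex

variable {ι : Type} [Fintype ι] [LinearOrder ι] {K : Type} [Fintype K] (l0 : ι) (lv : ι → ℕ)

omit [Fintype ι] [LinearOrder ι] in
lemma two_eq_zero : (2 : MvPolynomial ι (ZMod 2)) = 0 := CharTwo.two_eq_zero

lemma psi_ell_wt (k : K) (ε : ι → ZMod 2) :
    (sys K l0).ψ ((sys K l0).ℓ (wt l0 (Sum.inl (k, ε)))) = lf ε := by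
  refine psi_ell l0 _ _ fun l => ?_
  simp only [wt, Sum.elim_inl, map_add, crd_lift, Int.cast_add, CharTwo.add_self_eq_zero, add_zero,
    Int.cast_natCast, ZMod.natCast_zmod_val]

lemma X_inr_notMem (hT : TdimStmt) {p : Ideal (MvPolynomial (Vr K ι) ℚ)} (hp : p ∈ (sys K l0).GP)
    (hc : (sys K l0).cl p ≠ 0) (l : ι) : X (Sum.inr l) ∉ p := by
  intro h
  have h1 : TG.u 0 (xP (K × (ι → ZMod 2)) ι) (Pi.single l 1) * TG.u 0 _ (Pi.single l 1) ∈
      pG 0 p := by
    rw [TG.u_mul_u]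
    refine pG_smul (p.mul_mem_left _ ?_) _
    rw [← Finset.mul_prod_erase _ _ (Finset.mem_univ l), Pi.single_eq_same, ZMod.val_one, pow_one]
    exact p.mul_mem_right _ h
  have h2 := dom (e := ee) (sys K l0) hT two_eq_zero (fun _ => rfl) hp hc _ _ h1
  rw [or_self] at h2
  have h3 := mem_pG.1 h2 (Pi.single l 1)
  rw [TG.u_apply, if_pos rfl] at h3
  exact hp.1.ne_top ((Ideal.eq_top_iff_one p).2 h3)

open Classical in
variable (K) in
/-- the high variables -/
noncomputable def Hi (β : ℕ) : Finset (K × (ι → ZMod 2)) := Finset.univ.filter fun v => v.2 ∉ Gs lv β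

variable (K) in
/-- the Euler class of the high variables -/
noncomputable def eHi (β : ℕ) : MvPolynomial ι (ZMod 2) := ∏ v ∈ Hi K lv β, lf v.2

lemma mem_Hi {β : ℕ} {v : K × (ι → ZMod 2)} : v ∈ Hi K lv β ↔ v.2 ∉ Gs lv β := by simp [Hi]

omit [Fintype ι] [LinearOrder ι] in
lemma vanish_smul {κ : Type} (l : ι) (T : Finset κ) (d : κ → Gm ι) (hd : ∀ i ∈ T, crd l (d i) = 0)
    {f : HF (Gm ι)} (hf : ∀ u, crd l u ≠ 0 → f u = 0) :
    ∀ u, crd l u ≠ 0 → ((∏ i ∈ T, (1 - tt (d i))) • f) u = 0 := by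
  classical
  induction T using Finset.induction_on with
  | empty => simpa using hf
  | insert i T hi ih =>
    intro u hu
    have ih' := ih fun j hj => hd j (Finset.mem_insert_of_mem hj)
    rw [Finset.prod_insert hi, mul_smul, sub_smul, one_smul]
    change _ - (tt (d i) • _ : HF (Gm ι)) u = 0
    rw [tt_smul, ih' u hu, ih' _ (by rwa [map_sub, hd i (Finset.mem_insert_self _ _), sub_zero]),
      sub_self]

theorem cl_low (hT : TdimStmt) {β : ℕ} (h0 : lv l0 < β) {p : Ideal (MvPolynomial (Vr K ι) ℚ)}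
    (hp : p ∈ (sys K l0).GP) (hX : ∀ v ∈ Hi K lv β, X (Sum.inl v) ∈ p) :
    ∃ q, (sys K l0).cl p = eHi K lv β * q ∧ ph lv β q = Polynomial.C q := by
  classical
  by_cases hc : (sys K l0).cl p = 0
  · exact ⟨0, by rw [hc, mul_zero], by simp⟩
  set S := sys K l0 with hS
  let H : Finset (Vr K ι) := (Hi K lv β).map Function.Embedding.inl
  obtain ⟨r, hr⟩ := S.gm_gP.serre Hᶜ ⊤ p S.gP.hom_top hp.2 le_top (fun v hv m _ => by
    obtain ⟨v, hv', rfl⟩ := Finset.mem_map.1 (by simpa using hv : v ∈ H)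
    exact p.mul_mem_right m (hX v hv'))
  change cf r = _ • S.hI p at hr
  have hsupp : ∀ l, β ≤ lv l → ∀ u, crd l u ≠ 0 → r.coeff u = 0 := by
    intro l hl
    have hl0 : l ≠ l0 := by rintro rfl; omega
    have hw : ∀ v : Vr K ι, crd l (wt l0 v) ≠ 0 → v ∈ H ∨ v = Sum.inr l := by
      rintro (v | l') hv
      · refine Or.inl (Finset.mem_map_of_mem _ ((mem_Hi lv).2 fun h => hv ?_))
        simp only [wt, Sum.elim_inl, map_add, crd_lift, crd_ee, if_neg hl0, h l hl]
        rfl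
      · refine Or.inr ?_
        by_contra h
        have : l ≠ l' := by rintro rfl; exact h rfl
        exact hv (by simp [wt, crd_ee, this])
    have hx := X_inr_notMem l0 hT hp hc l
    have hhom := isWeightedHomogeneous_X ℚ S.w (Sum.inr l)
    have h1 : ∀ u, crd l u ≠ 0 → S.hI (p ⊔ Ideal.span {X (Sum.inr l)}) u = 0 := by
      intro u hu
      have : (p ⊔ Ideal.span {X (Sum.inr l)} : Ideal (MvPolynomial (Vr K ι) ℚ)).restrictScalars ℚ ⊓
          LinearMap.range (S.gP.π u) = ⊤ ⊓ LinearMap.range (S.gP.π u) := by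
        rw [top_inf_eq, inf_eq_right]
        rintro _ ⟨f, rfl⟩
        have h2 : Ideal.span (X '' {v | crd l (wt l0 v) ≠ 0}) ≤ p ⊔ Ideal.span {X (Sum.inr l)} := by
          rw [Ideal.span_le]
          rintro _ ⟨v, hv, rfl⟩
          rcases hw v hv with h | rfl
          · obtain ⟨v, hv', rfl⟩ := Finset.mem_map.1 h
            exact Ideal.mem_sup_left (hX v hv')
          · exact Ideal.mem_sup_right (Ideal.mem_span_singleton_self _)
        refine h2 (mem_ideal_span_X_image.2 fun m hm => ?_)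
        by_contra hc
        push Not at hc
        refine hu ?_
        rw [← S.gP_hom u f (mem_support_iff.1 hm), Finsupp.weight_apply, Finsupp.sum, map_sum]
        refine Finset.sum_eq_zero fun v hv => ?_
        rw [map_nsmul]
        by_cases h : crd l (wt l0 v) = 0
        · exact smul_eq_zero_of_right _ h
        · exact smul_eq_zero_of_left (hc v h) _
      change S.gP.h ⊤ u - S.gP.h _ u = 0
      rw [Gr.h, Gr.h, this, sub_self]
    have h2 : (Sum.inr l : Vr K ι) ∈ Hᶜ := by simp [H]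
    rw [S.hI_cut hp hhom hx] at h1
    have h3 := vanish_smul l (Hᶜ.erase (Sum.inr l)) S.w (fun v hv => by
      by_contra h
      rcases hw v h with h | h
      · exact Finset.mem_compl.1 (Finset.mem_of_mem_erase hv) h
      · exact Finset.ne_of_mem_erase hv h) h1
    rw [← mul_smul, Finset.prod_erase_mul _ _ h2, ← hr] at h3
    exact h3
  obtain ⟨G, hG, hG'⟩ := S.Θ_prod H S.w
  have e1 : S.TK (S.hI p) = PowerSeries.X ^ H.card * (G * S.Θ r) := by
    rw [S.TK_eq (r := (∏ v ∈ H, (1 - tt (S.w v))) * r) (by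
      rw [← smul_eq_mul, map_smul, hr, ← mul_smul, Finset.prod_mul_prod_compl]; rfl),
      map_mul, hG, mul_assoc]
  have e2 : S.ψ (PowerSeries.constantCoeff G) = eHi K lv β := by
    rw [hG', map_prod, Finset.prod_map]
    refine Finset.prod_congr rfl fun v _ => ?_
    rw [map_neg, CharTwo.neg_eq]
    exact psi_ell_wt l0 v.1 v.2
  have e3 : PowerSeries.constantCoeff G ≠ 0 := by
    rw [hG']; exact Finset.prod_ne_zero_iff.2 fun v _ => neg_ne_zero.2 (S.ne v)
  have hd := S.dvd_TK hT p hp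
  have hle : H.card ≤ Sys.cd p := by
    by_contra h
    refine hc ?_
    rw [Sys.cl, e1, PowerSeries.X_pow_dvd_iff.1 (dvd_mul_right _ _) _ (not_le.1 h), map_zero]
  obtain ⟨c, hc'⟩ := Nat.exists_eq_add_of_le hle
  rw [e1, hc', pow_add, mul_dvd_mul_iff_left (pow_ne_zero _ PowerSeries.X_ne_zero)] at hd
  refine ⟨S.ψ (PowerSeries.coeff c (S.Θ r)), ?_, ?_⟩
  · rw [Sys.cl, e1, hc', add_comm, PowerSeries.coeff_X_pow_mul,
      coeff_mul_of_dvd _ (dvd_of_dvd_mul e3 hd), map_mul, e2]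
  · have key : PowerSeries.map ((ph lv β).toRingHom.comp S.ψ) (S.Θ r) =
        PowerSeries.map (Polynomial.C.comp S.ψ) (S.Θ r) := by
      rw [Sys.Θ, AddMonoidAlgebra.lift_apply, Finsupp.sum, map_sum, map_sum]
      refine Finset.sum_congr rfl fun u hu => ?_
      rw [Algebra.smul_def, map_mul, map_mul, eq_intCast, map_intCast, map_intCast]
      congr 1
      change PowerSeries.map _ (thA X _) = PowerSeries.map _ (thA X _)
      rw [map_thA, map_thA]
      refine thA_congr fun l hl => ?_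
      have : lv l < β := by
        by_contra h
        exact Finsupp.mem_support_iff.1 hu (hsupp l (not_lt.1 h) u hl)
      change ph lv β (map _ (X l)) = Polynomial.C (map _ (X l))
      rw [map_X, ph, aeval_X, if_pos this]
    have := congrArg (PowerSeries.coeff c) key
    rw [PowerSeries.coeff_map, PowerSeries.coeff_map] at this
    exact this

/-- products of high linear forms -/
noncomputable def Sm (β : ℕ) : Submonoid (MvPolynomial ι (ZMod 2)) :=
  Submonoid.closure (lf '' {ε | ε ∉ Gs lv β})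

omit [LinearOrder ι] in
lemma Sm_anti {β β' : ℕ} (h : β ≤ β') : Sm lv β' ≤ Sm lv β :=
  Submonoid.closure_mono (Set.image_mono fun _ hε h' => hε (Gs_mono lv h h'))

omit [LinearOrder ι] in
lemma prod_mem_Sm {β : ℕ} {κ : Type} (T : Finset κ) (η : κ → ι → ZMod 2)
    (h : ∀ i ∈ T, η i ∉ Gs lv β) : ∏ i ∈ T, lf (η i) ∈ Sm lv β :=
  (Sm lv β).prod_mem fun i hi => Submonoid.subset_closure ⟨_, h i hi, rfl⟩

lemma Sm_ne {β : ℕ} {s} (hs : s ∈ Sm lv β) : s ≠ 0 := by
  refine (Submonoid.closure_le (S := nonZeroDivisors _)).2 ?_ hs |> nonZeroDivisors.ne_zero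
  rintro _ ⟨ε, hε, rfl⟩
  exact mem_nonZeroDivisors_of_ne_zero (lf_ne fun h => hε (h ▸ (Gs lv β).zero_mem))

omit [LinearOrder ι] in
lemma Sm_monic {β : ℕ} {s} (hs : s ∈ Sm lv β) : (ph lv β s).Monic := by
  induction hs using Submonoid.closure_induction with
  | mem _ hx => obtain ⟨ε, hε, rfl⟩ := hx; exact ph_high hε
  | one => rw [map_one]; exact Polynomial.monic_one
  | mul x y _ _ hx hy => rw [map_mul]; exact hx.mul hy

theorem extract (hT : TdimStmt) {β : ℕ} (h0 : lv l0 < β)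
    {A Φ : Set (Ideal (MvPolynomial (Vr K ι) ℚ))} (hA : IsUpperSet A) {κ : Type} (T : Finset κ)
    (η : κ → ι → ZMod 2) (hη : ∀ i ∈ T, η i ∈ Gs lv β) {s} (hs : s ∈ Sm lv β)
    (h1 : s * ∏ i ∈ T, lf (η i) ∈ (sys K l0).Icl A)
    (h2 : eHi K lv β * ∏ i ∈ T, lf (η i) ∉ (sys K l0).Icl Φ) :
    ∃ p ∈ A, p ∉ Φ ∧ p ∈ (sys K l0).GP ∧ (sys K l0).cl p ≠ 0 ∧
      (∀ v ∈ Hi K lv β, X (Sum.inl v) ∈ p) ∧ Sys.cd p ≤ (Hi K lv β).card + T.card := by
  classical
  set S := sys K l0 with hS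
  set c := ∏ i ∈ T, lf (η i) with hc
  set A' := A ∩ {p | ∀ v ∈ Hi K lv β, X (Sum.inl v) ∈ p} with hA'
  have h3 := S.cut_prod hT hA (Hi K lv β)
    (fun v => isWeightedHomogeneous_X ℚ S.w (Sum.inl v)) h1
  rw [Finset.prod_congr rfl fun v _ => psi_ell_wt l0 v.1 v.2, ← eHi, ← hA'] at h3
  have he : eHi K lv β ≠ 0 := Sm_ne lv (β := β) (prod_mem_Sm lv _ _ fun v hv => (mem_Hi lv).1 hv)
  let Q : Set (MvPolynomial ι (ZMod 2)) :=
    {q | eHi K lv β * q ∈ S.Icl A' ∧ ph lv β q = Polynomial.C q}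
  have h4 : S.Icl A' ≤ Ideal.span {eHi K lv β} * Ideal.span Q := by
    rw [Sys.Icl, Ideal.span_le]
    rintro _ ⟨p, hp, rfl⟩
    obtain ⟨q, hq, hq'⟩ := cl_low l0 lv hT h0 hp.2 hp.1.2
    rw [hq]
    exact Ideal.mul_mem_mul (Ideal.mem_span_singleton_self _)
      (Ideal.subset_span ⟨hq ▸ S.cl_mem hp.1 hp.2, hq'⟩)
  obtain ⟨z, hz, hz'⟩ := Ideal.mem_span_singleton_mul.1 (h4 h3)
  rw [mul_left_cancel₀ he hz'] at hz
  have h5 : ph lv β (s * c) ∈ Ideal.map Polynomial.C (Ideal.span Q) := by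
    refine (Ideal.span_le (I := (Ideal.map Polynomial.C (Ideal.span Q)).comap (ph lv β))).2 ?_ hz
    intro q hq
    rw [SetLike.mem_coe, Ideal.mem_comap, hq.2]
    exact Ideal.mem_map_of_mem _ (Ideal.subset_span hq)
  have h6 : ph lv β c = Polynomial.C c := by
    rw [hc, map_prod, map_prod]
    exact Finset.prod_congr rfl fun i hi => ph_low (hη i hi)
  have h7 := Ideal.mem_map_C_iff.1 h5 (ph lv β s).natDegree
  rw [map_mul, h6, Polynomial.coeff_mul_C, Polynomial.coeff_natDegree, Sm_monic lv hs,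
    one_mul] at h7
  have h8 : eHi K lv β * c ∈ S.Icl A' := by
    refine (Ideal.span_le (I := Submodule.comap (LinearMap.mulLeft _ (eHi K lv β)) (S.Icl A'))).2 ?_ h7
    exact fun q hq => hq.1
  by_contra hcon
  push Not at hcon
  set d := (Hi K lv β).card + T.card with hd
  have hh : (eHi K lv β * c).IsHomogeneous d := by
    have g1 := IsHomogeneous.prod (Hi K lv β) (fun v => lf v.2) (fun _ => 1) fun v _ => lf_hom _
    have g2 := IsHomogeneous.prod T (fun i => lf (η i)) (fun _ => 1) fun v _ => lf_hom _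
    simp only [Finset.sum_const, smul_eq_mul, mul_one] at g1 g2
    exact g1.mul g2
  let J : Ideal (MvPolynomial ι (ZMod 2)) :=
    { carrier := {x | ∀ m : ι →₀ ℕ, m.degree ≤ d → coeff m x = 0}
      add_mem' := fun ha hb m hm => by rw [coeff_add, ha m hm, hb m hm, add_zero]
      zero_mem' := fun _ _ => rfl
      smul_mem' := fun a x hx m hm => by
        rw [smul_eq_mul, coeff_mul]
        refine Finset.sum_eq_zero fun q hq => ?_
        rw [hx q.2, mul_zero]
        rw [← Finset.HasAntidiagonal.mem_antidiagonal.1 hq, map_add] at hm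
        omega }
  have h9 : S.Icl A' ≤ S.Icl Φ ⊔ J := by
    rw [Sys.Icl, Ideal.span_le]
    rintro _ ⟨p, hp, rfl⟩
    by_cases g1 : p ∈ Φ
    · exact Ideal.mem_sup_left (S.cl_mem g1 hp.2)
    by_cases g2 : S.cl p = 0
    · rw [g2]; exact Ideal.zero_mem _
    refine Ideal.mem_sup_right fun m hm => (cl_hom l0 p).coeff_eq_zero ?_
    have := hcon p hp.1.1 g1 hp.2 g2 hp.1.2
    omega
  obtain ⟨a, ha, b, hb, hab⟩ := Submodule.mem_sup.1 (h9 h8)
  letI := gradedAlgebra (σ := ι) (R := ZMod 2)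
  have g3 : (S.Icl Φ).IsHomogeneous (homogeneousSubmodule ι (ZMod 2)) :=
    Ideal.homogeneous_span _ _ (by rintro _ ⟨p, -, rfl⟩; exact ⟨_, cl_hom l0 p⟩)
  have g4 : homogeneousComponent d b = 0 := by
    ext m
    rw [coeff_homogeneousComponent]
    split_ifs with h
    · exact hb m h.le
    · rfl
  refine h2 ?_
  rw [← homogeneousComponent_eq_self hh, ← hab, map_add, g4, add_zero]
  exact homogeneousComponent_mem_of_mem g3 ha d

end Crest.Agent.R180
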