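import Crest.Agent.R180.Cnt

/-! The inductive construction of the witnesses. -/

open Module MvPolynomial

namespace Crest.Agent.R180

attribute [-instance] instDecidableEqLex

lemma exists_seq_update {α : Type} (P : ℕ → (ℕ → α) → Prop) (f0 : ℕ → α) (h0 : P 0 f0)
    (hs : ∀ j f, P j f → ∃ x, P (j + 1) (Function.update f j x)) :
    ∃ g : ℕ → α, ∀ j, ∃ f, P j f ∧ ∀ i < j, f i = g i := by
  choose x hx using hs
  let s : ∀ j, {f // P j f} := fun j => Nat.rec ⟨f0, h0⟩ (fun j f => ⟨_, hx j f.1 f.2⟩) j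
  refine ⟨fun i => (s (i + 1)).1 i, fun j => ⟨(s j).1, (s j).2, fun i hi => ?_⟩⟩
  induction j with
  | zero => omega
  | succ j ih =>
    rcases (Nat.lt_succ_iff.1 hi).eq_or_lt with rfl | h
    · rfl
    · exact (Function.update_of_ne h.ne _ _).trans (ih h)

lemma dep_of_conj {E D : Type} [Field E] [Ring D] [IsDomain D] [Algebra E D]
    [FiniteDimensional E D] (D' : Subalgebra E D) {X Y g : D} (h : X * g = g * Y) (hg : g ≠ 0)
    (hY : Y ∈ D') {b : ℕ} (hb : finrank E D' < b) :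
    ¬ LinearIndependent E (fun i : Fin b => X ^ (i : ℕ)) := by
  intro hl
  have h1 := hl.map' (LinearMap.mulRight E g)
    (LinearMap.ker_eq_bot.2 (mul_left_injective₀ hg))
  have h2 : LinearIndependent E (fun i : Fin b => (⟨Y ^ (i : ℕ), D'.pow_mem hY _⟩ : D')) := by
    refine LinearIndependent.of_comp ((LinearMap.mulLeft E g).comp D'.val.toLinearMap) ?_
    convert h1 using 1
    · exact funext fun i => (SemiconjBy.pow_right (show SemiconjBy g Y X from h.symm) i).eq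
    all_goals rfl
  have := h2.fintype_card_le_finrank
  rw [Fintype.card_fin] at this
  omega

/-- configurations -/
structure Cfg where
  ι : Type
  [fι : Fintype ι]
  [lι : LinearOrder ι]
  l0 : ι
  lv : ι → ℕ
  B : (ι → ZMod 2) →+ (ι → ZMod 2) →+ ZMod 2
  N : ℕ
  h0 : lv l0 = 0
  nd : ∀ β, ∀ η ∈ Gs lv β, η ≠ 0 → ∃ ε ∈ Gs lv β, B ε η + B η ε = 1
  up : ∀ β, Nat.card (Gs lv β) ≤ 4 ^ β
  lo : ∀ β ≤ N, β ≤ Nat.card (Gs lv β)

attribute [instance] Cfg.fι Cfg.lι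

lemma exists_cfg (N : ℕ) : ∃ c : Cfg, c.N = N := by
  refine ⟨@Cfg.mk (Fin (N + 1) × Bool) inferInstance
    (LinearOrder.lift' (Fintype.equivFin _) (Fintype.equivFin _).injective) (0, true)
    (fun l => l.1) (∑ i, (AddMonoidHom.mul.comp (Pi.evalAddMonoidHom _ (i, true))).compl₂
      (Pi.evalAddMonoidHom _ (i, false))) N rfl ?_ ?_ ?_, rfl⟩
  · intro β η hη h0
    obtain ⟨⟨i, b⟩, hl⟩ := Function.ne_iff.1 h0
    have h1 : η (i, b) = 1 := by
      have : ∀ a : ZMod 2, a ≠ 0 → a = 1 := by decide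
      exact this _ hl
    refine ⟨Pi.single (i, !b) 1, fun l h => Pi.single_eq_of_ne ?_ _, ?_⟩
    · rintro rfl; exact hl (hη _ h)
    · cases b <;> simp [AddMonoidHom.finsetSum_apply, Pi.single_apply, h1]
  · intro β
    have := Nat.card_le_card_of_injective
      (fun (ε : Gs (fun l : Fin (N + 1) × Bool => (l.1 : ℕ)) β) (l : Fin β × Bool) =>
        if h : (l.1 : ℕ) < N + 1 then ε.1 (⟨l.1, h⟩, l.2) else 0) (fun ε η h => by
      ext l
      by_cases hl : (l.1 : ℕ) < β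
      · simpa [l.1.2] using congrFun h (⟨l.1, hl⟩, l.2)
      · rw [ε.2 l (not_lt.1 hl), η.2 l (not_lt.1 hl)])
    simpa [Nat.card_eq_fintype_card, mul_comm β, pow_mul] using this
  · intro β hβ
    have := Nat.card_le_card_of_injective
      (fun i : Fin β => (⟨Pi.single (⟨i, by omega⟩, true) 1, fun l h => Pi.single_eq_of_ne (by
        rintro rfl; exact absurd i.2 (not_lt.2 h)) _⟩ :
          Gs (fun l : Fin (N + 1) × Bool => (l.1 : ℕ)) β)) (fun i j h => by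
      by_contra hij
      have := congrFun (congrArg Subtype.val h) (⟨i, by omega⟩, true)
      simp [Fin.ext_iff] at this hij
      rw [Pi.single_eq_of_ne (by simpa [Fin.ext_iff] using hij)] at this
      exact one_ne_zero this)
    simpa using this

namespace Cfg

variable (c : Cfg) (XX : ℕ → TP)

/-- the system of a configuration -/
noncomputable abbrev S := sys (Bool ⊕ Fin c.N) c.l0

/-- points of a configuration -/
abbrev P := Pt (Bool ⊕ Fin c.N) c.ι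

open Classical in
/-- the imposed equations -/
noncomputable def T (j : ℕ) (L : ℕ → ℕ) (m : ℕ) : Finset (Fin c.N × (c.ι → ZMod 2)) :=
  Finset.univ.filter fun v => ((v.1 : ℕ) < j ∧ L v.1 ≠ 0) ∧ v.2 ∈ Gs c.lv m ∧ v.2 ∉ Gs c.lv (L v.1)

lemma mem_T {j : ℕ} {L : ℕ → ℕ} {m : ℕ} {v} : v ∈ c.T j L m ↔
    ((v.1 : ℕ) < j ∧ L v.1 ≠ 0) ∧ v.2 ∈ Gs c.lv m ∧ v.2 ∉ Gs c.lv (L v.1) := by simp [T]

/-- their class -/
noncomputable def cT (j : ℕ) (L : ℕ → ℕ) (m : ℕ) : MvPolynomial c.ι (ZMod 2) :=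
  ∏ v ∈ c.T j L m, lf v.2

lemma cT_split (j : ℕ) (L : ℕ → ℕ) {m m' : ℕ} (h : m ≤ m') :
    ∃ s ∈ Sm c.lv m, c.cT j L m' = s * c.cT j L m := by
  classical
  refine ⟨_, prod_mem_Sm c.lv _ _ fun v hv => ?_, (Finset.prod_sdiff fun v hv => ?_).symm⟩
  · rw [Finset.mem_sdiff, mem_T, mem_T] at hv
    exact fun h' => hv.2 ⟨hv.1.1, h', hv.1.2.2⟩
  · rw [mem_T] at hv ⊢
    exact ⟨hv.1, Gs_mono _ h hv.2.1, hv.2.2⟩

lemma cT_zero (j : ℕ) (L : ℕ → ℕ) (m : ℕ) :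
    c.cT (j + 1) (Function.update L j 0) m = c.cT j L m := by
  refine Finset.prod_congr (Finset.ext fun v => ?_) fun _ _ => rfl
  rw [mem_T, mem_T]
  by_cases h : (v.1 : ℕ) = j
  · simp [h]
  · rw [Function.update_of_ne h, show (v.1 : ℕ) < j + 1 ↔ (v.1 : ℕ) < j by omega]

open Classical in
lemma cT_succ {j : ℕ} (hj : j < c.N) (L : ℕ → ℕ) {β : ℕ} (hβ : β ≠ 0) (m : ℕ) :
    c.cT (j + 1) (Function.update L j β) m =
      (∏ ε ∈ (Finset.univ.filter (· ∉ Gs c.lv β)).filter (· ∈ Gs c.lv m), lf ε) * c.cT j L m := by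
  have e : c.T (j + 1) (Function.update L j β) m =
      ((Finset.univ.filter (· ∉ Gs c.lv β)).filter (· ∈ Gs c.lv m)).map
        (Function.Embedding.sectR (⟨j, hj⟩ : Fin c.N) _) ∪ c.T j L m := by
    ext ⟨k, ε⟩
    rw [Finset.mem_union, mem_T, mem_T]
    by_cases h : (k : ℕ) = j
    · obtain rfl : k = ⟨j, hj⟩ := Fin.ext h
      simp [hβ, and_comm]
    · rw [Function.update_of_ne h, show (k : ℕ) < j + 1 ↔ (k : ℕ) < j by omega]
      simp [Fin.ext_iff, Ne.symm h]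
  rw [cT, e, Finset.prod_union, Finset.prod_map]
  · rfl
  · rw [Finset.disjoint_left]
    intro v h1 h2
    obtain ⟨ε, -, rfl⟩ := Finset.mem_map.1 h1
    exact lt_irrefl j (c.mem_T.1 h2).1.1

/-- independence of powers -/
def Ind (t : c.P) (i : ℕ) : Prop :=
  LinearIndependent t.E (fun a : Fin (2 ^ (i + 2)) => t.ev c.B c.l0 (XX i) ^ (a : ℕ))

/-- the condition at a point -/
def Good (t : c.P) (k : Fin c.N) (ℓ : ℕ) : Prop :=
  (ℓ = 0 ∧ ¬ c.Ind XX t k) ∨ (ℓ ≠ 0 ∧ c.Ind XX t k ∧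
    t.ev c.B c.l0 (XX k) * t.g c.B c.l0 (Sum.inr k) (Gs c.lv ℓ) =
      t.g c.B c.l0 (Sum.inr k) (Gs c.lv ℓ) * TG.pr c.B _ (Gs c.lv ℓ)
        (t.ev c.B c.l0 (XX k) * t.g c.B c.l0 (Sum.inr k) (Gs c.lv ℓ)))

/-- states -/
structure St (j β n : ℕ) (L : ℕ → ℕ) (W Φ : Set (Ideal (PP (Bool ⊕ Fin c.N) c.ι))) : Prop where
  h1 : β ≤ n
  h2 : n ≤ c.N
  uW : IsUpperSet W
  uΦ : IsUpperSet Φ
  mem : ∃ s ∈ Sm c.lv n, s * c.cT j L n ∈ c.S.Icl W
  nmem : ∀ s ∈ Sm c.lv β, s * c.cT j L β ∉ c.S.Icl Φ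
  good : ∀ t : c.P, RingHom.ker t.φ ∈ W → RingHom.ker t.φ ∉ Φ →
    ∀ k : Fin c.N, (k : ℕ) < j → c.Good XX t k (L k)

lemma exists_bad' (i : ℕ) : ∃ A : Set (Ideal (PP (Bool ⊕ Fin c.N) c.ι)), IsUpperSet A ∧
    ∀ t : c.P, RingHom.ker t.φ ∈ A ↔ ¬ c.Ind XX t i :=
  exists_bad (ev_mem_RS c.B c.l0 Sum.inl (XX i)) _

/-- the bad locus -/
noncomputable def bad (i : ℕ) := (c.exists_bad' XX i).choose

lemma stepA (hT : TdimStmt) {j β n β' : ℕ} {L W Φ} (h : c.St XX j β n L W Φ) (hβ : β' ≠ 0)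
    (hn : β' ≤ n) (hj : j < c.N)
    (hA : ∀ s ∈ Sm c.lv β', s * c.cT j L β' ∉ c.S.Icl (Φ ∪ (W ∩ c.bad XX j))) :
    ∃ W' Φ', c.St XX (j + 1) β' n (Function.update L j β') W' Φ' := by
  classical
  obtain ⟨b1, b2⟩ := (c.exists_bad' XX j).choose_spec
  have hX := ev_mem_RS c.B c.l0 (Sum.inl : Bool → Bool ⊕ Fin c.N) (XX j)
  have hs := s_mem c.B c.l0 (Sum.inr ⟨j, hj⟩ : Bool ⊕ Fin c.N)
  have hg := (RS c.B c.l0).sub_mem ((RS c.B c.l0).add_mem (RS c.B c.l0).one_mem hs)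
    (pr_mem_RS (Gs c.lv β') hs)
  have hXg := (RS c.B c.l0).mul_mem hX hg
  obtain ⟨A, a1, a2, a3⟩ := exists_cut hT ((RS c.B c.l0).sub_mem hXg ((RS c.B c.l0).mul_mem hg
    (pr_mem_RS (Gs c.lv β') hXg))) (Finset.univ.filter (· ∉ Gs c.lv β'))
  refine ⟨W ∩ A, Φ ∪ (W ∩ c.bad XX j), hn, h.h2, h.uW.inter a1, h.uΦ.union (h.uW.inter b1),
    ?_, ?_, fun t h1 h2 k hk => ?_⟩
  · obtain ⟨s, hs, hs'⟩ := h.mem
    have := a3 W h.uW _ hs'
    rw [← Finset.prod_filter_mul_prod_filter_not _ (· ∈ Gs c.lv n)] at this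
    refine ⟨_ * s, mul_mem (prod_mem_Sm c.lv ((Finset.univ.filter (· ∉ Gs c.lv β')).filter
      (· ∉ Gs c.lv n)) id fun ε hε => (Finset.mem_filter.1 hε).2) hs, ?_⟩
    rw [c.cT_succ hj L hβ]
    convert this using 1
    simp only [id]
    ring
  · rw [c.cT_succ hj L hβ, Finset.filter_false_of_mem (fun ε hε => (Finset.mem_filter.1 hε).2),
      Finset.prod_empty, one_mul]
    exact hA
  · rcases (Nat.lt_succ_iff.1 hk).eq_or_lt with he | hk
    · obtain rfl : k = ⟨j, hj⟩ := Fin.ext he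
      rw [Function.update_self]
      refine Or.inr ⟨hβ, not_not.1 fun h3 => h2 (Or.inr ⟨h1.1, (b2 t).2 h3⟩),
        TG.ext fun ε => ?_⟩
      by_cases hε : ε ∈ Gs c.lv β'
      · rw [TG.mul_apply_of_mem _ (TG.pr_mem _ _) hε, Pt.pr_g, one_mul, TG.pr, if_pos hε]
      · exact sub_eq_zero.1 (a2 t h1.2 ε (Finset.mem_filter.2 ⟨Finset.mem_univ _, hε⟩))
    · rw [Function.update_of_ne hk.ne]
      exact h.good t h1.1 (fun h3 => h2 (Or.inl h3)) k hk

lemma stepB {j β n β' : ℕ} {L W Φ} (h : c.St XX j β n L W Φ) (hβ : β ≤ β') (hn : β' ≤ n)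
    (hB : ∃ s ∈ Sm c.lv β', s * c.cT j L β' ∈ c.S.Icl (Φ ∪ (W ∩ c.bad XX j))) :
    c.St XX (j + 1) β β' (Function.update L j 0) (Φ ∪ (W ∩ c.bad XX j)) Φ := by
  obtain ⟨b1, b2⟩ := (c.exists_bad' XX j).choose_spec
  refine ⟨hβ, hn.trans h.h2, h.uΦ.union (h.uW.inter b1), h.uΦ, by rwa [cT_zero],
    by rw [cT_zero]; exact h.nmem, fun t h1 h2 k hk => ?_⟩
  have h3 := h1.resolve_left h2
  rcases (Nat.lt_succ_iff.1 hk).eq_or_lt with he | hk
  · subst he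
    rw [Function.update_self]
    exact Or.inl ⟨rfl, (b2 t).1 h3.2⟩
  · rw [Function.update_of_ne hk.ne]
    exact h.good t h3.1 h2 k hk

lemma wit (hT : TdimStmt) (hI : InnerStmt) (hC : CentStmt) {j β n : ℕ} {L W Φ}
    (h : c.St XX j β n L W Φ) (hβ : 1 ≤ β) (hj : j ≤ n) (R : ℕ)
    (hR : 2 * (R ^ 3 + 2 * R + ∑ i ∈ Finset.range j, 4 ^ L i) < n) :
    ∃ w : Wit, R ≤ finrank w.E (Algebra.adjoin w.E (Set.range w.s)) ∧ ∀ i < j,
      ¬ LinearIndependent w.E (fun a : Fin (2 ^ (i + 2) + 4 ^ L i) => w.ev (XX i) ^ (a : ℕ)) := by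
  classical
  obtain ⟨s, hs, hs'⟩ := h.mem
  obtain ⟨s', g1, g2⟩ := c.cT_split j L h.h1
  obtain ⟨p, p1, p2, p3, p4, p5, p6⟩ := extract c.l0 c.lv hT (β := n) (Φ := Φ)
    (by rw [c.h0]; exact hβ.trans h.h1) h.uW (c.T j L n) Prod.snd
    (fun v hv => (c.mem_T.1 hv).2.1) hs hs' (by
      change _ * c.cT j L n ∉ _
      rw [g2, ← mul_assoc]
      exact h.nmem _ (mul_mem (Sm_anti c.lv h.h1
        (prod_mem_Sm c.lv _ _ fun v hv => (mem_Hi c.lv).1 hv)) g1))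
  obtain ⟨t, rfl, t2, t3⟩ := exists_pt (B := c.B) hT p3 p4
  have hg := h.good t p1 p2
  refine ⟨⟨t.E, t.D c.B, fun b => t.s c.B c.l0 (Sum.inl b), TG.τ c.B _, TG.τ_one⟩, ?_,
    fun i hi => ?_⟩
  · let I : Finset (Fin c.N) := Finset.univ.filter fun k => (k : ℕ) < j ∧ L k ≠ 0
    have hI' : ∀ k ∈ I, (k : ℕ) < j ∧ L k ≠ 0 := fun k hk => (Finset.mem_filter.1 hk).2
    have h1 := count c.B c.l0 hT hI hC t t2 c.lv n (c.nd n) p5 I (fun k => Gs c.lv (L k))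
      (fun k => XX k) (fun k => 2 ^ ((k : ℕ) + 2)) (fun _ => by positivity)
      (fun k hk => ((hg k (hI' k hk).1).resolve_left fun h => (hI' k hk).2 h.1).2.1)
      (fun k hk => ((hg k (hI' k hk).1).resolve_left fun h => (hI' k hk).2 h.1).2.2)
      (c.T j L n) (fun v => by simp [mem_T, I]) p6
    have h2 : ∑ k ∈ I, ((Nat.card (Gs c.lv (L k)) : ℝ) +
        Nat.card (Gs c.lv n) / (2 ^ ((k : ℕ) + 2) : ℕ)) ≤
        ∑ i ∈ Finset.range j, ((4 : ℝ) ^ L i + Nat.card (Gs c.lv n) / 4 * (1 / 2) ^ i) := by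
      refine le_trans (Finset.sum_le_sum fun k _ => ?_) ((Finset.sum_map I Fin.valEmbedding
        fun i => (4 : ℝ) ^ L i + Nat.card (Gs c.lv n) / 4 * (1 / 2) ^ i).symm.trans_le
        (Finset.sum_le_sum_of_subset_of_nonneg (fun i hi => ?_) fun _ _ _ => by positivity))
      · refine add_le_add (by exact_mod_cast c.up _) (le_of_eq ?_)
        simp only [Fin.valEmbedding_apply]
        push_cast
        rw [one_div_pow]
        field_simp
        ring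
      · obtain ⟨k, hk, rfl⟩ := Finset.mem_map.1 hi
        exact Finset.mem_range.2 (hI' k hk).1
    rw [Finset.sum_add_distrib (s := Finset.range j), ← Finset.mul_sum] at h2
    have h3 := mul_le_mul_of_nonneg_left (sum_geometric_two_le j)
      (show (0 : ℝ) ≤ Nat.card (Gs c.lv n) / 4 by positivity)
    have h4 : ((2 * (R ^ 3 + 2 * R + ∑ i ∈ Finset.range j, 4 ^ L i) : ℕ) : ℝ) <
      Nat.card (Gs c.lv n) := Nat.cast_lt.2 (hR.trans_le (c.lo n h.h2))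
    push_cast at h4
    by_contra hc
    have h5 : (finrank t.E (Algebra.adjoin t.E (Set.range fun b =>
      t.s c.B c.l0 (Sum.inl b))) : ℝ) ≤ R := Nat.cast_le.2 (not_le.1 hc).le
    have h6 := pow_le_pow_left₀ (Nat.cast_nonneg _) h5 3
    linarith
  · rcases hg ⟨i, by have := h.h2; omega⟩ hi with h1 | h1
    · exact fun hl => h1.2 (hl.comp (Fin.castLE (Nat.le_add_right _ _)) (Fin.castLE_injective _))
    · refine dep_of_conj (TG.sub c.B _ (Gs c.lv (L i))) h1.2.2 (t.g_ne _ _ _ _) (TG.pr_mem _ _) ?_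
      rw [TG.finrank_sub]
      exact (c.up _).trans_lt (Nat.lt_add_of_pos_left (by positivity))

end Cfg

/-- families of states -/
def Fam (XX : ℕ → TP) (j : ℕ) (L : ℕ → ℕ) : Prop :=
  ∃ β, 1 ≤ β ∧ ∀ M, ∃ (c : Cfg) (n : ℕ) (W Φ : _), M ≤ n ∧ c.St XX j β n L W Φ

lemma fam_zero (hT : TdimStmt) (XX : ℕ → TP) : Fam XX 0 fun _ => 0 := by
  refine ⟨1, le_rfl, fun M => ?_⟩
  obtain ⟨c, hc⟩ := exists_cfg (M + 1)
  have e : ∀ m, c.cT 0 (fun _ => 0) m = 1 := fun m =>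
    Finset.prod_eq_one fun v hv => absurd rfl (c.mem_T.1 hv).1.2
  refine ⟨c, M + 1, Set.univ, ∅, by omega, by omega, hc.ge, isUpperSet_univ, isUpperSet_empty,
    ⟨1, one_mem _, by rw [e, one_mul]; exact c.S.one_mem hT⟩, fun s hs h => ?_,
    fun _ _ _ k hk => by omega⟩
  rw [e, mul_one, Sys.Icl, Set.empty_inter, Set.image_empty, Ideal.span_empty] at h
  exact Sm_ne c.lv hs h

lemma fam_succ (hT : TdimStmt) (XX : ℕ → TP) (j : ℕ) (L : ℕ → ℕ) (h : Fam XX j L) :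
    ∃ x, Fam XX (j + 1) (Function.update L j x) := by
  obtain ⟨β, hβ, h⟩ := h
  by_cases hA : ∃ β', β ≤ β' ∧ ∀ M, ∃ (c : Cfg) (n : ℕ) (W Φ : _), M ≤ n ∧ c.St XX j β n L W Φ ∧
      ∀ s ∈ Sm c.lv β', s * c.cT j L β' ∉ c.S.Icl (Φ ∪ (W ∩ c.bad XX j))
  · obtain ⟨β', h1, h2⟩ := hA
    refine ⟨β', β', hβ.trans h1, fun M => ?_⟩
    obtain ⟨c, n, W, Φ, h3, h4, h5⟩ := h2 (M + β' + j + 1)
    obtain ⟨W', Φ', h6⟩ := c.stepA XX hT h4 (by omega) (by omega) (by have := h4.h2; omega) h5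
    exact ⟨c, n, W', Φ', by omega, h6⟩
  · push Not at hA
    refine ⟨0, β, hβ, fun M => ?_⟩
    obtain ⟨M', h1⟩ := hA (β + M) (by omega)
    obtain ⟨c, n, W, Φ, h2, h3⟩ := h (M' + β + M)
    exact ⟨c, β + M, _, _, by omega, c.stepB XX h3 (by omega) (by omega)
      (h1 c n W Φ (by omega) h3)⟩

theorem main (hT : TdimStmt) (hI : InnerStmt) (hC : CentStmt) :
    ∃ (b : TP → ℕ) (W : ℕ → Wit), (∀ X, ∀ᶠ j in Filter.atTop,
      ¬ LinearIndependent (W j).E (fun i : Fin (b X) => (W j).ev X ^ (i : ℕ))) ∧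
    (∀ j, j ≤ finrank (W j).E (Algebra.adjoin (W j).E (Set.range (W j).s))) := by
  have : Countable Wd := inferInstanceAs (Countable (List Bool))
  have : Countable Tc := (AddMonoidAlgebra.coeff_injective).countable
  have : Countable TP := (MonoidAlgebra.coeff_injective).countable
  obtain ⟨XX, hXX⟩ := exists_surjective_nat TP
  obtain ⟨L, hL⟩ := exists_seq_update (Fam XX) _ (fam_zero hT XX) (fam_succ hT XX)
  have key : ∀ j, ∃ w : Wit, j ≤ finrank w.E (Algebra.adjoin w.E (Set.range w.s)) ∧ ∀ i < j,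
      ¬ LinearIndependent w.E (fun a : Fin (2 ^ (i + 2) + 4 ^ L i) => w.ev (XX i) ^ (a : ℕ)) := by
    intro j
    obtain ⟨L', ⟨β, hβ, h⟩, hL'⟩ := hL j
    obtain ⟨c, n, W, Φ, h1, h2⟩ :=
      h (2 * (j ^ 3 + 2 * j + ∑ i ∈ Finset.range j, 4 ^ L' i) + 1 + j)
    obtain ⟨w, h3, h4⟩ := c.wit XX hT hI hC h2 hβ (by omega) j (by omega)
    exact ⟨w, h3, fun i hi => hL' i hi ▸ h4 i hi⟩
  choose W h1 h2 using key
  choose i hi using hXX
  refine ⟨fun X => 2 ^ (i X + 2) + 4 ^ L (i X), W, fun X => ?_, h1⟩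
  filter_upwards [Filter.eventually_gt_atTop (i X)] with j hj
  have := h2 j (i X) hj
  rwa [hi] at this

end Crest.Agent.R180
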