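import Crest.Agent.R180.Loc

/-! Points, homogenisation of sections, the bad locus and the conjugation equations. -/

open Module MvPolynomial

namespace Crest.Agent.R180

attribute [-instance] instDecidableEqLex

lemma exists_minor {E G : Type} [Field E] [Fintype G] {θ : ℕ} (M : Matrix (Fin θ) G E)
    (h : LinearIndependent E M.row) : ∃ f : Fin θ → G, (M.submatrix id f).det ≠ 0 := by
  obtain ⟨κ, a, ha, hsp, hli⟩ := exists_linearIndependent' E M.col
  have : Finite κ := Finite.of_injective a ha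
  have := Fintype.ofFinite κ
  have h1 : Fintype.card κ = θ := by
    rw [linearIndependent_iff_card_eq_finrank_span.1 hli, Set.finrank, hsp,
      ← Matrix.rank_eq_finrank_span_cols, h.rank_matrix, Fintype.card_fin]
  let e := (Fintype.equivFinOfCardEq h1).symm
  refine ⟨a ∘ e, ?_⟩
  have h2 : IsUnit (M.submatrix id (a ∘ e)) :=
    Matrix.linearIndependent_cols_iff_isUnit.1 (hli.comp e e.injective)
  exact ((Matrix.isUnit_iff_isUnit_det _).1 h2).ne_zero

/-- value of a trace polynomial -/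
noncomputable def evG {E D : Type} [Field E] [CharZero E] [Ring D] [Algebra E D] (s : Bool → D)
    (τ : D →ₗ[E] E) (X : TP) : D :=
  X.coeff.sum fun w q =>
    (aeval (fun w' => τ (FreeMonoid.lift s w')) q : E) • FreeMonoid.lift s w

variable {ι : Type} [Fintype ι] [LinearOrder ι] {K : Type} [Fintype K]
  (B : (ι → ZMod 2) →+ (ι → ZMod 2) →+ ZMod 2) (l0 : ι)

/-- the coordinate ring -/
abbrev PP (K ι : Type) : Type := MvPolynomial (Vr K ι) ℚ

/-- the generic algebra -/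
abbrev TP' (K : Type) (B : (ι → ZMod 2) →+ (ι → ZMod 2) →+ ZMod 2) : Type :=
  TG B (xP (K × (ι → ZMod 2)) ι)

variable (K) in
/-- the denominator -/
noncomputable def zz : PP K ι := X (Sum.inr l0) * ∏ l, X (Sum.inr l)

/-- its degree -/
def D0 : Gm ι := (ee l0 + ee l0) + ∑ l, (ee l + ee l)

/-- the generic element of a block -/
noncomputable def sP (k : K) : TP' K B :=
  fun ε => X (Sum.inl (k, ε)) * ∏ l, X (Sum.inr l) ^ (1 - (ε l).val)

lemma zz_hom : IsWeightedHomogeneous (sys K l0).w (zz K l0) (D0 l0) :=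
  (isWeightedHomogeneous_X ℚ _ _).mul
    (IsWeightedHomogeneous.prod _ _ _ fun _ _ => isWeightedHomogeneous_X ℚ _ _)

lemma sP_hom (k : K) : (gT B (sys K l0).toWt ee).π (D0 l0) (sP B k) = sP B k := by
  refine gT_iff.2 fun ε => ?_
  have h := (isWeightedHomogeneous_X ℚ (sys K l0).w (Sum.inl (k, ε))).mul
    (IsWeightedHomogeneous.prod (w := (sys K l0).w) Finset.univ
      (fun l => (X (Sum.inr l) : PP K ι) ^ (1 - (ε l).val)) _
      fun l _ => (isWeightedHomogeneous_X ℚ _ _).pow _)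
  refine (show _ = _ from ?_ : D0 l0 - lift ee ε = _) ▸ h
  change _ = lift ee ε + (ee l0 + ee l0) + ∑ l, (1 - (ε l).val) • (ee l + ee l)
  rw [sub_eq_iff_eq_add, D0, add_comm (lift ee ε), add_assoc (ee l0 + ee l0),
    add_assoc (ee l0 + ee l0), add_right_inj, lift,
    ← Finset.sum_add_distrib, ← Finset.sum_add_distrib]
  refine Finset.sum_congr rfl fun l _ => ?_
  have : ∀ a : ZMod 2, 2 = a.val + (1 - a.val) * 2 + a.val := by decide
  rw [← two_nsmul, ← mul_smul, ← add_smul, ← add_smul, ← this]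

/-- points with nonzero squares -/
structure Pt (K ι : Type) where
  E : Type
  [fE : Field E]
  [cE : CharZero E]
  φ : PP K ι →+* E
  hx : ∀ l, φ (X (Sum.inr l)) ≠ 0

attribute [instance] Pt.fE Pt.cE

namespace Pt

variable (t : Pt K ι)

/-- the algebra at a point -/
abbrev D : Type := TG B (t.φ ∘ xP (K × (ι → ZMod 2)) ι)

/-- specialisation -/
noncomputable def Φ : TP' K B →+* t.D B := TG.map t.φ rfl

omit [Fintype K] [LinearOrder ι] in
lemma hz : t.φ (zz K l0) ≠ 0 := by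
  rw [zz, map_mul, map_prod]
  exact mul_ne_zero (t.hx _) (Finset.prod_ne_zero_iff.2 fun l _ => t.hx l)

/-- the elements of the blocks -/
noncomputable def s (k : K) : t.D B := (t.φ (zz K l0))⁻¹ • t.Φ B (sP B k)

end Pt

/-- homogeneous representatives -/
def Rp (a : ∀ t : Pt K ι, t.D B) (e : ℕ) (a' : TP' K B) : Prop :=
  (gT B (sys K l0).toWt ee).π (e • D0 l0) a' = a' ∧
    ∀ t, a t = (t.φ (zz K l0))⁻¹ ^ e • t.Φ B a'

variable {B l0}

lemma Rp.raise {a : ∀ t : Pt K ι, t.D B} {e : ℕ} {a' : TP' K B} (h : Rp B l0 a e a') (n : ℕ) :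
    Rp B l0 a (n + e) (zz K l0 ^ n • a') := by
  refine ⟨?_, fun t => ?_⟩
  · rw [add_smul]; exact gm_gT _ _ _ _ ((zz_hom l0).pow n) h.1
  · rw [h.2 t, Pt.Φ, TG.map_smul', smul_smul, map_pow]
    congr 1
    rw [pow_add, mul_right_comm, ← mul_pow, inv_mul_cancel₀ (t.hz l0), one_pow, one_mul]

variable (B l0)

/-- sections with a homogeneous representative -/
def RS : Subring (∀ t : Pt K ι, t.D B) where
  carrier := {a | ∃ e a', Rp B l0 a e a'}
  mul_mem' := by
    rintro a b ⟨e, a', ha⟩ ⟨f, b', hb⟩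
    refine ⟨e + f, a' * b', ?_, fun t => ?_⟩
    · rw [add_smul]; exact gT_mul (fun _ => rfl) ha.1 hb.1
    · rw [Pi.mul_apply, ha.2, hb.2, map_mul, smul_mul_smul_comm, pow_add]
  one_mem' := ⟨0, 1, by
    have := gT_u (B := B) (W := (sys K l0).toWt) (e := ee) 0
    rwa [lift_zero, ← zero_smul ℕ (D0 l0)] at this, fun t => by simp⟩
  add_mem' := by
    rintro a b ⟨e, a', ha⟩ ⟨f, b', hb⟩
    have h1 := ha.raise f
    have h2 := hb.raise e
    rw [add_comm] at h2
    exact ⟨f + e, zz K l0 ^ f • a' + zz K l0 ^ e • b', by rw [map_add, h1.1, h2.1], fun t => by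
      rw [Pi.add_apply, h1.2, h2.2, map_add, smul_add]⟩
  zero_mem' := ⟨0, 0, map_zero _, fun t => by simp⟩
  neg_mem' := by
    rintro a ⟨e, a', ha⟩
    exact ⟨e, -a', by rw [map_neg, ha.1], fun t => by rw [Pi.neg_apply, ha.2, map_neg, smul_neg]⟩

lemma s_mem (k : K) : (fun t => t.s B l0 k) ∈ RS B l0 :=
  ⟨1, sP B k, by rw [one_smul]; exact sP_hom B l0 k, fun t => by rw [pow_one]; rfl⟩

variable {B l0}

lemma pr_mem_RS (H : AddSubgroup (ι → ZMod 2)) {a : ∀ t : Pt K ι, t.D B} (ha : a ∈ RS B l0) :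
    (fun t => TG.pr B _ H (a t)) ∈ RS B l0 := by
  obtain ⟨e, a', ha⟩ := ha
  refine ⟨e, TG.pr B _ H a', gT_iff.2 fun ε => ?_, fun t => TG.ext fun ε => ?_⟩
  · rw [TG.pr]
    split_ifs
    · exact gT_iff.1 ha.1 ε
    · exact isWeightedHomogeneous_zero _ _ _
  · beta_reduce
    rw [ha.2, TG.smul_apply, Pt.Φ, TG.map_apply, TG.pr, TG.pr]
    split_ifs
    · rfl
    · rw [map_zero, smul_zero]

lemma tr_mem_RS {a : ∀ t : Pt K ι, t.D B} (ha : a ∈ RS B l0) :
    (fun t => algebraMap t.E _ (TG.τ B _ (a t))) ∈ RS B l0 := by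
  convert pr_mem_RS ⊥ ha using 2 with t
  refine TG.ext fun ε => ?_
  rw [Algebra.algebraMap_eq_smul_one, TG.smul_apply, TG.one_apply, TG.pr, TG.τ_apply]
  by_cases h : ε = 0 <;> simp [h]

variable (B l0)

lemma rat_mem_RS (q : ℚ) :
    (fun t : Pt K ι => algebraMap t.E (t.D B) (algebraMap ℚ t.E q)) ∈ RS B l0 := by
  obtain ⟨e, a', ha⟩ := (RS (K := K) B l0).one_mem
  refine ⟨e, (C q : PP K ι) • a', ?_, fun t => ?_⟩
  · rw [← zero_add (e • D0 l0)]; exact gm_gT _ _ _ _ (isWeightedHomogeneous_C _ _) ha.1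
  · beta_reduce
    rw [Pt.Φ, TG.map_smul', smul_comm, ← Pt.Φ, ← ha.2, Algebra.algebraMap_eq_smul_one]
    congr 1
    exact (eq_ratCast _ q).trans (eq_ratCast (t.φ.comp C) q).symm

lemma ev_mem_RS (κ : Bool → K) (X : TP) :
    (fun t : Pt K ι => evG (fun b => t.s B l0 (κ b)) (TG.τ B _) X) ∈ RS B l0 := by
  have hw : ∀ w : Wd, (fun t : Pt K ι => FreeMonoid.lift (fun b => t.s B l0 (κ b)) w) ∈
      RS B l0 := by
    intro w
    induction w using FreeMonoid.inductionOn' with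
    | one => simp only [map_one]; exact (RS B l0).one_mem
    | of_mul b w ih =>
      simp only [map_mul, FreeMonoid.lift_eval_of]
      exact (RS B l0).mul_mem (s_mem B l0 _) ih
  have hq : ∀ q : Tc, (fun t : Pt K ι => algebraMap t.E (t.D B) (aeval (fun w' => TG.τ B _
      (FreeMonoid.lift (fun b => t.s B l0 (κ b)) w')) q)) ∈ RS B l0 := by
    intro q
    induction q using MvPolynomial.induction_on with
    | C a => simp only [aeval_C]; exact rat_mem_RS B l0 a
    | add p q hp hq => simp only [map_add]; exact (RS B l0).add_mem hp hq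
    | mul_X p w hp => simp only [map_mul, aeval_X]; exact (RS B l0).mul_mem hp (tr_mem_RS (hw w))
  simp only [evG, Finsupp.sum, Algebra.smul_def]
  convert (RS B l0).sum_mem (t := X.coeff.support) fun w _ =>
    (RS B l0).mul_mem (hq (X.coeff w)) (hw w) using 1
  funext t
  rw [Finset.sum_apply]
  rfl

variable {B l0}

/-- the bad locus -/
lemma exists_bad {a : ∀ t : Pt K ι, t.D B} (ha : a ∈ RS B l0) (θ : ℕ) :
    ∃ A : Set (Ideal (PP K ι)), IsUpperSet A ∧ ∀ t : Pt K ι, RingHom.ker t.φ ∈ A ↔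
      ¬ LinearIndependent t.E (fun i : Fin θ => a t ^ (i : ℕ)) := by
  obtain ⟨e, a', ha⟩ := ha
  refine ⟨{p | ∀ f : Fin θ → ι → ZMod 2,
    (Matrix.of fun i j : Fin θ => (a' ^ (i : ℕ)) (f j)).det ∈ p},
    fun p q h hp f => h (hp f), fun t => ?_⟩
  let M : Matrix (Fin θ) (ι → ZMod 2) t.E := Matrix.of fun i ε => (t.Φ B a' ^ (i : ℕ)) ε
  have e1 : ∀ f : Fin θ → ι → ZMod 2, t.φ (Matrix.of fun i j : Fin θ =>
      (a' ^ (i : ℕ)) (f j)).det = (M.submatrix id f).det := by
    intro f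
    rw [RingHom.map_det]
    congr 1
    ext i j
    simp only [M, ← map_pow]
    rfl
  have e2 : LinearIndependent t.E (fun i : Fin θ => a t ^ (i : ℕ)) ↔
      LinearIndependent t.E M.row := by
    have := LinearIndependent.units_smul_iff (fun i : Fin θ => t.Φ B a' ^ (i : ℕ))
      (fun i => (Units.mk0 _ (t.hz l0))⁻¹ ^ (e * i))
    refine Iff.trans ?_ this
    congr! 2 with i
    rw [ha.2, smul_pow, ← pow_mul]
    simp [Units.smul_def]
  simp only [Set.mem_ofPred_eq, RingHom.mem_ker, e1, e2]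
  constructor
  · intro h hl
    obtain ⟨f, hf⟩ := exists_minor M hl
    exact hf (h f)
  · intro h f
    by_contra hc
    exact h (LinearIndependent.of_comp (LinearMap.funLeft t.E t.E f)
      (Matrix.linearIndependent_rows_of_det_ne_zero hc))

/-- cutting by the components of a section -/
lemma exists_cut (hT : TdimStmt) {a : ∀ t : Pt K ι, t.D B} (ha : a ∈ RS B l0)
    (T : Finset (ι → ZMod 2)) :
    ∃ A : Set (Ideal (PP K ι)), IsUpperSet A ∧ (∀ t : Pt K ι, RingHom.ker t.φ ∈ A →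
      ∀ ε ∈ T, a t ε = 0) ∧ ∀ W, IsUpperSet W → ∀ c ∈ (sys K l0).Icl W,
        (∏ ε ∈ T, lf ε) * c ∈ (sys K l0).Icl (W ∩ A) := by
  obtain ⟨e, a', ha⟩ := ha
  refine ⟨{p | ∀ ε ∈ T, a' ε ∈ p}, fun p q h hp ε hε => h (hp ε hε), fun t ht ε hε => ?_,
    fun W hW c hc => ?_⟩
  · rw [ha.2, TG.smul_apply, Pt.Φ, TG.map_apply, ht ε hε, smul_zero]
  · have := (sys K l0).cut_prod hT hW T (gT_iff.1 ha.1) hc
    rwa [Finset.prod_congr rfl fun ε _ => psi_ell l0 _ ε fun l => ?_] at this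
    rw [map_sub, map_nsmul]
    simp only [D0, map_add, map_sum, crd_lift, Int.cast_sub, nsmul_eq_mul,
      Int.cast_mul, Int.cast_add, Int.cast_sum, CharTwo.add_self_eq_zero, Finset.sum_const_zero,
      mul_zero, zero_sub, CharTwo.neg_eq, Int.cast_natCast, ZMod.natCast_zmod_val]

/-- the point of a prime -/
lemma exists_pt (hT : TdimStmt) {p : Ideal (PP K ι)} (hp : p ∈ (sys K l0).GP)
    (hc : (sys K l0).cl p ≠ 0) : ∃ t : Pt K ι, RingHom.ker t.φ = p ∧
      (∀ e : t.E, ∃ a b, t.φ b ≠ 0 ∧ e * t.φ b = t.φ a) ∧ IsDomain (t.D B) := by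
  have := hp.1
  let E := FractionRing (PP K ι ⧸ p)
  let φ : PP K ι →+* E := (algebraMap (PP K ι ⧸ p) E).comp (Ideal.Quotient.mk p)
  have hk : ∀ a, φ a = 0 ↔ a ∈ p := fun a =>
    (IsFractionRing.to_map_eq_zero_iff (R := PP K ι ⧸ p)).trans Ideal.Quotient.eq_zero_iff_mem
  have : CharZero E := (φ.comp C).charZero_iff (φ.comp C).injective |>.1 inferInstance
  let t : Pt K ι := ⟨E, φ, fun l h => X_inr_notMem l0 hT hp hc l ((hk _).1 h)⟩
  have hf : ∀ e : E, ∃ a b, φ b ≠ 0 ∧ e * φ b = φ a := by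
    intro e
    obtain ⟨a, b, hb, rfl⟩ := IsFractionRing.div_surjective (PP K ι ⧸ p) e
    obtain ⟨a, rfl⟩ := Ideal.Quotient.mk_surjective a
    obtain ⟨b, rfl⟩ := Ideal.Quotient.mk_surjective b
    have hb' : φ b ≠ 0 :=
      IsFractionRing.to_map_ne_zero_of_mem_nonZeroDivisors (R := PP K ι ⧸ p) hb
    exact ⟨a, b, hb', div_mul_cancel₀ _ hb'⟩
  have hD : ∀ a : t.D B, ∃ (c : E) (a' : TP' K B), c ≠ 0 ∧ c • a = t.Φ B a' := by
    intro a
    classical
    choose n d hd hn using hf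
    refine ⟨∏ ε, φ (d (a ε)), fun ε => n (a ε) * ∏ η ∈ Finset.univ.erase ε, d (a η),
      Finset.prod_ne_zero_iff.2 fun _ _ => hd _, TG.ext fun ε => ?_⟩
    change _ * _ = φ (_ * _)
    rw [map_mul, ← hn, map_prod, ← Finset.mul_prod_erase _ _ (Finset.mem_univ ε)]
    ring
  have hΦ : ∀ a', t.Φ B a' = 0 ↔ a' ∈ pG B p := fun a' =>
    ⟨fun h => mem_pG.2 fun ε => (hk _).1 (congrFun h ε),
      fun h => TG.ext fun ε => (hk _).2 (mem_pG.1 h ε)⟩
  refine ⟨t, Ideal.ext hk, hf, ?_⟩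
  have : Nontrivial (t.D B) := ⟨1, 0, fun h => by
    have := congrFun h 0
    rw [TG.one_apply, if_pos rfl] at this
    exact one_ne_zero this⟩
  have : NoZeroDivisors (t.D B) := ⟨fun {a b} hab => by
    obtain ⟨c, a', hc1, ha⟩ := hD a
    obtain ⟨d, b', hd, hb⟩ := hD b
    have h1 : t.Φ B (a' * b') = 0 := by
      rw [map_mul, ← ha, ← hb, smul_mul_smul_comm, hab, smul_zero]
    refine (dom (e := ee) (sys K l0) hT two_eq_zero (fun _ => rfl) hp hc _ _
      ((hΦ _).1 h1)).imp (fun h => ?_) fun h => ?_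
    · exact (smul_eq_zero.1 (ha.trans ((hΦ _).2 h))).resolve_left hc1
    · exact (smul_eq_zero.1 (hb.trans ((hΦ _).2 h))).resolve_left hd⟩
  exact NoZeroDivisors.to_isDomain _

end Crest.Agent.R180
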