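import Crest.Agent.R180.Defs

/-! Row 180, sub-task D0: transcendence degrees of prime quotients and derivations. -/

open Module Cardinal

namespace Crest.Agent.R180

namespace D0

lemma exists_der_basis {E : Type} [Field E] [CharZero E] {κ : Type} [DecidableEq κ] {x : κ → E}
    (hx : IsTranscendenceBasis ℚ x) :
    ∃ D : κ → Derivation ℚ E E, ∀ i j, D i (x j) = if j = i then 1 else 0 := by
  let S := MvPolynomial κ ℚ
  let : Algebra S E := (MvPolynomial.aeval x : S →ₐ[ℚ] E).toRingHom.toAlgebra
  have : IsScalarTower ℚ S E := IsScalarTower.of_algebraMap_eq' (Subsingleton.elim _ _)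
  have : FaithfulSMul S E := (faithfulSMul_iff_algebraMap_injective S E).2 hx.1
  have : Algebra.IsAlgebraic S E := by
    have := hx.isAlgebraic
    exact Algebra.IsAlgebraic.of_ringHom_of_comp_eq hx.1.aevalEquiv (RingHom.id E)
      hx.1.aevalEquiv.surjective Function.injective_id
      (RingHom.ext fun a => hx.1.algebraMap_aevalEquiv a)
  let := FractionRing.liftAlgebra S E
  have : Algebra.IsAlgebraic (FractionRing S) E :=
    Algebra.IsAlgebraic.extendScalars (R := S) (IsFractionRing.injective S _)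
  have : Algebra.FormallyEtale S (FractionRing S) :=
    Algebra.FormallyEtale.of_isLocalization (nonZeroDivisors S)
  have : Algebra.FormallyEtale (FractionRing S) E := Algebra.FormallyEtale.of_isSeparable _ _
  have : Algebra.FormallyEtale S E := Algebra.FormallyEtale.comp S (FractionRing S) E
  let e := KaehlerDifferential.tensorKaehlerEquivOfFormallyEtale ℚ S E
  let B := (KaehlerDifferential.mvPolynomialBasis ℚ κ).baseChange E
  refine ⟨fun i => ((B.coord i).comp e.symm.toLinearMap).compDer (KaehlerDifferential.D ℚ E),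
    fun i j => ?_⟩
  have h1 : x j = algebraMap S E (MvPolynomial.X j) := (MvPolynomial.aeval_X x j).symm
  have h2 : e.symm (KaehlerDifferential.D ℚ E (x j)) = B j := by
    rw [h1, KaehlerDifferential.tensorKaehlerEquivOfFormallyEtale_symm_D_algebraMap,
      Basis.baseChange_apply, KaehlerDifferential.mvPolynomialBasis_apply]
  show B.coord i (e.symm (KaehlerDifferential.D ℚ E (x j))) = _
  rw [h2, Basis.coord_apply, Basis.repr_self, Finsupp.single_apply]

lemma exists_der {E : Type} [Field E] [CharZero E] {ι : Type} [DecidableEq ι] {b : ι → E}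
    (hb : AlgebraicIndependent ℚ b) :
    ∃ D : ι → Derivation ℚ E E, ∀ i j, D i (b j) = if j = i then 1 else 0 := by
  classical
  obtain ⟨t, ht, hx⟩ := exists_isTranscendenceBasis_superset hb.to_subtype_range
  obtain ⟨D, hD⟩ := exists_der_basis hx
  refine ⟨fun i => D ⟨b i, ht ⟨i, rfl⟩⟩, fun i j => ?_⟩
  have := hD ⟨b i, ht ⟨i, rfl⟩⟩ ⟨b j, ht ⟨j, rfl⟩⟩
  simpa [hb.injective.eq_iff] using this

lemma trdeg_drop {A B : Type} [CommRing A] [IsDomain A] [CommRing B] [IsDomain B] [Algebra ℚ A]
    [Algebra ℚ B] (π : A →ₐ[ℚ] B) (hπ : Function.Surjective π) {f : A} (hf : f ≠ 0)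
    (hf' : π f = 0) : Algebra.trdeg ℚ B + 1 ≤ Algebra.trdeg ℚ A := by
  obtain ⟨ι, x, hx⟩ := exists_isTranscendenceBasis' ℚ B
  choose y hy using fun i => hπ (x i)
  have hxy : π ∘ y = x := funext hy
  have h1 : AlgebraicIndependent ℚ y := AlgebraicIndependent.of_comp π (hxy ▸ hx.1)
  have h2 : Transcendental (Algebra.adjoin ℚ (Set.range y)) f := by
    intro h
    obtain ⟨⟨r, hr⟩, hr0, c, hc⟩ := h.exists_nonzero_dvd (mem_nonZeroDivisors_of_ne_zero hf)
    rw [Algebra.adjoin_range_eq_range_aeval] at hr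
    obtain ⟨G, rfl⟩ := hr
    have h3 : MvPolynomial.aeval x G = 0 := by
      rw [← funext hy, ← MvPolynomial.comp_aeval_apply]
      have : MvPolynomial.aeval y G = f * c := hc
      rw [this, map_mul, hf', zero_mul]
    have h4 : G = 0 := hx.1.eq_zero_of_aeval_eq_zero G h3
    exact hr0 (Subtype.ext (by simp [h4]))
  have h3 := ((h1.option_iff_transcendental f).2 h2).cardinalMk_le_trdeg
  rwa [mk_option, hx.cardinalMk_eq_trdeg] at h3

lemma trdeg_le {σ : Type} [Fintype σ] (p : Ideal (MvPolynomial σ ℚ)) :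
    Algebra.trdeg ℚ (MvPolynomial σ ℚ ⧸ p) ≤ (Fintype.card σ : Cardinal) := by
  have := trdeg_le_of_surjective (Ideal.Quotient.mkₐ ℚ p) (Ideal.Quotient.mkₐ_surjective ℚ p)
  rwa [MvPolynomial.trdeg_of_isDomain, lift_id, mk_fintype] at this

lemma cast_tdim {σ : Type} [Fintype σ] (p : Ideal (MvPolynomial σ ℚ)) :
    (tdim p : Cardinal) = Algebra.trdeg ℚ (MvPolynomial σ ℚ ⧸ p) :=
  cast_toNat_of_lt_aleph0 ((trdeg_le p).trans_lt (natCast_lt_aleph0))

end D0

theorem tdimStmt : TdimStmt := by
  intro σ _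
  refine ⟨fun p _ => ?_, fun p q hp hq hpq => ?_, fun p E _ _ φ hφ _ => ?_⟩
  · have := D0.trdeg_le p
    rw [← D0.cast_tdim] at this
    exact_mod_cast this
  · obtain ⟨f, hfq, hfp⟩ := SetLike.exists_of_lt hpq
    have := D0.trdeg_drop (Ideal.Quotient.factorₐ ℚ hpq.le) (Ideal.Quotient.factor_surjective hpq.le)
      (f := Ideal.Quotient.mk p f) (by rwa [Ne, Ideal.Quotient.eq_zero_iff_mem])
      (Ideal.Quotient.eq_zero_iff_mem.2 hfq)
    rw [← D0.cast_tdim, ← D0.cast_tdim] at this
    exact_mod_cast this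
  · subst hφ
    have := RingHom.ker_isPrime φ
    obtain ⟨ι, x, hx⟩ := exists_isTranscendenceBasis' ℚ (MvPolynomial σ ℚ ⧸ RingHom.ker φ)
    have hc : #ι = #(Fin (tdim (RingHom.ker φ))) := by
      rw [hx.cardinalMk_eq_trdeg, mk_fin, D0.cast_tdim]
    obtain ⟨e⟩ := Cardinal.eq.1 hc
    have h1 := (hx.1.comp _ e.symm.injective).map' (f := (RingHom.kerLift φ).toRatAlgHom)
      (RingHom.kerLift_injective φ)
    obtain ⟨D, hD⟩ := D0.exists_der h1
    refine ⟨Fintype.linearCombination E D, fun v hv => ?_⟩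
    have h2 : ∀ a, Fintype.linearCombination E D v (φ a) = 0 := by
      intro a
      induction a using MvPolynomial.induction_on with
      | C r =>
        have : φ (MvPolynomial.C r) = algebraMap ℚ E r :=
          RingHom.congr_fun (Subsingleton.elim (φ.comp MvPolynomial.C) (algebraMap ℚ E)) r
        rw [this, Derivation.map_algebraMap]
      | add a b ha hb => rw [map_add, map_add, ha, hb, add_zero]
      | mul_X a i ha => rw [map_mul, Derivation.leibniz, ha, hv, smul_zero, smul_zero, add_zero]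
    funext j
    obtain ⟨a, ha⟩ := Ideal.Quotient.mk_surjective (x (e.symm j))
    have h3 := h2 a
    have h4 : φ a = (⇑(RingHom.kerLift φ).toRatAlgHom ∘ x ∘ e.symm) j := by
      simp [← ha]
    rw [h4, Fintype.linearCombination_apply, ← Derivation.coeFnAddMonoidHom_apply, map_sum,
      Finset.sum_apply] at h3
    simpa only [Derivation.coeFnAddMonoidHom_apply, Derivation.smul_apply, hD, smul_eq_mul,
      mul_ite, mul_one, mul_zero, Finset.sum_ite_eq, Finset.mem_univ, if_true, Pi.zero_apply] using h3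

end Crest.Agent.R180
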